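import Vale.Agent.P017.H185P.Pkg

namespace Vale.Agent.P017.PP

open Finset

noncomputable def Gf (a b : ℕ) : ℝ := wt (a * b) * ∑ c ∈ b.divisors, (jacobiSym a c : ℝ)

theorem J_mul_right (a : ℤ) (m n : ℕ) (hm : m ≠ 0) (hn : n ≠ 0) :
    (jacobiSym a (m * n) : ℝ) = (jacobiSym a m : ℝ) * (jacobiSym a n : ℝ) := by
  have := NeZero.mk hm
  have := NeZero.mk hn
  rw [jacobiSym.mul_right]; push_cast; rfl

theorem Gf_zero {a b : ℕ} (h : ¬ (Squarefree (a * b) ∧ Odd (a * b))) : Gf a b = 0 := by
  unfold Gf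
  have : wt (a * b) = 0 := by
    by_contra hne
    exact h (wt_ne_zero hne)
  rw [this, zero_mul]

theorem Gf_eq {a b : ℕ} (hs : Squarefree (a * b)) (ho : Odd (a * b)) :
    Gf a b = wt a * allp (gu a) b := by
  unfold Gf
  have hb : Squarefree b := hs.squarefree_of_dvd (Dvd.intro_left a rfl)
  have hob : Odd b := (Nat.odd_mul.mp ho).2
  have hcop : Nat.Coprime a b := (Nat.squarefree_mul_iff.mp hs).1
  rw [wt_mul hs, mul_assoc, wt_mul_sum hb hob (χ := fun c => (jacobiSym a c : ℝ)) (by simp)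
    (fun m n hm hn => J_mul_right a m n hm hn)]
  congr 1
  have h1 : ∀ p ∈ b.primeFactors, gu a p = jacobiSym a p := by
    intro p hp
    have hpb := Nat.dvd_of_mem_primeFactors hp
    unfold gu
    rw [if_pos (hob.of_dvd_nat hpb)]
  rw [allp_eq_prod]
  · refine prod_congr rfl fun p hp => ?_
    rw [h1 p hp]
  · intro p hp
    have hpp := Nat.prime_of_mem_primeFactors hp
    have hpb := Nat.dvd_of_mem_primeFactors hp
    rw [h1 p hp]
    have hne : jacobiSym a p ≠ 0 := by
      have := NeZero.mk hpp.ne_zero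
      rw [Ne, jacobiSym.eq_zero_iff_not_coprime, Int.gcd_natCast_natCast, not_not]
      exact hcop.coprime_dvd_right hpb
    rcases jacobiSym.trichotomy a p with h | h | h
    · exact absurd h hne
    · exact Or.inl h
    · exact Or.inr h

theorem Gf_nonneg (a b : ℕ) : 0 ≤ Gf a b := by
  by_cases h : Squarefree (a * b) ∧ Odd (a * b)
  · rw [Gf_eq h.1 h.2]; exact mul_nonneg (wt_nonneg a) (allp_nonneg _ _)
  · rw [Gf_zero h]

theorem Gf_le_wt (a b : ℕ) : Gf a b ≤ wt a := by
  by_cases h : Squarefree (a * b) ∧ Odd (a * b)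
  · rw [Gf_eq h.1 h.2]
    exact mul_le_of_le_one_right (wt_nonneg a) (allp_le_one _ _)
  · rw [Gf_zero h]; exact wt_nonneg a

theorem Gf_le_mf (a b : ℕ) : Gf a b ≤ mf (hg (gu a)) b := by
  by_cases h : Squarefree (a * b) ∧ Odd (a * b)
  · rw [Gf_eq h.1 h.2, allp_le_mf _ (h.1.squarefree_of_dvd (Dvd.intro_left a rfl))]
    exact mul_le_of_le_one_left (mf_nonneg (hg_nonneg _) _) (wt_le_one a)
  · rw [Gf_zero h]; exact mf_nonneg (hg_nonneg _) _

theorem Gf_le_one (a b : ℕ) : Gf a b ≤ 1 := (Gf_le_wt a b).trans (wt_le_one a)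

theorem wt_mul_le (m n : ℕ) : wt (m * n) ≤ wt n := by
  by_cases h : Squarefree (m * n)
  · rw [wt_mul h]; exact mul_le_of_le_one_left (wt_nonneg n) (wt_le_one m)
  · have : wt (m * n) = 0 := by
      by_contra hne
      exact h (wt_ne_zero hne).1
    rw [this]; exact wt_nonneg n

theorem sum_if {a M : ℕ} (ha : 1 ≤ a) (F : ℕ → ℝ) :
    ∑ b ∈ Icc 1 M, (if a * b ≤ M then F b else 0) = ∑ b ∈ Icc 1 (M / a), F b := by
  rw [← sum_filter]
  apply sum_congr _ fun _ _ => rfl
  ext b
  simp only [mem_filter, mem_Icc]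
  rw [Nat.le_div_iff_mul_le ha, mul_comm b a]
  constructor
  · rintro ⟨⟨h1, -⟩, h2⟩; exact ⟨h1, h2⟩
  · rintro ⟨h1, h2⟩; exact ⟨⟨h1, le_trans (Nat.le_mul_of_pos_left b ha) h2⟩, h2⟩

/-- restricting the outer variable -/
theorem sum_restrict {M L : ℕ} {F : ℕ → ℝ} (hF : ∀ a, 0 ≤ F a) :
    ∑ a ∈ Icc 1 M, (if a ≤ L then F a else 0) ≤ ∑ a ∈ Icc 1 L, F a := by
  rw [← sum_filter]
  apply sum_le_sum_of_subset_of_nonneg
  · intro a ha
    rw [mem_filter, mem_Icc] at ha
    rw [mem_Icc]
    exact ⟨ha.1.1, ha.2⟩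
  · intro a _ _; exact hF a

theorem sum_inv_mul_le {L : ℕ} {c ρ : ℝ} (hc : 0 ≤ c) (h : (1 + Real.log L) * ρ ≤ 1) (hρ : 0 ≤ ρ) :
    ∑ a ∈ Icc 1 L, c * (1 / (a : ℝ)) * ρ ≤ c := by
  rw [← sum_mul, ← mul_sum]
  calc c * (∑ a ∈ Icc 1 L, 1 / (a : ℝ)) * ρ ≤ c * (1 + Real.log L) * ρ := by
        apply mul_le_mul_of_nonneg_right _ hρ
        exact mul_le_mul_of_nonneg_left (harm_le L) hc
    _ = c * ((1 + Real.log L) * ρ) := by ring
    _ ≤ c * 1 := mul_le_mul_of_nonneg_left h hc
    _ = c := mul_one c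

theorem wt_tau (n : ℕ) : wt n * ∑ _c ∈ n.divisors, (1 : ℝ) ≤ 1 := by
  by_cases h : Squarefree n ∧ Odd n
  · rw [wt_mul_sum h.1 h.2 (χ := fun _ => 1) rfl (fun _ _ _ _ => by ring)]
    apply le_of_eq
    apply prod_eq_one
    intro p _; norm_num
  · have : wt n = 0 := by
      by_contra hne
      exact h (wt_ne_zero hne)
    rw [this]; simp

/-- the summand of the main bilinear part -/
noncomputable def Ph (L M c a d : ℕ) : ℝ :=
  if a * (c * d) ≤ M then (if L < a ∧ L < c * d then wt (a * (c * d)) * (jacobiSym a c : ℝ) else 0)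
  else 0

theorem Ph_le (L M c a d : ℕ) : Ph L M c a d ≤
    (if a * (c * d) ≤ M then wt (a * (c * d)) * (jacobiSym a c : ℝ) else 0) +
    (if a ≤ L then (if (a * c) * d ≤ M then wt d else 0) else 0) +
    (if d ≤ L then (if (c * d) * a ≤ M then wt a else 0) else 0) := by
  unfold Ph
  have e1 : a * c * d = a * (c * d) := by ring
  have e2 : c * d * a = a * (c * d) := by ring
  have w1 : wt (a * (c * d)) ≤ wt d := by rw [← e1]; exact wt_mul_le _ _
  have w2 : wt (a * (c * d)) ≤ wt a := by rw [← e2]; exact wt_mul_le _ _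
  rw [e1, e2]
  by_cases hM : a * (c * d) ≤ M
  · rw [if_pos hM, if_pos hM, if_pos hM, if_pos hM]
    have hJ := abs_le.mp (J_abs_le a c)
    have h0 := wt_nonneg (a * (c * d))
    have hd0 := wt_nonneg d
    have ha0 := wt_nonneg a
    have hlow : 0 ≤ wt (a * (c * d)) * (jacobiSym a c : ℝ) + wt (a * (c * d)) := by nlinarith
    by_cases h : L < a ∧ L < c * d
    · rw [if_pos h]
      have i1 : (0 : ℝ) ≤ if a ≤ L then wt d else 0 := by split <;> linarith
      have i2 : (0 : ℝ) ≤ if d ≤ L then wt a else 0 := by split <;> linarith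
      linarith
    · rw [if_neg h]
      by_cases h1 : a ≤ L
      · rw [if_pos h1]
        have i2 : (0 : ℝ) ≤ if d ≤ L then wt a else 0 := by split <;> linarith
        linarith
      · rw [if_neg h1]
        have h2 : c * d ≤ L := by
          by_contra hcon
          exact h ⟨by omega, by omega⟩
        by_cases hc : c = 0
        · -- then the weight vanishes
          have : wt (a * (c * d)) = 0 := by
            by_contra hne
            have := (wt_ne_zero hne).1.ne_zero
            rw [hc] at this; simp at this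
          rw [this]
          have i2 : (0 : ℝ) ≤ if d ≤ L then wt a else 0 := by split <;> linarith
          linarith
        · have h3 : d ≤ L := le_trans (Nat.le_mul_of_pos_left d (Nat.pos_of_ne_zero hc)) h2
          rw [if_pos h3]
          linarith
  · rw [if_neg hM, if_neg hM, if_neg hM, if_neg hM]
    simp

theorem main_le {M c : ℕ} (hc : 1 ≤ c) :
    ∑ a ∈ Icc 1 M, ∑ d ∈ Icc 1 M, (if a * (c * d) ≤ M then wt (a * (c * d)) * (jacobiSym a c : ℝ)
      else 0) ≤ ∑ n ∈ Icc 1 (M / c), mf (hg (gl c)) n := by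
  have h1 := reindex M (fun n a => if c * n ≤ M then wt (c * n) * (jacobiSym a c : ℝ) else 0)
  have h2 : ∑ a ∈ Icc 1 M, ∑ d ∈ Icc 1 M, (if a * (c * d) ≤ M then
      wt (a * (c * d)) * (jacobiSym a c : ℝ) else 0) =
      ∑ a ∈ Icc 1 M, ∑ d ∈ Icc 1 M, if a * d ≤ M then
        (if c * (a * d) ≤ M then wt (c * (a * d)) * (jacobiSym a c : ℝ) else 0) else 0 := by
    refine sum_congr rfl fun a _ => sum_congr rfl fun d _ => ?_
    rw [show a * (c * d) = c * (a * d) by ring]
    by_cases h : c * (a * d) ≤ M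
    · rw [if_pos h, if_pos (le_trans (Nat.le_mul_of_pos_left _ hc) h)]
    · rw [if_neg h]; simp
  rw [h2, ← h1]
  have h3 : ∀ n, ∑ a ∈ n.divisors, (if c * n ≤ M then wt (c * n) * (jacobiSym a c : ℝ) else 0) =
      if c * n ≤ M then wt (c * n) * ∑ a ∈ n.divisors, (jacobiSym a c : ℝ) else 0 := by
    intro n
    split
    · rw [mul_sum]
    · simp
  rw [sum_congr rfl fun n _ => h3 n, sum_if hc]
  refine sum_le_sum fun n _ => ?_
  by_cases h : Squarefree (c * n) ∧ Odd (c * n)
  · have hn : Squarefree n := h.1.squarefree_of_dvd (Dvd.intro_left c rfl)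
    have hon : Odd n := (Nat.odd_mul.mp h.2).2
    have hcop : Nat.Coprime c n := (Nat.squarefree_mul_iff.mp h.1).1
    rw [wt_mul h.1, mul_assoc, wt_mul_sum hn hon (χ := fun a => (jacobiSym a c : ℝ)) (by simp)
      (fun m n _ _ => by push_cast; rw [jacobiSym.mul_left]; push_cast; rfl)]
    have h4 : allp (gl c) n = ∏ p ∈ n.primeFactors, ((1 + ((gl c p : ℤ) : ℝ)) / 2) := by
      apply allp_eq_prod
      intro p hp
      have hpn := Nat.dvd_of_mem_primeFactors hp
      unfold gl
      have hne : jacobiSym p c ≠ 0 := by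
        have := NeZero.mk (show c ≠ 0 by omega)
        rw [Ne, jacobiSym.eq_zero_iff_not_coprime, Int.gcd_natCast_natCast, not_not]
        exact (hcop.coprime_dvd_right hpn).symm
      rcases jacobiSym.trichotomy p c with h | h | h
      · exact absurd h hne
      · exact Or.inl h
      · exact Or.inr h
    unfold gl at h4
    rw [← h4, ← allp_le_mf _ hn]
    exact mul_le_of_le_one_left (allp_nonneg _ _) (wt_le_one c)
  · have : wt (c * n) = 0 := by
      by_contra hne
      exact h (wt_ne_zero hne)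
    rw [this, zero_mul]
    exact mf_nonneg (hg_nonneg _) _

theorem Ph_one {L M : ℕ} : ∑ a ∈ Icc 1 M, ∑ d ∈ Icc 1 M, Ph L M 1 a d ≤ M := by
  have h1 := reindex M (fun n _ => wt n)
  calc ∑ a ∈ Icc 1 M, ∑ d ∈ Icc 1 M, Ph L M 1 a d
      ≤ ∑ a ∈ Icc 1 M, ∑ d ∈ Icc 1 M, (if a * d ≤ M then wt (a * d) else 0) := by
        refine sum_le_sum fun a _ => sum_le_sum fun d _ => ?_
        unfold Ph
        rw [one_mul]
        split
        · split
          · rw [jacobiSym.one_right]; simp
          · exact wt_nonneg _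
        · exact le_rfl
    _ = ∑ n ∈ Icc 1 M, ∑ a ∈ n.divisors, wt n := h1.symm
    _ ≤ ∑ n ∈ Icc 1 M, (1 : ℝ) := by
        refine sum_le_sum fun n _ => ?_
        have := wt_tau n
        rw [mul_sum] at this
        simpa using this
    _ = M := by simp

theorem Ph_zero {L M c : ℕ} (h : ¬ (Squarefree c ∧ Odd c)) (a d : ℕ) : Ph L M c a d = 0 := by
  unfold Ph
  have : wt (a * (c * d)) = 0 := by
    by_contra hne
    have h1 := wt_ne_zero hne
    apply h
    have hd : c ∣ a * (c * d) := ⟨a * d, by ring⟩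
    exact ⟨h1.1.squarefree_of_dvd hd, h1.2.of_dvd_nat hd⟩
  rw [this]; simp

theorem Ph_large {L M : ℕ} {K : ℝ} (hK : 0 < K) (hM : 2 ≤ M)
    (hB : ∀ d : ℕ, 1 ≤ d → ∀ α γ : ℕ → ℝ, (∀ n, |α n| ≤ 1) → (∀ n, |γ n| ≤ 1) →
    (∀ n, α n ≠ 0 → Squarefree n ∧ Odd n) → (∀ n, γ n ≠ 0 → Squarefree n ∧ Odd n) →
    |∑ a ∈ Ioc L (M / d), ∑ c ∈ Ioc L (M / d / a), α a * γ c * (jacobiSym a c : ℝ)| ≤
      K * (M / d) / (1 + Real.log M)) :
    ∑ c ∈ Icc 1 M, (if L < c then ∑ a ∈ Icc 1 M, ∑ d ∈ Icc 1 M, Ph L M c a d else 0) ≤ K * M := by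
  have hMR : (1 : ℝ) < M := by exact_mod_cast (by omega : 1 < M)
  have hlog : 0 < 1 + Real.log M := by have := Real.log_pos hMR; linarith
  obtain ⟨u, hu⟩ : ∃ u : ℕ → ℕ → ℝ, u = fun d n => if Nat.Coprime n d then wt n else 0 := ⟨_, rfl⟩
  have hu1 : ∀ d n, |u d n| ≤ 1 := by
    intro d n
    rw [hu]; dsimp only
    split
    · rw [abs_of_nonneg (wt_nonneg n)]; exact wt_le_one n
    · simp
  have hus : ∀ d n, u d n ≠ 0 → Squarefree n ∧ Odd n := by
    intro d n h
    rw [hu] at h; dsimp only at h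
    split at h
    · exact wt_ne_zero h
    · exact absurd rfl h
  have hfac : ∀ a c d : ℕ, wt (a * (c * d)) * (jacobiSym a c : ℝ) =
      wt d * (u d a * u d c * (jacobiSym a c : ℝ)) := by
    intro a c d
    by_cases h : Squarefree (a * (c * d))
    · have h1 := Nat.squarefree_mul_iff.mp h
      have h2 := Nat.squarefree_mul_iff.mp h1.2.2
      rw [wt_mul h, wt_mul h1.2.2, hu]
      dsimp only
      rw [if_pos (Nat.Coprime.coprime_mul_left_right h1.1), if_pos h2.1]
      ring
    · have h0 : wt (a * (c * d)) = 0 := by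
        by_contra hne
        exact h (wt_ne_zero hne).1
      rw [h0, zero_mul]
      symm
      by_contra hne
      have hd0 : wt d ≠ 0 := fun h => hne (by rw [h]; ring)
      have ha0 : u d a ≠ 0 := fun h => hne (by rw [h]; ring)
      have hc0 : u d c ≠ 0 := fun h => hne (by rw [h]; ring)
      have hJ0 : jacobiSym a c ≠ 0 := fun h => hne (by rw [h]; simp)
      have hcopac : Nat.Coprime a c := by
        by_contra hcon
        apply hJ0
        have := NeZero.mk ((hus d c hc0).1.ne_zero)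
        rw [jacobiSym.eq_zero_iff_not_coprime, Int.gcd_natCast_natCast]
        exact hcon
      have hcopad : Nat.Coprime a d := by
        by_contra hcon
        apply ha0; rw [hu]; dsimp only; rw [if_neg hcon]
      have hcopcd : Nat.Coprime c d := by
        by_contra hcon
        apply hc0; rw [hu]; dsimp only; rw [if_neg hcon]
      apply h
      rw [Nat.squarefree_mul_iff]
      refine ⟨Nat.Coprime.mul_right hcopac hcopad, (hus d a ha0).1, ?_⟩
      rw [Nat.squarefree_mul_iff]
      exact ⟨hcopcd, (hus d c hc0).1, (wt_ne_zero hd0).1⟩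
  have hre : ∑ c ∈ Icc 1 M, (if L < c then ∑ a ∈ Icc 1 M, ∑ d ∈ Icc 1 M, Ph L M c a d else 0) =
      ∑ d ∈ Icc 1 M, wt d * ∑ a ∈ Ioc L (M / d), ∑ c ∈ Ioc L (M / d / a),
        u d a * u d c * (jacobiSym a c : ℝ) := by
    have s1 : ∀ c ∈ Icc 1 M, (if L < c then ∑ a ∈ Icc 1 M, ∑ d ∈ Icc 1 M, Ph L M c a d else 0) =
        ∑ d ∈ Icc 1 M, ∑ a ∈ Icc 1 M, if L < c then Ph L M c a d else 0 := by
      intro c _
      split
      · rw [sum_comm]
      · simp
    rw [sum_congr rfl s1, sum_comm]
    refine sum_congr rfl fun d hd => ?_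
    rw [mem_Icc] at hd
    rw [sum_comm, mul_sum]
    symm
    have s2 : Ioc L (M / d) ⊆ Icc 1 M := by
      intro a ha
      rw [mem_Ioc] at ha
      rw [mem_Icc]
      have := Nat.div_le_self M d
      omega
    apply sum_subset_zero_on_sdiff s2
    · intro a ha
      rw [mem_sdiff, mem_Icc, mem_Ioc] at ha
      apply sum_eq_zero
      intro c hc
      rw [mem_Icc] at hc
      split
      next hLc =>
        unfold Ph
        split
        next hle =>
          rw [if_neg]
          rintro ⟨h1, -⟩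
          apply ha.2
          refine ⟨h1, ?_⟩
          rw [Nat.le_div_iff_mul_le (by omega)]
          refine le_trans ?_ hle
          exact Nat.mul_le_mul_left a (Nat.le_mul_of_pos_left d (by omega))
        next => rfl
      next => rfl
    · intro a ha
      rw [mem_Ioc] at ha
      have ha1 : 1 ≤ a := by omega
      rw [mul_sum]
      have s3 : Ioc L (M / d / a) ⊆ Icc 1 M := by
        intro c hc
        rw [mem_Ioc] at hc
        rw [mem_Icc]
        have h1 := Nat.div_le_self M d
        have h2 := Nat.div_le_self (M / d) a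
        omega
      apply sum_subset_zero_on_sdiff s3
      · intro c hc
        rw [mem_sdiff, mem_Icc, mem_Ioc] at hc
        split
        next hLc =>
          unfold Ph
          rw [if_neg]
          intro hle
          apply hc.2
          refine ⟨hLc, ?_⟩
          rw [Nat.le_div_iff_mul_le (by omega), Nat.le_div_iff_mul_le (by omega)]
          rw [show c * a * d = a * (c * d) by ring]
          exact hle
        next => rfl
      · intro c hc
        rw [mem_Ioc] at hc
        rw [if_pos hc.1]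
        unfold Ph
        rw [if_pos, if_pos, ← hfac]
        · refine ⟨ha.1, lt_of_lt_of_le hc.1 (Nat.le_mul_of_pos_right c (by omega))⟩
        · have h1 := hc.2
          rw [Nat.le_div_iff_mul_le (by omega), Nat.le_div_iff_mul_le (by omega)] at h1
          rw [show a * (c * d) = c * a * d by ring]
          exact h1
  rw [hre]
  calc ∑ d ∈ Icc 1 M, wt d * ∑ a ∈ Ioc L (M / d), ∑ c ∈ Ioc L (M / d / a),
        u d a * u d c * (jacobiSym a c : ℝ)
      ≤ ∑ d ∈ Icc 1 M, K * (M / d) / (1 + Real.log M) := by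
        refine sum_le_sum fun d hd => ?_
        rw [mem_Icc] at hd
        have h1 := hB d hd.1 (u d) (u d) (hu1 d) (hu1 d) (hus d) (hus d)
        have h2 := (abs_le.mp h1).2
        have h3 : 0 ≤ K * ((M : ℝ) / d) / (1 + Real.log M) := by positivity
        calc wt d * _ ≤ wt d * (K * (M / d) / (1 + Real.log M)) :=
              mul_le_mul_of_nonneg_left h2 (wt_nonneg d)
          _ ≤ 1 * (K * (M / d) / (1 + Real.log M)) :=
              mul_le_mul_of_nonneg_right (wt_le_one d) h3
          _ = _ := one_mul _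
    _ = (K * M / (1 + Real.log M)) * ∑ d ∈ Icc 1 M, 1 / (d : ℝ) := by
        rw [mul_sum]
        refine sum_congr rfl fun d _ => ?_
        ring
    _ ≤ (K * M / (1 + Real.log M)) * (1 + Real.log M) := by
        apply mul_le_mul_of_nonneg_left (harm_le M) (by positivity)
    _ = K * M := by field_simp

/-- first moment of the number of solutions -/
noncomputable def gm (m : ℕ) : ℝ := ∑ a ∈ m.divisors, Gf a (m / a)

theorem gm_nonneg (m : ℕ) : 0 ≤ gm m := sum_nonneg fun _ _ => Gf_nonneg _ _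

theorem E2 (hSW : SWH) : ∃ C : ℝ, 0 < C ∧ ∃ M₀ : ℕ, ∀ M : ℕ, M₀ ≤ M →
    ∑ m ∈ Icc 1 M, gm m ≤ C * M := by
  obtain ⟨K, hK, M₀, hP⟩ := pkg hSW
  refine ⟨2 + 7 * K, by positivity, M₀, fun M hM => ?_⟩
  obtain ⟨L, ρ, hL1, hM2, hρ0, hρ1, hLρ, hW, hH, hB⟩ := hP M hM
  have hMR : (0 : ℝ) ≤ M := Nat.cast_nonneg M
  have hre := reindex M (fun m a => Gf a (m / a))
  have e0 : ∑ m ∈ Icc 1 M, gm m = ∑ a ∈ Icc 1 M, ∑ b ∈ Icc 1 M,
      if a * b ≤ M then Gf a b else 0 := by
    unfold gm
    rw [hre]
    refine sum_congr rfl fun a ha => sum_congr rfl fun b _ => ?_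
    rw [mem_Icc] at ha
    rw [Nat.mul_div_cancel_left b (by omega)]
  rw [e0]
  -- three parts
  have e1 : ∑ a ∈ Icc 1 M, ∑ b ∈ Icc 1 M, (if a * b ≤ M then Gf a b else 0) ≤
      ∑ a ∈ Icc 1 M, (if a ≤ L then ∑ b ∈ Icc 1 M, (if a * b ≤ M then Gf a b else 0) else 0) +
      ∑ b ∈ Icc 1 M, (if b ≤ L then ∑ a ∈ Icc 1 M, (if b * a ≤ M then Gf a b else 0) else 0) +
      ∑ a ∈ Icc 1 M, ∑ b ∈ Icc 1 M, (if a * b ≤ M then (if L < a ∧ L < b then Gf a b else 0)
        else 0) := by
    have f1 : ∀ a ∈ Icc 1 M, (if a ≤ L then ∑ b ∈ Icc 1 M, (if a * b ≤ M then Gf a b else 0)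
        else 0) = ∑ b ∈ Icc 1 M, (if a ≤ L then (if a * b ≤ M then Gf a b else 0) else 0) := by
      intro a _; split
      · rfl
      · simp
    have f2 : ∀ b ∈ Icc 1 M, (if b ≤ L then ∑ a ∈ Icc 1 M, (if b * a ≤ M then Gf a b else 0)
        else 0) = ∑ a ∈ Icc 1 M, (if b ≤ L then (if b * a ≤ M then Gf a b else 0) else 0) := by
      intro b _; split
      · rfl
      · simp
    rw [sum_congr rfl f1, sum_congr rfl f2,
      sum_comm (s := Icc 1 M) (t := Icc 1 M)
        (f := fun b a => (if b ≤ L then (if b * a ≤ M then Gf a b else 0) else 0)),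
      ← sum_add_distrib, ← sum_add_distrib]
    refine sum_le_sum fun a _ => ?_
    rw [← sum_add_distrib, ← sum_add_distrib]
    refine sum_le_sum fun b _ => ?_
    have h0 := Gf_nonneg a b
    rw [mul_comm b a]
    by_cases hab : a * b ≤ M
    · rw [if_pos hab, if_pos hab]
      by_cases h1 : a ≤ L
      · rw [if_pos h1]
        have i1 : (0 : ℝ) ≤ if b ≤ L then Gf a b else 0 := by split <;> linarith
        have i2 : (0 : ℝ) ≤ if L < a ∧ L < b then Gf a b else 0 := by split <;> linarith
        linarith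
      · rw [if_neg h1]
        by_cases h2 : b ≤ L
        · rw [if_pos h2]
          have i2 : (0 : ℝ) ≤ if L < a ∧ L < b then Gf a b else 0 := by split <;> linarith
          linarith
        · rw [if_neg h2, if_pos ⟨by omega, by omega⟩]; linarith
    · rw [if_neg hab, if_neg hab]; simp
  -- part 1
  have p1 : ∑ a ∈ Icc 1 M, (if a ≤ L then ∑ b ∈ Icc 1 M, (if a * b ≤ M then Gf a b else 0)
      else 0) ≤ M + K * M := by
    have h1 : ∑ a ∈ Icc 1 M, (if a ≤ L then ∑ b ∈ Icc 1 M, (if a * b ≤ M then Gf a b else 0)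
      else 0) ≤ ∑ a ∈ Icc 1 L, ∑ b ∈ Icc 1 M, (if a * b ≤ M then Gf a b else 0) := by
      apply sum_restrict
      intro a
      apply sum_nonneg
      intro b _
      split
      · exact Gf_nonneg a b
      · exact le_rfl
    refine h1.trans ?_
    have h2 : ∀ a ∈ Icc 1 L, ∑ b ∈ Icc 1 M, (if a * b ≤ M then Gf a b else 0) ≤
        (if a = 1 then (M : ℝ) else 0) + K * M * (1 / (a : ℝ)) * ρ := by
      intro a ha
      rw [mem_Icc] at ha
      rw [sum_if ha.1]
      have haR : (0 : ℝ) < a := by exact_mod_cast ha.1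
      have h3 : 0 ≤ K * M * (1 / (a : ℝ)) * ρ := by positivity
      by_cases ha1 : a = 1
      · rw [if_pos ha1]
        have : ∑ b ∈ Icc 1 (M / a), Gf a b ≤ M := by
          calc ∑ b ∈ Icc 1 (M / a), Gf a b ≤ ∑ b ∈ Icc 1 (M / a), (1 : ℝ) :=
                sum_le_sum fun b _ => Gf_le_one a b
            _ = ((M / a : ℕ) : ℝ) := by simp
            _ ≤ M := by exact_mod_cast Nat.div_le_self M a
        linarith
      · rw [if_neg ha1, zero_add]
        by_cases hs : Squarefree a
        · have h4 := hH a ha.1 ha.2 (4 * a) (by omega) (by omega) (gu a) (gu_per a)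
            (gu_trich a) (fun n => gu_cop n) (gu_sum hs ha1)
          calc ∑ b ∈ Icc 1 (M / a), Gf a b ≤ ∑ b ∈ Icc 1 (M / a), mf (hg (gu a)) b :=
                sum_le_sum fun b _ => Gf_le_mf a b
            _ ≤ _ := h4
            _ = _ := by ring
        · have : ∑ b ∈ Icc 1 (M / a), Gf a b = 0 := by
            apply sum_eq_zero
            intro b _
            apply Gf_zero
            intro h
            exact hs (h.1.squarefree_of_dvd (Dvd.intro b rfl))
          rw [this]; exact h3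
    refine (sum_le_sum h2).trans ?_
    rw [sum_add_distrib]
    apply add_le_add
    · rw [sum_ite_eq' (Icc 1 L) 1 (fun _ => (M : ℝ))]
      split
      · exact le_rfl
      · exact hMR
    · exact sum_inv_mul_le (by positivity) hLρ hρ0.le
  -- part 2
  have p2 : ∑ b ∈ Icc 1 M, (if b ≤ L then ∑ a ∈ Icc 1 M, (if b * a ≤ M then Gf a b else 0)
      else 0) ≤ K * M := by
    have h1 : ∑ b ∈ Icc 1 M, (if b ≤ L then ∑ a ∈ Icc 1 M, (if b * a ≤ M then Gf a b else 0)
      else 0) ≤ ∑ b ∈ Icc 1 L, ∑ a ∈ Icc 1 M, (if b * a ≤ M then Gf a b else 0) := by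
      apply sum_restrict
      intro b
      apply sum_nonneg
      intro a _
      split
      · exact Gf_nonneg a b
      · exact le_rfl
    refine h1.trans ?_
    have h2 : ∀ b ∈ Icc 1 L, ∑ a ∈ Icc 1 M, (if b * a ≤ M then Gf a b else 0) ≤
        K * M * (1 / (b : ℝ)) * ρ := by
      intro b hb
      rw [mem_Icc] at hb
      rw [sum_if hb.1]
      have hbR : (0 : ℝ) < b := by exact_mod_cast hb.1
      calc ∑ a ∈ Icc 1 (M / b), Gf a b ≤ ∑ a ∈ Icc 1 (M / b), wt a :=
            sum_le_sum fun a _ => Gf_le_wt a b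
        _ ≤ K * (M / b) * ρ ^ 2 := hW b hb.1 (hb.2.trans (by nlinarith))
        _ ≤ K * (M / b) * ρ := by
            apply mul_le_mul_of_nonneg_left _ (by positivity)
            nlinarith
        _ = _ := by ring
    exact (sum_le_sum h2).trans (sum_inv_mul_le (by positivity) hLρ hρ0.le)
  -- part 3
  have p3 : ∑ a ∈ Icc 1 M, ∑ b ∈ Icc 1 M, (if a * b ≤ M then
      (if L < a ∧ L < b then Gf a b else 0) else 0) ≤ M + 3 * (K * M) + K * M := by
    have r1 : ∀ a ∈ Icc 1 M, ∑ b ∈ Icc 1 M, (if a * b ≤ M then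
        (if L < a ∧ L < b then Gf a b else 0) else 0) =
        ∑ c ∈ Icc 1 M, ∑ d ∈ Icc 1 M, Ph L M c a d := by
      intro a ha
      rw [mem_Icc] at ha
      have h1 := reindex M (fun b c => if a * b ≤ M then
        (if L < a ∧ L < b then wt (a * b) * (jacobiSym a c : ℝ) else 0) else 0)
      have h2 : ∑ b ∈ Icc 1 M, (if a * b ≤ M then (if L < a ∧ L < b then Gf a b else 0) else 0) =
          ∑ b ∈ Icc 1 M, ∑ c ∈ b.divisors, (if a * b ≤ M then
            (if L < a ∧ L < b then wt (a * b) * (jacobiSym a c : ℝ) else 0) else 0) := by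
        refine sum_congr rfl fun b _ => ?_
        split
        · split
          · unfold Gf; rw [mul_sum]
          · simp
        · simp
      rw [h2, h1]
      refine sum_congr rfl fun c _ => sum_congr rfl fun d _ => ?_
      unfold Ph
      by_cases h : a * (c * d) ≤ M
      · rw [if_pos h, if_pos (le_trans (Nat.le_mul_of_pos_left _ ha.1) h)]
      · rw [if_neg h]; simp
    rw [sum_congr rfl r1, sum_comm]
    -- split over c
    have r2 : ∀ c ∈ Icc 1 M, ∑ a ∈ Icc 1 M, ∑ d ∈ Icc 1 M, Ph L M c a d ≤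
        (if c = 1 then (M : ℝ) else 0) +
        (if c ≤ L then (K * M * (1 / (c : ℝ)) * ρ + 2 * (K * M * (1 / (c : ℝ)) * ρ)) else 0) +
        (if L < c then ∑ a ∈ Icc 1 M, ∑ d ∈ Icc 1 M, Ph L M c a d else 0) := by
      intro c hc
      rw [mem_Icc] at hc
      have hcR : (0 : ℝ) < c := by exact_mod_cast hc.1
      have hpos : 0 ≤ K * M * (1 / (c : ℝ)) * ρ := by positivity
      by_cases hLc : L < c
      · have hcn1 : c ≠ 1 := by omega
        have hcnL : ¬ c ≤ L := by omega
        rw [if_neg hcn1, if_neg hcnL, if_pos hLc]; simp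
      have hcL : c ≤ L := by omega
      rw [if_neg hLc, if_pos hcL, add_zero]
      by_cases hc1 : c = 1
      · rw [if_pos hc1, hc1]
        have := Ph_one (L := L) (M := M)
        rw [hc1] at hpos
        linarith
      rw [if_neg hc1, zero_add]
      by_cases hs : Squarefree c ∧ Odd c
      · have q1 : ∑ a ∈ Icc 1 M, ∑ d ∈ Icc 1 M, Ph L M c a d ≤
            ∑ a ∈ Icc 1 M, ∑ d ∈ Icc 1 M, (if a * (c * d) ≤ M then
              wt (a * (c * d)) * (jacobiSym a c : ℝ) else 0) +
            ∑ a ∈ Icc 1 M, ∑ d ∈ Icc 1 M,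
              (if a ≤ L then (if (a * c) * d ≤ M then wt d else 0) else 0) +
            ∑ a ∈ Icc 1 M, ∑ d ∈ Icc 1 M,
              (if d ≤ L then (if (c * d) * a ≤ M then wt a else 0) else 0) := by
          rw [← sum_add_distrib, ← sum_add_distrib]
          refine sum_le_sum fun a _ => ?_
          rw [← sum_add_distrib, ← sum_add_distrib]
          exact sum_le_sum fun d _ => Ph_le L M c a d
        have q2 : ∑ a ∈ Icc 1 M, ∑ d ∈ Icc 1 M, (if a * (c * d) ≤ M then
              wt (a * (c * d)) * (jacobiSym a c : ℝ) else 0) ≤ K * M * (1 / (c : ℝ)) * ρ := by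
          refine (main_le hc.1).trans ?_
          have h4 := hH c hc.1 (by omega) c hc.1 (by omega) (gl c) (gl_per c)
            (gl_trich c) (fun n => gl_cop (by omega) n) (gl_sum hs.1 hs.2 hc1)
          refine h4.trans (le_of_eq ?_)
          ring
        have hsmall : ∀ a ∈ Icc 1 L, ∑ d ∈ Icc 1 M, (if (a * c) * d ≤ M then wt d else 0) ≤
            (K * M * (1 / (c : ℝ)) * ρ) * (1 / (a : ℝ)) * ρ := by
          intro a ha
          rw [mem_Icc] at ha
          have haR : (0 : ℝ) < a := by exact_mod_cast ha.1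
          rw [sum_if (Nat.mul_pos ha.1 hc.1)]
          refine (hW (a * c) (Nat.mul_pos ha.1 hc.1) ?_).trans (le_of_eq ?_)
          · rw [pow_two]; exact Nat.mul_le_mul ha.2 (by omega)
          · push_cast; field_simp
        have q3 : ∑ a ∈ Icc 1 M, ∑ d ∈ Icc 1 M,
              (if a ≤ L then (if (a * c) * d ≤ M then wt d else 0) else 0) ≤
              K * M * (1 / (c : ℝ)) * ρ := by
          have f1 : ∀ a ∈ Icc 1 M, ∑ d ∈ Icc 1 M,
              (if a ≤ L then (if (a * c) * d ≤ M then wt d else 0) else 0) =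
              if a ≤ L then ∑ d ∈ Icc 1 M, (if (a * c) * d ≤ M then wt d else 0) else 0 := by
            intro a _; split
            · rfl
            · simp
          rw [sum_congr rfl f1]
          refine (sum_restrict ?_).trans ((sum_le_sum hsmall).trans
            (sum_inv_mul_le hpos hLρ hρ0.le))
          intro a
          apply sum_nonneg
          intro d _
          split
          · exact wt_nonneg d
          · exact le_rfl
        have q4 : ∑ a ∈ Icc 1 M, ∑ d ∈ Icc 1 M,
              (if d ≤ L then (if (c * d) * a ≤ M then wt a else 0) else 0) ≤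
              K * M * (1 / (c : ℝ)) * ρ := by
          rw [sum_comm]
          have f1 : ∀ d ∈ Icc 1 M, ∑ a ∈ Icc 1 M,
              (if d ≤ L then (if (c * d) * a ≤ M then wt a else 0) else 0) =
              if d ≤ L then ∑ a ∈ Icc 1 M, (if (d * c) * a ≤ M then wt a else 0) else 0 := by
            intro d _
            rw [mul_comm c d]
            split
            · rfl
            · simp
          rw [sum_congr rfl f1]
          refine (sum_restrict ?_).trans ((sum_le_sum hsmall).trans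
            (sum_inv_mul_le hpos hLρ hρ0.le))
          intro a
          apply sum_nonneg
          intro d _
          split
          · exact wt_nonneg d
          · exact le_rfl
        linarith
      · have : ∑ a ∈ Icc 1 M, ∑ d ∈ Icc 1 M, Ph L M c a d = 0 :=
          sum_eq_zero fun a _ => sum_eq_zero fun d _ => Ph_zero hs a d
        rw [this]; linarith
    refine (sum_le_sum r2).trans ?_
    rw [sum_add_distrib, sum_add_distrib]
    refine add_le_add (add_le_add ?_ ?_) (Ph_large hK hM2 hB)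
    · rw [sum_ite_eq' (Icc 1 M) 1 (fun _ => (M : ℝ))]
      split
      · exact le_rfl
      · exact hMR
    · have f1 : ∑ c ∈ Icc 1 M, (if c ≤ L then (K * M * (1 / (c : ℝ)) * ρ +
          2 * (K * M * (1 / (c : ℝ)) * ρ)) else 0) ≤
          ∑ c ∈ Icc 1 L, (K * M * (1 / (c : ℝ)) * ρ + 2 * (K * M * (1 / (c : ℝ)) * ρ)) := by
        apply sum_restrict
        intro c
        positivity
      refine f1.trans ?_
      have f2 : ∀ c ∈ Icc 1 L, (K * M * (1 / (c : ℝ)) * ρ + 2 * (K * M * (1 / (c : ℝ)) * ρ)) =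
          (3 * (K * M)) * (1 / (c : ℝ)) * ρ := fun c _ => by ring
      rw [sum_congr rfl f2]
      exact sum_inv_mul_le (by positivity) hLρ hρ0.le
  have hKM : 0 ≤ K * M := by positivity
  linarith

end Vale.Agent.P017.PP
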