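import Vale.Agent.P017.H185P.Link
import Vale.Agent.P017.H185P.E2

namespace Vale.Agent.P017.PP

open Finset Matrix Module Vale.Agent.P017.H185

/-- support of a vector, as a set of primes -/
def St (m : ℕ) (u : m.primeFactors → ZMod 2) : Finset ℕ :=
  (univ.filter (fun r => u r = 1)).map (Function.Embedding.subtype _)

theorem mem_St' {m : ℕ} {u : m.primeFactors → ZMod 2} {p : ℕ} :
    p ∈ St m u ↔ ∃ h : p ∈ m.primeFactors, u ⟨p, h⟩ = 1 := by
  unfold St
  simp only [mem_map, mem_filter, mem_univ, true_and, Function.Embedding.subtype_apply]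
  constructor
  · rintro ⟨⟨a, ha⟩, h, rfl⟩; exact ⟨ha, h⟩
  · rintro ⟨h, h'⟩; exact ⟨⟨p, h⟩, h', rfl⟩

theorem mem_St {m : ℕ} {u : m.primeFactors → ZMod 2} (r : m.primeFactors) :
    (r : ℕ) ∈ St m u ↔ u r = 1 := by
  rw [mem_St']
  exact ⟨fun ⟨_, h⟩ => h, fun h => ⟨r.2, h⟩⟩

theorem St_sub (m : ℕ) (u : m.primeFactors → ZMod 2) : St m u ⊆ m.primeFactors := by
  intro p hp; exact (mem_St'.mp hp).1

def af (m : ℕ) (u : m.primeFactors → ZMod 2) : ℕ := ∏ p ∈ St m u, p

theorem af_pf (m : ℕ) (u : m.primeFactors → ZMod 2) : (af m u).primeFactors = St m u := by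
  unfold af
  exact Nat.primeFactors_prod fun p hp => Nat.prime_of_mem_primeFactors (St_sub m u hp)

theorem af_dvd {m : ℕ} (hm : Squarefree m) (u : m.primeFactors → ZMod 2) : af m u ∣ m := by
  conv_rhs => rw [← Nat.prod_primeFactors_of_squarefree hm]
  exact prod_dvd_prod_of_subset _ _ _ (St_sub m u)

theorem af_inj (m : ℕ) : Function.Injective (af m) := by
  intro u u' h
  have h1 : St m u = St m u' := by rw [← af_pf, ← af_pf, h]
  ext r
  have h2 : u r = 1 ↔ u' r = 1 := by rw [← mem_St, ← mem_St, h1]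
  rcases f2_cases (u r) with h | h <;> rcases f2_cases (u' r) with h' | h'
  · rw [h, h']
  · rw [h, h'] at h2; exact absurd (h2.mpr rfl) (by decide)
  · rw [h, h'] at h2; exact absurd (h2.mp rfl) (by decide)
  · rw [h, h']

theorem af_zero (m : ℕ) : af m 0 = 1 := by
  unfold af
  have : St m 0 = ∅ := by
    rw [eq_empty_iff_forall_notMem]
    intro p hp
    obtain ⟨h, h'⟩ := mem_St'.mp hp
    exact absurd h' (by rw [Pi.zero_apply]; decide)
  rw [this, prod_empty]

theorem sum_St {m : ℕ} (w : m.primeFactors → ZMod 2) (F : ℕ → ZMod 2) :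
    ∑ r : m.primeFactors, F r * w r = ∑ q ∈ St m w, F q := by
  unfold St
  rw [sum_map, sum_filter]
  refine sum_congr rfl fun r _ => ?_
  split
  next h => rw [h, mul_one]; rfl
  next h =>
    rcases f2_cases (w r) with h' | h'
    · rw [h', mul_zero]
    · exact absurd h' h

open Classical in
theorem card_kr {ι : Type*} [Fintype ι] [DecidableEq ι] (B : Matrix ι ι (ZMod 2)) :
    (2 : ℝ) ^ finrank (ZMod 2) (kr B) = ∑ u : ι → ZMod 2, if B.mulVec u = 0 then 1 else 0 := by
  have h1 : Fintype.card (kr B) = Fintype.card (ZMod 2) ^ finrank (ZMod 2) (kr B) :=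
    Module.card_eq_pow_finrank
  rw [ZMod.card] at h1
  rw [← sum_filter, sum_const, nsmul_eq_mul, mul_one]
  have h2 : Fintype.card (kr B) = (univ.filter fun u : ι → ZMod 2 => B.mulVec u = 0).card := by
    rw [← Fintype.card_subtype]
    apply Fintype.card_congr
    exact Equiv.subtypeEquivRight fun u => mem_kr
  rw [← h2, h1]; push_cast; rfl

theorem Gf_af {m : ℕ} (hm : Squarefree m) (hmo : Odd m) (u : m.primeFactors → ZMod 2) :
    ∏ r : m.primeFactors, (if u r = 1 then (1 / 2 : ℝ) else
      (if ∑ r' : m.primeFactors, ee r' r * (u r' + u r) = 0 then 1 else 0)) ≤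
      Gf (af m u) (m / af m u) := by
  have hd := af_dvd hm u
  have hab : af m u * (m / af m u) = m := Nat.mul_div_cancel' hd
  rw [Gf_eq (by rw [hab]; exact hm) (by rw [hab]; exact hmo)]
  have has : Squarefree (af m u) := hm.squarefree_of_dvd hd
  have hao : Odd (af m u) := hmo.of_dvd_nat hd
  by_cases hall : ∀ r : m.primeFactors, u r ≠ 1 → ∑ r' : m.primeFactors, ee r' r * (u r' + u r) = 0
  · have h1 : ∏ r : m.primeFactors, (if u r = 1 then (1 / 2 : ℝ) else
      (if ∑ r' : m.primeFactors, ee r' r * (u r' + u r) = 0 then 1 else 0)) =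
        ∏ r : m.primeFactors, (if u r = 1 then (1 / 2 : ℝ) else 1) := by
      refine prod_congr rfl fun r _ => ?_
      split
      next => rfl
      next h => rw [if_pos (hall r h)]
    rw [h1, prod_ite, prod_const_one, mul_one, wt_eq has hao, af_pf]
    have h2 : ∏ _p ∈ St m u, (1 / 2 : ℝ) = ∏ r ∈ univ.filter (fun r => u r = 1), (1 / 2 : ℝ) := by
      unfold St; rw [prod_map]
    rw [h2]
    have h3 : allp (gu (af m u)) (m / af m u) = 1 := by
      unfold allp
      rw [if_pos]
      intro p hp
      have hpp := Nat.prime_of_mem_primeFactors hp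
      have hpd := Nat.dvd_of_mem_primeFactors hp
      have hpm : p ∣ m := by rw [← hab]; exact dvd_mul_of_dvd_right hpd _
      have hpo : Odd p := hmo.of_dvd_nat hpm
      have hpa : ¬ p ∣ af m u := by
        intro hpa
        have : p * p ∣ m := by rw [← hab]; exact mul_dvd_mul hpa hpd
        exact hpp.one_lt.ne' (Nat.isUnit_iff.mp (hm p this))
      unfold gu
      rw [if_pos hpo]
      have hpmem : p ∈ m.primeFactors := Nat.mem_primeFactors.mpr ⟨hpp, hpm, hm.ne_zero⟩
      have hu : u ⟨p, hpmem⟩ ≠ 1 := by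
        intro h
        apply hpa
        have : p ∈ (af m u).primeFactors := by
          rw [af_pf, mem_St']; exact ⟨hpmem, h⟩
        exact Nat.dvd_of_mem_primeFactors this
      have h0 : u ⟨p, hpmem⟩ = 0 := by
        rcases f2_cases (u ⟨p, hpmem⟩) with h | h
        · exact h
        · exact absurd h hu
      have h4 := hall ⟨p, hpmem⟩ hu
      rw [h0] at h4
      have h5 : ∑ r' : m.primeFactors, ee r' p * (u r' + 0) = ee (af m u) p := by
        rw [ee_sqfree has hpp hpa, af_pf, ← sum_St u (fun q => ee q p)]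
        refine sum_congr rfl fun r' _ => ?_
        rw [add_zero]
      rw [h5] at h4
      have hne : jacobiSym (af m u) p ≠ 0 := by
        apply J_ne_zero hpp.ne_zero
        rw [Nat.coprime_comm, Nat.Prime.coprime_iff_not_dvd hpp]; exact hpa
      have h6 := sg_ee hne
      rw [h4, sg_zero] at h6
      exact_mod_cast h6.symm
    rw [h3, mul_one]
  · push Not at hall
    obtain ⟨r, hr1, hr2⟩ := hall
    rw [prod_eq_zero (mem_univ r)]
    · exact mul_nonneg (wt_nonneg _) (allp_nonneg _ _)
    · rw [if_neg hr1, if_neg hr2]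

theorem sum_af_le {m : ℕ} (hm : Squarefree m) {F : ℕ → ℝ} (hF : ∀ a, 0 ≤ F a) :
    ∑ u : m.primeFactors → ZMod 2, F (af m u) ≤ ∑ a ∈ m.divisors, F a := by
  classical
  rw [← sum_image (f := F) (g := af m) (s := univ) (fun x _ y _ h => af_inj m h)]
  apply sum_le_sum_of_subset_of_nonneg
  · intro a ha
    rw [mem_image] at ha
    obtain ⟨u, -, rfl⟩ := ha
    rw [Nat.mem_divisors]
    exact ⟨af_dvd hm u, hm.ne_zero⟩
  · intro a _ _; exact hF a

theorem avg_ker {m : ℕ} (hm : Squarefree m) (hmo : Odd m) :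
    ∑ s : m.primeFactors → ZMod 2, (2 : ℝ) ^ finrank (ZMod 2) (kr (Bm m s)) ≤
      2 ^ Fintype.card m.primeFactors * gm m := by
  classical
  have h1 : ∀ s : m.primeFactors → ZMod 2, (2 : ℝ) ^ finrank (ZMod 2) (kr (Bm m s)) =
      ∑ u : m.primeFactors → ZMod 2, ∏ r : m.primeFactors,
        (if s r * u r + ∑ r' : m.primeFactors, ee r' r * (u r' + u r) = 0 then (1 : ℝ) else 0) := by
    intro s
    rw [card_kr]
    refine sum_congr rfl fun u _ => ?_
    split
    next h =>
      symm
      apply prod_eq_one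
      intro r _
      rw [if_pos]
      rw [← Bm_mulVec, h, Pi.zero_apply]
    next h =>
      obtain ⟨r, hr⟩ := Function.ne_iff.mp h
      symm
      apply prod_eq_zero (mem_univ r)
      rw [if_neg]
      rw [← Bm_mulVec]; exact hr
  rw [sum_congr rfl fun s _ => h1 s, sum_comm]
  have h2 : ∀ u : m.primeFactors → ZMod 2, ∑ s : m.primeFactors → ZMod 2, ∏ r : m.primeFactors,
        (if s r * u r + ∑ r' : m.primeFactors, ee r' r * (u r' + u r) = 0 then (1 : ℝ) else 0) =
      2 ^ Fintype.card m.primeFactors * ∏ r : m.primeFactors, (if u r = 1 then (1 / 2 : ℝ) else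
      (if ∑ r' : m.primeFactors, ee r' r * (u r' + u r) = 0 then 1 else 0)) := by
    intro u
    have h3 := Finset.prod_univ_sum (fun _ : m.primeFactors => (univ : Finset (ZMod 2)))
      (fun r t => (if t * u r + ∑ r' : m.primeFactors, ee r' r * (u r' + u r) = 0 then (1 : ℝ)
        else 0))
    rw [Fintype.piFinset_univ] at h3
    rw [← h3]
    have h4 : (2 : ℝ) ^ Fintype.card m.primeFactors = ∏ _r : m.primeFactors, (2 : ℝ) := by
      rw [prod_const, card_univ]
    rw [h4, ← prod_mul_distrib]
    refine prod_congr rfl fun r _ => ?_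
    generalize ∑ r' : m.primeFactors, ee r' r * (u r' + u r) = c
    have h5 : (univ : Finset (ZMod 2)) = {0, 1} := by decide
    rw [h5, sum_pair (by decide)]
    rcases f2_cases (u r) with h | h <;> rcases f2_cases c with h' | h' <;> rw [h, h']
    · norm_num
    · rw [if_neg (by decide), if_neg (by decide), if_neg (by decide), if_neg (by decide)]; norm_num
    · rw [if_pos (by decide), if_neg (by decide), if_pos (by decide)]; norm_num
    · rw [if_neg (by decide), if_pos (by decide), if_pos (by decide)]; norm_num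
  rw [sum_congr rfl fun u _ => h2 u, ← mul_sum]
  apply mul_le_mul_of_nonneg_left _ (by positivity)
  unfold gm
  calc _ ≤ ∑ u : m.primeFactors → ZMod 2, Gf (af m u) (m / af m u) :=
        sum_le_sum fun u _ => Gf_af hm hmo u
    _ ≤ _ := sum_af_le hm (F := fun a => Gf a (m / a)) fun a => Gf_nonneg _ _

end Vale.Agent.P017.PP
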