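import Vale.Agent.P017.H185.Jac

namespace Vale.Agent.P017.PP

open Finset

/-- partial sums of a periodic function with mean zero -/
theorem per_bound {f : ℕ → ℝ} {q : ℕ} (hq : 0 < q) (hper : ∀ n, f (q + n) = f n)
    (hf : ∀ n, |f n| ≤ 1) (h0 : ∑ n ∈ range q, f n = 0) (N : ℕ) :
    |∑ n ∈ range N, f n| ≤ q := by
  induction N using Nat.strong_induction_on with
  | _ N ih =>
    by_cases hN : N < q
    · calc |∑ n ∈ range N, f n| ≤ ∑ n ∈ range N, |f n| := abs_sum_le_sum_abs _ _
        _ ≤ ∑ n ∈ range N, 1 := sum_le_sum fun n _ => hf n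
        _ = N := by simp
        _ ≤ q := by exact_mod_cast hN.le
    · push Not at hN
      obtain ⟨k, rfl⟩ := Nat.exists_eq_add_of_le hN
      rw [sum_range_add, h0, zero_add]
      have := ih k (by omega)
      simpa [hper] using this

/-- a periodic function with `f (t n) = - f n` for a unit `t` has mean zero -/
theorem sum_period_zero {f : ℕ → ℝ} {q t : ℕ} (hq : 0 < q)
    (hper : ∀ m n, m ≡ n [MOD q] → f m = f n) (ht : Nat.Coprime t q)
    (hmul : ∀ n, f (t * n) = -f n) : ∑ n ∈ range q, f n = 0 := by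
  classical
  have hinj : Set.InjOn (fun n => t * n % q) (range q : Finset ℕ) := by
    intro m hm n hn h
    rw [mem_coe, mem_range] at hm hn
    have h1 : t * m ≡ t * n [MOD q] := h
    have h2 : m ≡ n [MOD q] := Nat.ModEq.cancel_left_of_coprime (by rwa [Nat.coprime_comm] at ht) h1
    have h3 : m % q = n % q := h2
    rwa [Nat.mod_eq_of_lt hm, Nat.mod_eq_of_lt hn] at h3
  have himg : (range q).image (fun n => t * n % q) = range q := by
    apply eq_of_subset_of_card_le
    · intro x hx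
      obtain ⟨n, -, rfl⟩ := mem_image.mp hx
      exact mem_range.mpr (Nat.mod_lt _ hq)
    · rw [card_image_of_injOn hinj]
  have h1 : ∑ n ∈ range q, f n = ∑ n ∈ range q, f (t * n) := by
    conv_lhs => rw [← himg, sum_image hinj]
    exact sum_congr rfl fun n _ => hper _ _ (Nat.mod_modEq _ _)
  have h2 : ∑ n ∈ range q, f (t * n) = -∑ n ∈ range q, f n := by
    rw [← sum_neg_distrib]
    exact sum_congr rfl fun n _ => hmul n
  linarith

theorem J_abs_le (a : ℤ) (n : ℕ) : |(jacobiSym a n : ℝ)| ≤ 1 := by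
  rcases jacobiSym.trichotomy a n with h | h | h <;> rw [h] <;> norm_num

theorem J_congr {c m n : ℕ} (h : m ≡ n [MOD c]) : jacobiSym m c = jacobiSym n c := by
  rw [jacobiSym.mod_left (m : ℤ) c, jacobiSym.mod_left (n : ℤ) c]
  have : (m : ℤ) % c = (n : ℤ) % c := by exact_mod_cast h
  rw [this]

/-- existence of a residue with symbol `-1` -/
theorem exists_t_aux {c c' : ℕ} (hc : Squarefree c) (hco : Odd c) {r : ℕ}
    (hr : r.Prime) (hrc : r ∣ c) (hrc' : ¬ r ∣ c') :
    ∃ t : ℕ, Nat.Coprime t (c * c') ∧ jacobiSym t c = -1 ∧ jacobiSym t c' = 1 := by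
  have hF := Fact.mk hr
  obtain ⟨c₁, hc₁⟩ := hrc
  have hr2 : r ≠ 2 := by
    rintro rfl
    rw [hc₁, Nat.odd_mul] at hco
    exact absurd hco.1 (by decide)
  obtain ⟨u, hu⟩ := FiniteField.exists_nonsquare (F := ZMod r) (by rwa [ZMod.ringChar_zmod_n])
  have hcop : Nat.Coprime r c₁ := by rw [hc₁] at hc; exact Nat.coprime_of_squarefree_mul hc
  have hcop' : Nat.Coprime r (c₁ * c') :=
    Nat.Coprime.mul_right hcop ((Nat.Prime.coprime_iff_not_dvd hr).mpr hrc')
  obtain ⟨t, ht1, ht2⟩ := Nat.chineseRemainder hcop' u.val 1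
  have htr : ((t : ℕ) : ZMod r) = u := by
    have := (ZMod.natCast_eq_natCast_iff _ _ _).mpr ht1
    rw [this]; simp
  have hu0 : u ≠ 0 := by rintro rfl; exact hu ⟨0, by simp⟩
  have hc0 : c ≠ 0 := hc.ne_zero
  have hc₁0 : c₁ ≠ 0 := by rintro rfl; exact hc0 (by rw [hc₁, mul_zero])
  have h1 : jacobiSym t r = -1 := by
    rw [← jacobiSym.legendreSym.to_jacobiSym]
    rw [legendreSym.eq_neg_one_iff]
    rwa [Int.cast_natCast, htr]
  have h2 : jacobiSym t c₁ = 1 := by
    rw [J_congr (ht2.of_mul_right _), Nat.cast_one, jacobiSym.one_left]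
  have h3 : jacobiSym t c' = 1 := by
    rw [J_congr (ht2.of_mul_left _), Nat.cast_one, jacobiSym.one_left]
  have hcr : Nat.Coprime t r := by
    rw [Nat.coprime_comm, Nat.Prime.coprime_iff_not_dvd hr, ← ZMod.natCast_eq_zero_iff, htr]
    exact hu0
  have hcc : Nat.Coprime t (c₁ * c') := by
    have := ht2.gcd_eq
    rw [Nat.gcd_one_left] at this
    exact this
  refine ⟨t, ?_, ?_, h3⟩
  · rw [hc₁, mul_assoc]; exact hcr.mul_right hcc
  · have := NeZero.mk hr.ne_zero
    have := NeZero.mk hc₁0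
    rw [hc₁, jacobiSym.mul_right, h1, h2]; norm_num

theorem exists_prime_diff {c c' : ℕ} (hc : Squarefree c) (hc' : Squarefree c') (h : c ≠ c') :
    ∃ r : ℕ, r.Prime ∧ ((r ∣ c ∧ ¬ r ∣ c') ∨ (r ∣ c' ∧ ¬ r ∣ c)) := by
  by_contra hcon
  push Not at hcon
  apply h
  have h1 : c.primeFactors = c'.primeFactors := by
    ext r
    simp only [Nat.mem_primeFactors]
    constructor
    · rintro ⟨hr, h1, -⟩
      exact ⟨hr, (hcon r hr).1 h1, hc'.ne_zero⟩
    · rintro ⟨hr, h1, -⟩
      exact ⟨hr, (hcon r hr).2 h1, hc.ne_zero⟩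
  rw [← Nat.prod_primeFactors_of_squarefree hc, ← Nat.prod_primeFactors_of_squarefree hc', h1]

/-- orthogonality of the Jacobi symbols `(·/c)` -/
theorem orth_lower {c c' : ℕ} (hc : Squarefree c) (hco : Odd c) (hc' : Squarefree c')
    (hco' : Odd c') (h : c ≠ c') (N : ℕ) :
    |∑ n ∈ range N, (jacobiSym n c : ℝ) * (jacobiSym n c' : ℝ)| ≤ (c * c' : ℕ) := by
  obtain ⟨t, ht, hJ⟩ : ∃ t : ℕ, Nat.Coprime t (c * c') ∧
      (jacobiSym t c : ℝ) * (jacobiSym t c' : ℝ) = -1 := by
    obtain ⟨r, hr, ⟨h1, h2⟩ | ⟨h1, h2⟩⟩ := exists_prime_diff hc hc' h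
    · obtain ⟨t, h3, h4, h5⟩ := exists_t_aux hc hco hr h1 h2
      exact ⟨t, h3, by rw [h4, h5]; norm_num⟩
    · obtain ⟨t, h3, h4, h5⟩ := exists_t_aux hc' hco' hr h1 h2
      exact ⟨t, by rwa [mul_comm], by rw [h4, h5]; norm_num⟩
  have hq : 0 < c * c' := Nat.mul_pos (Nat.pos_of_ne_zero hc.ne_zero) (Nat.pos_of_ne_zero hc'.ne_zero)
  have hper : ∀ m n : ℕ, m ≡ n [MOD c * c'] →
      (jacobiSym m c : ℝ) * (jacobiSym m c' : ℝ) = (jacobiSym n c : ℝ) * (jacobiSym n c' : ℝ) := by
    intro m n hmn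
    rw [J_congr (hmn.of_mul_right _), J_congr (hmn.of_mul_left _)]
  apply per_bound (f := fun n : ℕ => (jacobiSym n c : ℝ) * (jacobiSym n c' : ℝ)) hq
  · intro n
    exact hper _ _ (by simp [Nat.ModEq])
  · intro n
    rw [abs_mul]
    exact mul_le_one₀ (J_abs_le _ _) (abs_nonneg _) (J_abs_le _ _)
  · refine sum_period_zero hq hper ht ?_
    intro n
    push_cast
    rw [jacobiSym.mul_left, jacobiSym.mul_left]
    push_cast
    linear_combination ((jacobiSym n c : ℝ) * (jacobiSym n c' : ℝ)) * hJ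

/-- the kernel `(a/n)` for odd `n` -/
noncomputable def up (a n : ℕ) : ℝ := if Odd n then (jacobiSym a n : ℝ) else 0

theorem up_abs_le (a n : ℕ) : |up a n| ≤ 1 := by
  unfold up
  split
  · exact J_abs_le _ _
  · norm_num

theorem up_mul (a m n : ℕ) : up a (m * n) = up a m * up a n := by
  unfold up
  by_cases hm : Odd m
  · by_cases hn : Odd n
    · have := NeZero.mk hm.pos.ne'
      have := NeZero.mk hn.pos.ne'
      rw [if_pos (hm.mul hn), if_pos hm, if_pos hn, jacobiSym.mul_right]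
      push_cast; rfl
    · rw [if_neg hn, if_neg (fun h => hn (Nat.odd_mul.mp h).2), mul_zero]
  · rw [if_neg hm, if_neg (fun h => hm (Nat.odd_mul.mp h).1), zero_mul]

/-- orthogonality of the Jacobi symbols `(a/·)` -/
theorem orth_upper {a a' : ℕ} (ha : Squarefree a) (ha' : Squarefree a')
    (h : a ≠ a') (N : ℕ) :
    |∑ n ∈ range N, up a n * up a' n| ≤ (4 * (a * a') : ℕ) := by
  have ha0 := ha.ne_zero
  have ha0' := ha'.ne_zero
  obtain ⟨t, hto, ht, hJ⟩ : ∃ t : ℕ, Odd t ∧ Nat.Coprime t (4 * (a * a')) ∧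
      (jacobiSym a t : ℝ) * (jacobiSym a' t : ℝ) = -1 := by
    obtain ⟨g, hg⟩ : ∃ g, g = Nat.gcd a a' := ⟨_, rfl⟩
    have hg0 : 0 < g := by rw [hg]; exact Nat.gcd_pos_of_pos_left _ (Nat.pos_of_ne_zero ha0)
    obtain ⟨b, hb⟩ : g ∣ a := by rw [hg]; exact Nat.gcd_dvd_left _ _
    obtain ⟨b', hb'⟩ : g ∣ a' := by rw [hg]; exact Nat.gcd_dvd_right _ _
    have hcop : Nat.Coprime b b' := by
      have h1 : Nat.gcd (g * b) (g * b') = g * 1 := by rw [← hb, ← hb', mul_one, hg]
      rw [Nat.gcd_mul_left] at h1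
      exact Nat.eq_of_mul_eq_mul_left hg0 h1
    have hbs : Squarefree b := ha.squarefree_of_dvd ⟨g, by rw [hb]; ring⟩
    have hbs' : Squarefree b' := ha'.squarefree_of_dvd ⟨g, by rw [hb']; ring⟩
    have hbb : Squarefree (b * b') := (Nat.squarefree_mul hcop).mpr ⟨hbs, hbs'⟩
    have hne : b * b' ≠ 1 := by
      intro h1
      have h2 : b = 1 := Nat.eq_one_of_mul_eq_one_right h1
      have h3 : b' = 1 := Nat.eq_one_of_mul_eq_one_left h1
      exact h (by rw [hb, hb', h2, h3])
    have hsq : Squarefree (((b * b' : ℕ) : ℤ)) := Int.squarefree_natCast.mpr hbb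
    obtain ⟨t, htB, htp, hto, htJ⟩ := Vale.Agent.P017.H185.exists_prime_neg hsq
      (by exact_mod_cast hne) (4 * (a * a'))
    have hpos : 0 < 4 * (a * a') := by positivity
    have htcop : Nat.Coprime t (4 * (a * a')) := by
      rw [Nat.Prime.coprime_iff_not_dvd htp]
      intro h1
      exact absurd (Nat.le_of_dvd hpos h1) (by omega)
    refine ⟨t, hto, htcop, ?_⟩
    have hgt : Nat.Coprime t g := Nat.Coprime.coprime_dvd_right
      (by rw [hb]; exact ⟨4 * b * a', by ring⟩) htcop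
    have hgJ : jacobiSym g t ^ 2 = 1 := by
      apply jacobiSym.sq_one
      rw [Int.gcd_natCast_natCast, Nat.gcd_comm]; exact hgt
    have h1 : jacobiSym a t * jacobiSym a' t = -1 := by
      rw [hb, hb']
      push_cast
      rw [jacobiSym.mul_left, jacobiSym.mul_left]
      push_cast at htJ
      rw [jacobiSym.mul_left] at htJ
      calc jacobiSym g t * jacobiSym b t * (jacobiSym g t * jacobiSym b' t)
          = jacobiSym g t ^ 2 * (jacobiSym b t * jacobiSym b' t) := by ring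
        _ = -1 := by rw [hgJ, htJ]; norm_num
    exact_mod_cast h1
  have hq : 0 < 4 * (a * a') := by positivity
  have hper : ∀ m n : ℕ, m ≡ n [MOD 4 * (a * a')] → up a m * up a' m = up a n * up a' n := by
    intro m n hmn
    have h2 : m ≡ n [MOD 2] := hmn.of_dvd ⟨2 * (a * a'), by ring⟩
    have hodd : Odd m ↔ Odd n := by rw [Nat.odd_iff, Nat.odd_iff, h2]
    unfold up
    by_cases hm : Odd m
    · have hn := hodd.mp hm
      rw [if_pos hm, if_pos hn, if_pos hm, if_pos hn]
      have e1 : m % (4 * a) = n % (4 * a) := hmn.of_dvd ⟨a', by ring⟩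
      have e2 : m % (4 * a') = n % (4 * a') := hmn.of_dvd ⟨a, by ring⟩
      rw [Vale.Agent.P017.H185.J_mod hm hn (by simpa using e1),
        Vale.Agent.P017.H185.J_mod hm hn (by simpa using e2)]
    · have hn := fun h => hm (hodd.mpr h)
      rw [if_neg hm, if_neg hn, zero_mul, zero_mul]
  apply per_bound (f := fun n : ℕ => up a n * up a' n) hq
  · intro n
    exact hper _ _ (by simp [Nat.ModEq])
  · intro n
    rw [abs_mul]
    exact mul_le_one₀ (up_abs_le _ _) (abs_nonneg _) (up_abs_le _ _)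
  · refine sum_period_zero hq hper ht ?_
    intro n
    rw [up_mul, up_mul]
    have e1 : up a t = jacobiSym a t := by unfold up; rw [if_pos hto]
    have e2 : up a' t = jacobiSym a' t := by unfold up; rw [if_pos hto]
    rw [e1, e2]
    linear_combination (up a n * up a' n) * hJ

end Vale.Agent.P017.PP
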