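import Vale.Agent.P017.H185P.Dual
import Vale.Agent.P017.H185P.Per

namespace Vale.Agent.P017.PP

open Finset

theorem BL_lower {α γ : ℕ → ℝ} (hα : ∀ n, |α n| ≤ 1) (hγ : ∀ n, |γ n| ≤ 1)
    (hγs : ∀ n, γ n ≠ 0 → Squarefree n ∧ Odd n) {A C : ℕ} (hA : 1 ≤ A) (hC : 1 ≤ C)
    (hCA : C ≤ A) :
    |∑ a ∈ Icc 1 A, ∑ c ∈ Icc 1 C, α a * γ c * (jacobiSym a c : ℝ)| ^ 6 ≤
      6 * ((A : ℝ) * C) ^ 6 * (1 + Real.log A) ^ 9 / C := by
  classical
  obtain ⟨S, hS⟩ : ∃ S, S = (Icc 1 C).filter fun c => Squarefree c ∧ Odd c := ⟨_, rfl⟩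
  have hA1 : (1 : ℝ) ≤ A := by exact_mod_cast hA
  have hC1 : (1 : ℝ) ≤ C := by exact_mod_cast hC
  have hCA' : (C : ℝ) ≤ A := by exact_mod_cast hCA
  have hlog : 0 ≤ Real.log A := Real.log_nonneg hA1
  have h1 : |∑ a ∈ Icc 1 A, ∑ c ∈ Icc 1 C, α a * γ c * (jacobiSym a c : ℝ)| ≤
      ∑ c ∈ S, |∑ a ∈ Icc 1 A, α a * (jacobiSym a c : ℝ)| := by
    rw [sum_comm]
    have h2 : ∑ c ∈ Icc 1 C, ∑ a ∈ Icc 1 A, α a * γ c * (jacobiSym a c : ℝ) =
        ∑ c ∈ S, ∑ a ∈ Icc 1 A, α a * γ c * (jacobiSym a c : ℝ) := by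
      rw [hS, sum_filter]
      refine sum_congr rfl fun c _ => ?_
      by_cases h : Squarefree c ∧ Odd c
      · rw [if_pos h]
      · rw [if_neg h]
        have : γ c = 0 := by
          by_contra h0; exact h (hγs c h0)
        simp [this]
    rw [h2]
    refine (abs_sum_le_sum_abs _ _).trans (sum_le_sum fun c _ => ?_)
    have : ∑ a ∈ Icc 1 A, α a * γ c * (jacobiSym a c : ℝ) =
        γ c * ∑ a ∈ Icc 1 A, α a * (jacobiSym a c : ℝ) := by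
      rw [mul_sum]; exact sum_congr rfl fun a _ => by ring
    rw [this, abs_mul]
    exact mul_le_of_le_one_left (abs_nonneg _) (hγ c)
  have hcard : (S.card : ℝ) ≤ C := by
    have : S.card ≤ C := by
      rw [hS]; exact (card_filter_le _ _).trans (by simp)
    exact_mod_cast this
  have h3 := bilinear (φ := fun n c => (jacobiSym (n : ℤ) c : ℝ)) (S := S) (D := (C : ℝ) ^ 2)
    (fun n c => J_abs_le _ _) (fun m n c => by push_cast; rw [jacobiSym.mul_left]; push_cast; rfl)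
    (by positivity) (by
      intro c hc c' hc' hne N
      rw [hS, mem_filter, mem_Icc] at hc hc'
      refine (orth_lower hc.2.1 hc.2.2 hc'.2.1 hc'.2.2 hne N).trans ?_
      have : c * c' ≤ C ^ 2 := by
        rw [sq]; exact Nat.mul_le_mul hc.1.2 hc'.1.2
      exact_mod_cast this) hα A
  calc |∑ a ∈ Icc 1 A, ∑ c ∈ Icc 1 C, α a * γ c * (jacobiSym a c : ℝ)| ^ 6
      ≤ (∑ c ∈ S, |∑ a ∈ Icc 1 A, α a * (jacobiSym a c : ℝ)|) ^ 6 :=
        pow_le_pow_left₀ (abs_nonneg _) h1 6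
    _ ≤ _ := h3
    _ ≤ (C : ℝ) ^ 5 * (((A : ℝ) ^ 3 + (A : ℝ) ^ 3 + A * (A : ℝ) ^ 2) *
          (A * (1 + Real.log A) ^ 3) ^ 3) := by
        have e1 : (1 : ℝ) ≤ (A : ℝ) ^ 3 := one_le_pow₀ hA1
        have e2 : (S.card : ℝ) * (C : ℝ) ^ 2 ≤ A * (A : ℝ) ^ 2 := by
          apply mul_le_mul (hcard.trans hCA') _ (by positivity) (by positivity)
          exact pow_le_pow_left₀ (by positivity) hCA' 2
        apply mul_le_mul (pow_le_pow_left₀ (by positivity) hcard 5) _ (by positivity) (by positivity)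
        apply mul_le_mul_of_nonneg_right _ (by positivity)
        linarith
    _ ≤ 6 * ((A : ℝ) * C) ^ 6 * (1 + Real.log A) ^ 9 / C := by
        rw [le_div_iff₀ (by positivity)]
        have : (C : ℝ) ^ 5 * (((A : ℝ) ^ 3 + (A : ℝ) ^ 3 + A * (A : ℝ) ^ 2) *
          (A * (1 + Real.log A) ^ 3) ^ 3) * C = 3 * ((A : ℝ) * C) ^ 6 * (1 + Real.log A) ^ 9 := by
          ring
        rw [this]
        have h0 : 0 ≤ ((A : ℝ) * C) ^ 6 * (1 + Real.log A) ^ 9 := by positivity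
        linarith

theorem BL_upper {α γ : ℕ → ℝ} (hα : ∀ n, |α n| ≤ 1) (hγ : ∀ n, |γ n| ≤ 1)
    (hαs : ∀ n, α n ≠ 0 → Squarefree n ∧ Odd n) (hγs : ∀ n, γ n ≠ 0 → Squarefree n ∧ Odd n)
    {A C : ℕ} (hA : 1 ≤ A) (hC : 1 ≤ C) (hAC : A ≤ C) :
    |∑ a ∈ Icc 1 A, ∑ c ∈ Icc 1 C, α a * γ c * (jacobiSym a c : ℝ)| ^ 6 ≤
      6 * ((A : ℝ) * C) ^ 6 * (1 + Real.log C) ^ 9 / A := by
  classical
  obtain ⟨S, hS⟩ : ∃ S, S = (Icc 1 A).filter fun c => Squarefree c ∧ Odd c := ⟨_, rfl⟩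
  have hA1 : (1 : ℝ) ≤ A := by exact_mod_cast hA
  have hC1 : (1 : ℝ) ≤ C := by exact_mod_cast hC
  have hAC' : (A : ℝ) ≤ C := by exact_mod_cast hAC
  have hlog : 0 ≤ Real.log C := Real.log_nonneg hC1
  have h1 : |∑ a ∈ Icc 1 A, ∑ c ∈ Icc 1 C, α a * γ c * (jacobiSym a c : ℝ)| ≤
      ∑ a ∈ S, |∑ c ∈ Icc 1 C, γ c * up a c| := by
    have h2 : ∑ a ∈ Icc 1 A, ∑ c ∈ Icc 1 C, α a * γ c * (jacobiSym a c : ℝ) =
        ∑ a ∈ S, α a * ∑ c ∈ Icc 1 C, γ c * up a c := by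
      rw [hS, sum_filter]
      refine sum_congr rfl fun a _ => ?_
      by_cases h : Squarefree a ∧ Odd a
      · rw [if_pos h, mul_sum]
        refine sum_congr rfl fun c _ => ?_
        by_cases h0 : γ c = 0
        · rw [h0]; ring
        · unfold up
          rw [if_pos (hγs c h0).2]; ring
      · rw [if_neg h]
        have : α a = 0 := by
          by_contra h0; exact h (hαs a h0)
        simp [this]
    rw [h2]
    refine (abs_sum_le_sum_abs _ _).trans (sum_le_sum fun a _ => ?_)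
    rw [abs_mul]
    exact mul_le_of_le_one_left (abs_nonneg _) (hα a)
  have hcard : (S.card : ℝ) ≤ A := by
    have : S.card ≤ A := by
      rw [hS]; exact (card_filter_le _ _).trans (by simp)
    exact_mod_cast this
  have h3 := bilinear (φ := fun n a => up a n) (S := S) (D := 4 * (A : ℝ) ^ 2)
    (fun n c => up_abs_le _ _) (fun m n c => up_mul _ _ _)
    (by positivity) (by
      intro c hc c' hc' hne N
      rw [hS, mem_filter, mem_Icc] at hc hc'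
      refine (orth_upper hc.2.1 hc'.2.1 hne N).trans ?_
      have : 4 * (c * c') ≤ 4 * A ^ 2 := by
        rw [sq]; exact Nat.mul_le_mul_left _ (Nat.mul_le_mul hc.1.2 hc'.1.2)
      exact_mod_cast this) hγ C
  calc |∑ a ∈ Icc 1 A, ∑ c ∈ Icc 1 C, α a * γ c * (jacobiSym a c : ℝ)| ^ 6
      ≤ (∑ a ∈ S, |∑ c ∈ Icc 1 C, γ c * up a c|) ^ 6 :=
        pow_le_pow_left₀ (abs_nonneg _) h1 6
    _ ≤ _ := h3
    _ ≤ (A : ℝ) ^ 5 * (((C : ℝ) ^ 3 + (C : ℝ) ^ 3 + C * (4 * (C : ℝ) ^ 2)) *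
          (C * (1 + Real.log C) ^ 3) ^ 3) := by
        have e1 : (1 : ℝ) ≤ (C : ℝ) ^ 3 := one_le_pow₀ hC1
        have e2 : (S.card : ℝ) * (4 * (A : ℝ) ^ 2) ≤ C * (4 * (C : ℝ) ^ 2) := by
          apply mul_le_mul (hcard.trans hAC') _ (by positivity) (by positivity)
          exact mul_le_mul_of_nonneg_left (pow_le_pow_left₀ (by positivity) hAC' 2) (by norm_num)
        apply mul_le_mul (pow_le_pow_left₀ (by positivity) hcard 5) _ (by positivity) (by positivity)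
        apply mul_le_mul_of_nonneg_right _ (by positivity)
        linarith
    _ ≤ 6 * ((A : ℝ) * C) ^ 6 * (1 + Real.log C) ^ 9 / A := by
        rw [le_div_iff₀ (by positivity)]
        have : (A : ℝ) ^ 5 * (((C : ℝ) ^ 3 + (C : ℝ) ^ 3 + C * (4 * (C : ℝ) ^ 2)) *
          (C * (1 + Real.log C) ^ 3) ^ 3) * A = 6 * ((A : ℝ) * C) ^ 6 * (1 + Real.log C) ^ 9 := by
          ring
        rw [this]

/-- **Bilinear estimate for Jacobi symbols.** -/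
theorem BL {α γ : ℕ → ℝ} (hα : ∀ n, |α n| ≤ 1) (hγ : ∀ n, |γ n| ≤ 1)
    (hαs : ∀ n, α n ≠ 0 → Squarefree n ∧ Odd n) (hγs : ∀ n, γ n ≠ 0 → Squarefree n ∧ Odd n)
    {A C : ℕ} (hA : 1 ≤ A) (hC : 1 ≤ C) {Λ K : ℝ} (hΛA : 1 + Real.log A ≤ Λ)
    (hΛC : 1 + Real.log C ≤ Λ) (hK : 0 < K) (hKA : 6 * Λ ^ 9 * K ^ 6 ≤ A)
    (hKC : 6 * Λ ^ 9 * K ^ 6 ≤ C) :
    |∑ a ∈ Icc 1 A, ∑ c ∈ Icc 1 C, α a * γ c * (jacobiSym a c : ℝ)| ≤ A * C / K := by
  have hA1 : (1 : ℝ) ≤ A := by exact_mod_cast hA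
  have hC1 : (1 : ℝ) ≤ C := by exact_mod_cast hC
  have hlA : 0 ≤ Real.log A := Real.log_nonneg hA1
  have hlC : 0 ≤ Real.log C := Real.log_nonneg hC1
  have key : ∀ {x y : ℝ}, 0 < y → 0 ≤ x → 1 + x ≤ Λ → 6 * Λ ^ 9 * K ^ 6 ≤ y →
      6 * ((A : ℝ) * C) ^ 6 * (1 + x) ^ 9 / y ≤ (A * C / K) ^ 6 := by
    intro x y hy hx h1 h2
    rw [div_pow, div_le_div_iff₀ hy (by positivity)]
    have h3 : (1 + x) ^ 9 ≤ Λ ^ 9 := pow_le_pow_left₀ (by linarith) h1 9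
    calc 6 * ((A : ℝ) * C) ^ 6 * (1 + x) ^ 9 * K ^ 6
        = ((A : ℝ) * C) ^ 6 * (6 * (1 + x) ^ 9 * K ^ 6) := by ring
      _ ≤ ((A : ℝ) * C) ^ 6 * (6 * Λ ^ 9 * K ^ 6) := by gcongr
      _ ≤ ((A : ℝ) * C) ^ 6 * y := by gcongr
  have h6 : |∑ a ∈ Icc 1 A, ∑ c ∈ Icc 1 C, α a * γ c * (jacobiSym a c : ℝ)| ^ 6 ≤
      (A * C / K) ^ 6 := by
    rcases le_total C A with h | h
    · exact (BL_lower hα hγ hγs hA hC h).trans (key (by linarith) hlA hΛA hKC)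
    · exact (BL_upper hα hγ hαs hγs hA hC h).trans (key (by linarith) hlC hΛC hKA)
  exact le_of_pow_le_pow_left₀ (by norm_num) (by positivity) h6

end Vale.Agent.P017.PP
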