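import Vale.Agent.P017.H185P.Good

namespace Vale.Agent.P017.PP

open Finset Matrix Module Filter

noncomputable def Q23 (y : ℕ) : Finset ℕ := (Ioc y (2 * y)).filter fun m => Squarefree m ∧ m % 60 = 23

theorem cop60_of {m : ℕ} (h : m % 60 = 23) : Nat.Coprime m 60 := by
  rw [Nat.coprime_iff_gcd_eq_one, Nat.gcd_comm, Nat.gcd_rec, h]; norm_num

theorem mod_count {y q : ℕ} (hq : 0 < q) (v : ℕ) :
    (((Ioc y (2 * y)).filter fun m => m ≡ v [MOD q]).card : ℝ) ≤ y / q + 1 ∧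
    (y : ℝ) / q - 1 ≤ (((Ioc y (2 * y)).filter fun m => m ≡ v [MOD q]).card : ℝ) := by
  have h := Nat.Ioc_filter_modEq_card y (2 * y) hq v
  have hqQ : (0 : ℚ) < q := by exact_mod_cast hq
  have e : (((2 * y : ℕ) : ℚ) - v) / q - ((y : ℚ) - v) / q = y / q := by
    push_cast; ring
  have f1 := Int.floor_le ((((2 * y : ℕ) : ℚ) - v) / q)
  have f2 := Int.lt_floor_add_one ((((2 * y : ℕ) : ℚ) - v) / q)
  have f3 := Int.floor_le (((y : ℚ) - v) / q)
  have f4 := Int.lt_floor_add_one (((y : ℚ) - v) / q)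
  have hQ : (((Ioc y (2 * y)).filter fun m => m ≡ v [MOD q]).card : ℚ) ≤ y / q + 1 ∧
      (y : ℚ) / q - 1 ≤ (((Ioc y (2 * y)).filter fun m => m ≡ v [MOD q]).card : ℚ) := by
    have h' : (((Ioc y (2 * y)).filter fun m => m ≡ v [MOD q]).card : ℚ) =
        max ((⌊(((2 * y : ℕ) : ℚ) - v) / q⌋ : ℚ) - (⌊((y : ℚ) - v) / q⌋ : ℚ)) 0 := by
      have := congrArg (Int.cast : ℤ → ℚ) h
      push_cast at this ⊢
      exact this
    rw [h']
    have hy : (0 : ℚ) ≤ y / q := by positivity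
    constructor
    · apply max_le
      · linarith
      · linarith
    · refine le_trans ?_ (le_max_left _ _)
      linarith
  constructor
  · have := (Rat.cast_le (K := ℝ)).mpr hQ.1
    push_cast at this
    exact this
  · have := (Rat.cast_le (K := ℝ)).mpr hQ.2
    push_cast at this
    exact this

theorem sq_count {y n : ℕ} (hn : Nat.Coprime n 60) (hn0 : 0 < n) :
    (((Ioc y (2 * y)).filter fun m => m % 60 = 23 ∧ n * n ∣ m).card : ℝ) ≤
      y / 60 * ((n : ℝ) ^ 2)⁻¹ + 1 := by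
  have hcop : Nat.Coprime 60 (n * n) := Nat.Coprime.mul_right hn.symm hn.symm
  obtain ⟨v, hv1, hv2⟩ := Nat.chineseRemainder hcop 23 0
  have h := (mod_count (y := y) (q := 60 * (n * n)) (by positivity) v).1
  have hsub : ((Ioc y (2 * y)).filter fun m => m % 60 = 23 ∧ n * n ∣ m) ⊆
      (Ioc y (2 * y)).filter fun m => m ≡ v [MOD (60 * (n * n))] := by
    intro m hm
    rw [mem_filter] at hm ⊢
    refine ⟨hm.1, ?_⟩
    rw [← Nat.modEq_and_modEq_iff_modEq_mul hcop]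
    refine ⟨Nat.ModEq.trans ?_ hv1.symm, Nat.ModEq.trans ?_ hv2.symm⟩
    · exact hm.2.1
    · exact (Nat.modEq_zero_iff_dvd).mpr hm.2.2
  have h2 : (((Ioc y (2 * y)).filter fun m => m % 60 = 23 ∧ n * n ∣ m).card : ℝ) ≤
      (((Ioc y (2 * y)).filter fun m => m ≡ v [MOD (60 * (n * n))]).card : ℝ) := by
    exact_mod_cast card_le_card hsub
  refine h2.trans (h.trans (le_of_eq ?_))
  push_cast
  field_simp

theorem Q23_card : ∃ y₀ : ℕ, ∀ y : ℕ, y₀ ≤ y → (y : ℝ) / 200 ≤ (Q23 y).card := by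
  refine ⟨10 ^ 6, fun y hy => ?_⟩
  have hyR : (10 : ℝ) ^ 6 ≤ y := by exact_mod_cast hy
  obtain ⟨s, hs⟩ : ∃ s, s = Nat.sqrt (2 * y) := ⟨_, rfl⟩
  have h1 := (mod_count (y := y) (q := 60) (by norm_num) 23).2
  have h7 : 6 ≤ s := by
    rw [hs, Nat.le_sqrt]
    have : (10 : ℕ) ^ 6 ≤ y := hy
    omega
  -- the complement is covered
  have hcov : (Ioc y (2 * y)).filter (fun m => m ≡ 23 [MOD 60]) ⊆ Q23 y ∪
      (Ioc 6 s).biUnion (fun n => if Nat.Coprime n 60 then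
        (Ioc y (2 * y)).filter (fun m => m % 60 = 23 ∧ n * n ∣ m) else ∅) := by
    intro m hm
    rw [mem_filter, mem_Ioc] at hm
    have hm60 : m % 60 = 23 := hm.2
    rw [mem_union, mem_biUnion]
    by_cases hsq : Squarefree m
    · left
      unfold Q23
      rw [mem_filter, mem_Ioc]; exact ⟨hm.1, hsq, hm60⟩
    · right
      rw [Nat.squarefree_iff_prime_squarefree] at hsq
      push Not at hsq
      obtain ⟨p, hp, hpp⟩ := hsq
      have hpm : p ∣ m := dvd_trans (Dvd.intro _ rfl) hpp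
      have hcop : Nat.Coprime p 60 := (cop60_of hm60).coprime_dvd_left hpm
      have hp6 : 6 < p := by
        by_contra hcon
        push Not at hcon
        have h2 := hp.two_le
        interval_cases p <;> revert hcop <;> decide
      refine ⟨p, ?_, ?_⟩
      · rw [mem_Ioc]
        refine ⟨hp6, ?_⟩
        rw [hs, Nat.le_sqrt]
        exact (Nat.le_of_dvd (by omega) hpp).trans hm.1.2
      · rw [if_pos hcop, mem_filter, mem_Ioc]
        exact ⟨hm.1, hm60, hpp⟩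
  have h2 : (((Ioc y (2 * y)).filter fun m => m ≡ 23 [MOD 60]).card : ℝ) ≤ (Q23 y).card +
      ∑ n ∈ Ioc 6 s, ((y : ℝ) / 60 * ((n : ℝ) ^ 2)⁻¹ + 1) := by
    have h3 := (card_le_card hcov).trans (card_union_le _ _)
    have h4 : ((Ioc 6 s).biUnion (fun n => if Nat.Coprime n 60 then
        (Ioc y (2 * y)).filter (fun m => m % 60 = 23 ∧ n * n ∣ m) else ∅)).card ≤
        ∑ n ∈ Ioc 6 s, (if Nat.Coprime n 60 then
        (Ioc y (2 * y)).filter (fun m => m % 60 = 23 ∧ n * n ∣ m) else ∅).card := card_biUnion_le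
    have h5 : ((∑ n ∈ Ioc 6 s, (if Nat.Coprime n 60 then
        (Ioc y (2 * y)).filter (fun m => m % 60 = 23 ∧ n * n ∣ m) else ∅).card : ℕ) : ℝ) ≤
        ∑ n ∈ Ioc 6 s, ((y : ℝ) / 60 * ((n : ℝ) ^ 2)⁻¹ + 1) := by
      push_cast
      refine sum_le_sum fun n hn => ?_
      rw [mem_Ioc] at hn
      split
      next h => exact sq_count h (by omega)
      next h =>
        rw [card_empty]
        have : (0 : ℝ) ≤ (y : ℝ) / 60 * ((n : ℝ) ^ 2)⁻¹ := by positivity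
        push_cast; linarith
    have h6 : (((Ioc y (2 * y)).filter fun m => m ≡ 23 [MOD 60]).card : ℝ) ≤
        ((Q23 y).card + ∑ n ∈ Ioc 6 s, (if Nat.Coprime n 60 then
        (Ioc y (2 * y)).filter (fun m => m % 60 = 23 ∧ n * n ∣ m) else ∅).card : ℕ) := by
      exact_mod_cast h3.trans (Nat.add_le_add_left h4 _)
    refine h6.trans ?_
    push_cast at h5 ⊢
    linarith
  have h3 : ∑ n ∈ Ioc 6 s, ((y : ℝ) / 60 * ((n : ℝ) ^ 2)⁻¹ + 1) ≤ y / 360 + s := by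
    rw [sum_add_distrib, ← mul_sum]
    have h4 := sum_Ioc_inv_sq_le_sub (α := ℝ) (k := 6) (n := s) (by norm_num) h7
    have h5 : (0 : ℝ) ≤ (s : ℝ)⁻¹ := by positivity
    have h6 : ∑ _n ∈ Ioc 6 s, (1 : ℝ) ≤ s := by
      rw [sum_const, Nat.card_Ioc, nsmul_eq_mul, mul_one]
      exact_mod_cast Nat.sub_le _ _
    have h8 : (y : ℝ) / 60 * ∑ n ∈ Ioc 6 s, ((n : ℝ) ^ 2)⁻¹ ≤ y / 60 * (1 / 6) := by
      apply mul_le_mul_of_nonneg_left _ (by positivity)
      push_cast at h4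
      linarith
    linarith
  have h4 : (s : ℝ) ≤ y / 500 := by
    have h5 : s * s ≤ 2 * y := by rw [hs]; exact Nat.sqrt_le _
    have h6 : (s : ℝ) * s ≤ 2 * y := by exact_mod_cast h5
    by_contra hcon
    push Not at hcon
    have h8 : ((y : ℝ) / 500) * (y / 500) < s * s := by
      apply mul_lt_mul'' hcon hcon <;> positivity
    nlinarith
  push_cast at h1
  linarith

theorem sum_Pr {m R : ℕ} (hm : Squarefree m) (hmo : Odd m) :
    1 - gm m / 2 ^ (R + 1) ≤ ∑ r ∈ range (R + 1), Pr m r := by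
  classical
  obtain ⟨n, hn⟩ : ∃ n : ℝ, n = (2 : ℝ) ^ Fintype.card m.primeFactors := ⟨_, rfl⟩
  have hn0 : 0 < n := by rw [hn]; positivity
  have hcard : (∑ _x : m.primeFactors → ZMod 2, (1 : ℝ)) = n := by
    rw [hn]; simp [ZMod.card]
  have h1 := avg_ker hm hmo
  rw [← hn] at h1
  have h2 : ∑ r ∈ range (R + 1), Pr m r =
      (∑ s : m.primeFactors → ZMod 2, if finrank (ZMod 2) (kr (Bm m s)) ≤ R then (1 : ℝ) else 0) /
        n := by
    unfold Pr
    rw [← sum_div, ← hn, sum_comm]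
    congr 1
    refine sum_congr rfl fun s _ => ?_
    rw [sum_ite_eq (range (R + 1))]
    by_cases h : finrank (ZMod 2) (kr (Bm m s)) ≤ R
    · rw [if_pos h, if_pos (mem_range.mpr (by omega))]
    · rw [if_neg h, if_neg (fun h' => h (by have := mem_range.mp h'; omega))]
  have h3 : n - n * gm m / 2 ^ (R + 1) ≤
      ∑ s : m.primeFactors → ZMod 2, if finrank (ZMod 2) (kr (Bm m s)) ≤ R then (1 : ℝ) else 0 := by
    have h4 : ∀ s : m.primeFactors → ZMod 2, (1 : ℝ) -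
        (2 : ℝ) ^ finrank (ZMod 2) (kr (Bm m s)) / 2 ^ (R + 1) ≤
        if finrank (ZMod 2) (kr (Bm m s)) ≤ R then (1 : ℝ) else 0 := by
      intro s
      split
      next => 
        have : (0 : ℝ) ≤ (2 : ℝ) ^ finrank (ZMod 2) (kr (Bm m s)) / 2 ^ (R + 1) := by positivity
        linarith
      next h =>
        have : (1 : ℝ) ≤ (2 : ℝ) ^ finrank (ZMod 2) (kr (Bm m s)) / 2 ^ (R + 1) := by
          rw [one_le_div (by positivity)]
          exact pow_le_pow_right₀ (by norm_num) (by omega)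
        linarith
    refine le_trans ?_ (sum_le_sum fun s _ => h4 s)
    rw [sum_sub_distrib, hcard, ← sum_div]
    apply sub_le_sub le_rfl
    exact div_le_div_of_nonneg_right h1 (by positivity)
  rw [h2, le_div_iff₀ hn0]
  refine le_trans (le_of_eq ?_) h3
  ring

theorem PH (hSW : SWH) : ∃ R : ℕ, ∃ c : ℝ, 0 < c ∧ ∃ y₀ : ℕ, ∀ y : ℕ, y₀ ≤ y →
    ∃ r ≤ R, c * y ≤ ∑ m ∈ Q23 y, Pr m r := by
  obtain ⟨C, hC, M₀, hE⟩ := E2 hSW
  obtain ⟨y₁, hQ⟩ := Q23_card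
  obtain ⟨R, hR⟩ : ∃ R : ℕ, 400 * C ≤ 2 ^ R := by
    obtain ⟨R, hR⟩ := pow_unbounded_of_one_lt (400 * C) (show (1 : ℝ) < 2 by norm_num)
    exact ⟨R, hR.le⟩
  refine ⟨R, 1 / (400 * (R + 1)), by positivity, y₁ + M₀, fun y hy => ?_⟩
  have hyR : (0 : ℝ) ≤ y := Nat.cast_nonneg y
  by_contra hcon
  push Not at hcon
  have h1 : ∑ m ∈ Q23 y, ∑ r ∈ range (R + 1), Pr m r ≤ y / 400 := by
    rw [sum_comm]
    calc ∑ r ∈ range (R + 1), ∑ m ∈ Q23 y, Pr m r
        ≤ ∑ r ∈ range (R + 1), 1 / (400 * ((R : ℝ) + 1)) * y := by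
          refine sum_le_sum fun r hr => (hcon r ?_).le
          have := mem_range.mp hr; omega
      _ = y / 400 := by
          rw [sum_const, card_range, nsmul_eq_mul]; push_cast; field_simp
  have h2 : ((Q23 y).card : ℝ) - (∑ m ∈ Q23 y, gm m) / 2 ^ (R + 1) ≤
      ∑ m ∈ Q23 y, ∑ r ∈ range (R + 1), Pr m r := by
    have h3 : ∀ m ∈ Q23 y, 1 - gm m / 2 ^ (R + 1) ≤ ∑ r ∈ range (R + 1), Pr m r := by
      intro m hm
      unfold Q23 at hm
      rw [mem_filter] at hm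
      apply sum_Pr hm.2.1
      rw [Nat.odd_iff]; omega
    refine le_trans (le_of_eq ?_) (sum_le_sum h3)
    rw [sum_sub_distrib, ← sum_div, sum_const, nsmul_eq_mul, mul_one]
  have h3 : ∑ m ∈ Q23 y, gm m ≤ C * ((2 * y : ℕ) : ℝ) := by
    refine le_trans ?_ (hE (2 * y) (by omega))
    apply sum_le_sum_of_subset_of_nonneg
    · intro m hm
      unfold Q23 at hm
      rw [mem_filter, mem_Ioc] at hm
      rw [mem_Icc]; omega
    · intro m _ _; exact gm_nonneg m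
  have h4 := hQ y (by omega)
  have h5 : (∑ m ∈ Q23 y, gm m) / 2 ^ (R + 1) ≤ y / 400 := by
    rw [div_le_iff₀ (by positivity)]
    refine h3.trans ?_
    push_cast
    rw [pow_succ]
    nlinarith
  -- strictness
  have h6 : (y : ℝ) / 400 ≤ ∑ m ∈ Q23 y, ∑ r ∈ range (R + 1), Pr m r := by linarith
  have h7 : ∑ m ∈ Q23 y, ∑ r ∈ range (R + 1), Pr m r < y / 400 := by
    rw [sum_comm]
    calc ∑ r ∈ range (R + 1), ∑ m ∈ Q23 y, Pr m r
        < ∑ r ∈ range (R + 1), 1 / (400 * ((R : ℝ) + 1)) * y := by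
          apply sum_lt_sum_of_nonempty ⟨0, mem_range.mpr (by omega)⟩
          intro r hr
          apply hcon r
          have := mem_range.mp hr; omega
      _ = y / 400 := by
          rw [sum_const, card_range, nsmul_eq_mul]; push_cast; field_simp
  linarith

/-- one block of the final count -/
theorem block_count (hSW : SWH) {R Q : ℕ} {c : ℝ} (hc : 0 < c) (hQ : 1 ≤ Q) : ∃ c' : ℝ, 0 < c' ∧
    ∃ T₀ : ℕ, ∀ T : ℕ, T₀ ≤ T → ∀ i : ℕ, T ≤ i → i ≤ 2 * T → ∀ r ≤ R,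
    c * (2 ^ i : ℕ) ≤ ∑ m ∈ Q23 (2 ^ i), Pr m r →
    ∀ j : Fin (r + 1) → ℕ, (∀ l, T ≤ j l) → (∀ l, j l ≤ Q * T) →
    c' * (2 : ℝ) ^ (i + ∑ l, j l) / (T : ℝ) ^ (r + 1) ≤
      ∑ m ∈ Q23 (2 ^ i), ((GT m r fun l => 2 ^ j l).card : ℝ) := by
  obtain ⟨δ, hδ⟩ : ∃ δ, δ = c / (4 ^ R * 80 * (R + 1)) := ⟨_, rfl⟩
  have hδ0 : 0 < δ := by rw [hδ]; positivity
  obtain ⟨y₀, hEQ⟩ := EQ hSW hδ0 (C₀ := 3) (by norm_num)
  obtain ⟨y₁, hlow⟩ := sw_lower hSW
  refine ⟨(1 / 4) ^ R * c / 2 / (20 ^ (R + 1) * (2 * Q) ^ (R + 1)), by positivity,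
    y₀ + y₁ + 1, ?_⟩
  intro T hT i hi1 hi2 r hr hPr j hj1 hj2
  have hT1 : 1 ≤ T := by omega
  have hTR : (1 : ℝ) ≤ T := by exact_mod_cast hT1
  have hQR : (1 : ℝ) ≤ Q := by exact_mod_cast hQ
  have hjbig : ∀ l, y₀ + y₁ ≤ 2 ^ j l := by
    intro l
    have h1 : j l < 2 ^ j l := Nat.lt_two_pow_self
    have := hj1 l
    omega
  have hThl : ∀ l, ((2 ^ j l : ℕ) : ℝ) / 20 ≤ Th (2 ^ j l) := by
    intro l
    have := hlow (2 ^ j l) (by have := hjbig l; omega)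
    exact this
  have hTh0 : ∀ l, 0 < Th (2 ^ j l) := by
    intro l
    refine lt_of_lt_of_le ?_ (hThl l)
    push_cast; positivity
  have hTV : ∀ l, ∑ m ∈ Q23 (2 ^ i), TV m (2 ^ j l) ≤ δ * (2 * 2 ^ i : ℕ) * (2 ^ j l : ℕ) := by
    intro l
    apply hEQ (2 ^ j l) (by have := hjbig l; omega) (2 * 2 ^ i)
    · have e1 : Real.log ((2 * 2 ^ i : ℕ) : ℝ) = (i + 1) * Real.log 2 := by
        push_cast
        rw [← pow_succ', Real.log_pow]; push_cast; ring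
      have e2 : Real.log ((2 ^ j l : ℕ) : ℝ) = j l * Real.log 2 := by
        push_cast
        rw [Real.log_pow]
      rw [e1, e2]
      have h2 : (0 : ℝ) < Real.log 2 := Real.log_pos (by norm_num)
      have h3 : (i : ℝ) ≤ 2 * T := by exact_mod_cast hi2
      have h4 : (T : ℝ) ≤ j l := by exact_mod_cast hj1 l
      have h5 : (i : ℝ) + 1 ≤ 3 * j l := by linarith
      calc ((i : ℝ) + 1) * Real.log 2 ≤ (3 * j l) * Real.log 2 :=
            mul_le_mul_of_nonneg_right h5 h2.le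
        _ = _ := by ring
    · intro m hm
      unfold Q23 at hm
      rw [mem_filter, mem_Ioc] at hm
      rw [mem_Icc]; omega
    · intro m hm
      unfold Q23 at hm
      rw [mem_filter] at hm
      exact ⟨hm.2.1, cop60_of hm.2.2⟩
  -- sum of the lower bounds
  have hsum : (∏ l, Th (2 ^ j l)) * ((1 / 4) ^ r * (∑ m ∈ Q23 (2 ^ i), Pr m r) -
      ∑ l, (∑ m ∈ Q23 (2 ^ i), TV m (2 ^ j l)) / Th (2 ^ j l)) ≤
      (∑ m ∈ Q23 (2 ^ i), ((GT m r fun l => 2 ^ j l).card : ℝ)) *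
        ∏ l, Real.log ((2 * 2 ^ j l : ℕ) : ℝ) := by
    have h1 : ∀ m ∈ Q23 (2 ^ i), (∏ l, Th (2 ^ j l)) * ((1 / 4) ^ r * Pr m r -
        ∑ l, TV m (2 ^ j l) / Th (2 ^ j l)) ≤
        ((GT m r fun l => 2 ^ j l).card : ℝ) * ∏ l, Real.log ((2 * 2 ^ j l : ℕ) : ℝ) :=
      fun m _ => GT_card (y := fun l => 2 ^ j l) hTh0
    have h2 := sum_le_sum h1
    rw [← sum_mul] at h2
    refine le_trans (le_of_eq ?_) h2
    rw [← mul_sum, sum_sub_distrib, ← mul_sum, sum_comm]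
    congr 2
    refine sum_congr rfl fun l _ => ?_
    rw [sum_div]
  have h4r : (1 / 4 : ℝ) ^ R ≤ (1 / 4) ^ r :=
    pow_le_pow_of_le_one (by norm_num) (by norm_num) hr
  have hr1 : (r : ℝ) + 1 ≤ R + 1 := by
    have : (r : ℝ) ≤ R := by exact_mod_cast hr
    linarith
  have hmain : (1 / 4) ^ R * c / 2 * (2 ^ i : ℕ) ≤ (1 / 4) ^ r * (∑ m ∈ Q23 (2 ^ i), Pr m r) -
      ∑ l, (∑ m ∈ Q23 (2 ^ i), TV m (2 ^ j l)) / Th (2 ^ j l) := by
    have h1 : (1 / 4) ^ R * (c * (2 ^ i : ℕ)) ≤ (1 / 4) ^ r * (∑ m ∈ Q23 (2 ^ i), Pr m r) :=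
      mul_le_mul h4r hPr (by positivity) (by positivity)
    have h2 : ∑ l, (∑ m ∈ Q23 (2 ^ i), TV m (2 ^ j l)) / Th (2 ^ j l) ≤
        ∑ _l : Fin (r + 1), 40 * δ * (2 ^ i : ℕ) := by
      refine sum_le_sum fun l _ => ?_
      rw [div_le_iff₀ (hTh0 l)]
      refine (hTV l).trans ?_
      have h3 := hThl l
      have h5 : 0 ≤ 40 * δ * ((2 ^ i : ℕ) : ℝ) := by positivity
      calc δ * (2 * 2 ^ i : ℕ) * (2 ^ j l : ℕ) = 40 * δ * (2 ^ i : ℕ) * ((2 ^ j l : ℕ) / 20) := by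
            push_cast; ring
        _ ≤ _ := mul_le_mul_of_nonneg_left h3 h5
    have h3 : ∑ _l : Fin (r + 1), 40 * δ * ((2 ^ i : ℕ) : ℝ) ≤ (1 / 4) ^ R * c / 2 * (2 ^ i : ℕ) := by
      rw [sum_const, card_univ, Fintype.card_fin, nsmul_eq_mul]
      push_cast
      have e1 : (1 / 4 : ℝ) ^ R * c / 2 * 2 ^ i = (R + 1) * (40 * δ * 2 ^ i) := by
        rw [hδ, div_pow, one_pow]; field_simp; ring
      rw [e1]
      apply mul_le_mul_of_nonneg_right hr1 (by positivity)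
    linarith
  have hprodTh : (2 : ℝ) ^ (∑ l, j l) / 20 ^ (R + 1) ≤ ∏ l, Th (2 ^ j l) := by
    calc (2 : ℝ) ^ (∑ l, j l) / 20 ^ (R + 1) ≤ (2 : ℝ) ^ (∑ l, j l) / 20 ^ (r + 1) := by
          apply div_le_div_of_nonneg_left (by positivity) (by positivity)
          exact pow_le_pow_right₀ (by norm_num) (by omega)
      _ = ∏ l, ((2 ^ j l : ℕ) : ℝ) / 20 := by
          rw [prod_div_distrib, prod_const, card_univ, Fintype.card_fin]
          push_cast
          rw [prod_pow_eq_pow_sum]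
      _ ≤ _ := prod_le_prod (fun l _ => by positivity) fun l _ => hThl l
  have hprodlog : ∏ l, Real.log ((2 * 2 ^ j l : ℕ) : ℝ) ≤ (2 * Q) ^ (R + 1) * (T : ℝ) ^ (r + 1) := by
    have h1 : ∀ l ∈ (univ : Finset (Fin (r + 1))), Real.log ((2 * 2 ^ j l : ℕ) : ℝ) ≤ 2 * Q * T := by
      intro l _
      have e1 : Real.log ((2 * 2 ^ j l : ℕ) : ℝ) = (j l + 1) * Real.log 2 := by
        push_cast
        rw [← pow_succ', Real.log_pow]; push_cast; ring
      rw [e1]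
      have h2 : Real.log 2 ≤ 1 := by have := Real.log_two_lt_d9; linarith
      have h3 : (j l : ℝ) ≤ Q * T := by exact_mod_cast hj2 l
      have h4 : (0 : ℝ) ≤ (j l : ℝ) + 1 := by positivity
      have h5 : (1 : ℝ) ≤ Q * T := by nlinarith
      calc ((j l : ℝ) + 1) * Real.log 2 ≤ ((j l : ℝ) + 1) * 1 := mul_le_mul_of_nonneg_left h2 h4
        _ ≤ _ := by linarith
    calc ∏ l, Real.log ((2 * 2 ^ j l : ℕ) : ℝ) ≤ ∏ _l : Fin (r + 1), (2 * Q * T : ℝ) := by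
          apply prod_le_prod _ h1
          intro l _
          apply Real.log_nonneg
          exact_mod_cast Nat.one_le_iff_ne_zero.mpr (by positivity)
      _ = (2 * Q) ^ (r + 1) * (T : ℝ) ^ (r + 1) := by
          rw [prod_const, card_univ, Fintype.card_fin, mul_pow]
      _ ≤ _ := by
          apply mul_le_mul_of_nonneg_right _ (by positivity)
          exact pow_le_pow_right₀ (by linarith) (by omega)
  -- conclusion
  obtain ⟨G, hG⟩ : ∃ G, G = ∑ m ∈ Q23 (2 ^ i), ((GT m r fun l => 2 ^ j l).card : ℝ) := ⟨_, rfl⟩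
  rw [← hG] at hsum ⊢
  have hG0 : 0 ≤ G := by rw [hG]; exact sum_nonneg fun _ _ => Nat.cast_nonneg _
  have hfin : (2 : ℝ) ^ (∑ l, j l) / 20 ^ (R + 1) * ((1 / 4) ^ R * c / 2 * (2 ^ i : ℕ)) ≤
      G * ((2 * Q) ^ (R + 1) * (T : ℝ) ^ (r + 1)) := by
    refine le_trans ?_ (hsum.trans (mul_le_mul_of_nonneg_left hprodlog hG0))
    apply mul_le_mul hprodTh hmain (by positivity)
    exact prod_nonneg fun l _ => (hTh0 l).le
  rw [div_le_iff₀ (by positivity)]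
  rw [show (2 : ℝ) ^ (i + ∑ l, j l) = 2 ^ i * 2 ^ ∑ l, j l from pow_add _ _ _]
  have e : (1 / 4 : ℝ) ^ R * c / 2 / (20 ^ (R + 1) * (2 * Q) ^ (R + 1)) * (2 ^ i * 2 ^ ∑ l, j l) =
      ((2 : ℝ) ^ (∑ l, j l) / 20 ^ (R + 1) * ((1 / 4) ^ R * c / 2 * (2 ^ i : ℕ))) /
        (2 * Q) ^ (R + 1) := by
    push_cast; field_simp
  rw [e, div_le_iff₀ (by positivity)]
  refine hfin.trans (le_of_eq ?_)
  ring

end Vale.Agent.P017.PP
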