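import Vale.Agent.P017.H185P.Tau

namespace Vale.Agent.P017.PP

open Finset

variable {φ : ℕ → ℕ → ℝ} {S : Finset ℕ} {D : ℝ}

/-- dual large sieve -/
theorem dual_ls (hφ : ∀ n c, |φ n c| ≤ 1) (hD : 0 ≤ D)
    (horth : ∀ c ∈ S, ∀ c' ∈ S, c ≠ c' → ∀ N : ℕ, |∑ n ∈ range N, φ n c * φ n c'| ≤ D)
    (N : ℕ) (β : ℕ → ℝ) :
    ∑ n ∈ range N, (∑ c ∈ S, β c * φ n c) ^ 2 ≤ (N + S.card * D) * ∑ c ∈ S, β c ^ 2 := by
  have h1 : ∑ n ∈ range N, (∑ c ∈ S, β c * φ n c) ^ 2 =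
      ∑ c ∈ S, ∑ c' ∈ S, β c * β c' * ∑ n ∈ range N, φ n c * φ n c' := by
    have : ∀ n ∈ range N, (∑ c ∈ S, β c * φ n c) ^ 2 =
        ∑ c ∈ S, ∑ c' ∈ S, β c * β c' * (φ n c * φ n c') := by
      intro n _
      rw [sq, sum_mul_sum]
      exact sum_congr rfl fun c _ => sum_congr rfl fun c' _ => by ring
    rw [sum_congr rfl this, sum_comm]
    refine sum_congr rfl fun c _ => ?_
    rw [sum_comm]
    exact sum_congr rfl fun c' _ => by rw [mul_sum]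
  rw [h1]
  have h2 : ∀ c ∈ S, ∀ c' ∈ S, β c * β c' * ∑ n ∈ range N, φ n c * φ n c' ≤
      (if c = c' then β c ^ 2 * N else 0) + |β c| * |β c'| * D := by
    intro c hc c' hc'
    by_cases h : c = c'
    · subst h
      rw [if_pos rfl]
      have h3 : ∑ n ∈ range N, φ n c * φ n c ≤ N := by
        calc ∑ n ∈ range N, φ n c * φ n c ≤ ∑ n ∈ range N, (1 : ℝ) := by
              refine sum_le_sum fun n _ => ?_
              have := hφ n c
              rw [← sq, ← sq_abs]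
              exact pow_le_one₀ (abs_nonneg _) this
          _ = N := by simp
      have h4 : 0 ≤ |β c| * |β c| * D := by positivity
      have h5 : β c * β c * ∑ n ∈ range N, φ n c * φ n c ≤ β c * β c * N :=
        mul_le_mul_of_nonneg_left h3 (mul_self_nonneg _)
      nlinarith
    · rw [if_neg h, zero_add]
      calc β c * β c' * ∑ n ∈ range N, φ n c * φ n c' ≤
          |β c * β c' * ∑ n ∈ range N, φ n c * φ n c'| := le_abs_self _
        _ = |β c| * |β c'| * |∑ n ∈ range N, φ n c * φ n c'| := by rw [abs_mul, abs_mul]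
        _ ≤ _ := mul_le_mul_of_nonneg_left (horth c hc c' hc' h N) (by positivity)
  calc ∑ c ∈ S, ∑ c' ∈ S, β c * β c' * ∑ n ∈ range N, φ n c * φ n c'
      ≤ ∑ c ∈ S, ∑ c' ∈ S, ((if c = c' then β c ^ 2 * N else 0) + |β c| * |β c'| * D) :=
        sum_le_sum fun c hc => sum_le_sum fun c' hc' => h2 c hc c' hc'
    _ = N * ∑ c ∈ S, β c ^ 2 + D * (∑ c ∈ S, |β c|) ^ 2 := by
        simp only [sum_add_distrib]
        congr 1
        · rw [mul_sum]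
          refine sum_congr rfl fun c hc => ?_
          rw [sum_ite_eq, if_pos hc]; ring
        · rw [sq, sum_mul_sum, mul_sum]
          refine sum_congr rfl fun c _ => ?_
          rw [mul_sum]
          exact sum_congr rfl fun c' _ => by ring
    _ ≤ N * ∑ c ∈ S, β c ^ 2 + D * (S.card * ∑ c ∈ S, β c ^ 2) := by
        gcongr
        have := sq_sum_le_card_mul_sum_sq (s := S) (f := fun c => |β c|)
        simpa [sq_abs] using this
    _ = _ := by ring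

/-- large sieve -/
theorem ls (hφ : ∀ n c, |φ n c| ≤ 1) (hD : 0 ≤ D)
    (horth : ∀ c ∈ S, ∀ c' ∈ S, c ≠ c' → ∀ N : ℕ, |∑ n ∈ range N, φ n c * φ n c'| ≤ D)
    (N : ℕ) (l : ℕ → ℝ) :
    ∑ c ∈ S, (∑ n ∈ range N, l n * φ n c) ^ 2 ≤ (N + S.card * D) * ∑ n ∈ range N, l n ^ 2 := by
  obtain ⟨Q, hQ⟩ : ∃ Q, Q = ∑ c ∈ S, (∑ n ∈ range N, l n * φ n c) ^ 2 := ⟨_, rfl⟩
  obtain ⟨T, hT⟩ : ∃ T, T = ∑ n ∈ range N, l n ^ 2 := ⟨_, rfl⟩
  have hQ0 : 0 ≤ Q := by rw [hQ]; exact sum_nonneg fun _ _ => sq_nonneg _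
  have hT0 : 0 ≤ T := by rw [hT]; exact sum_nonneg fun _ _ => sq_nonneg _
  have hE : (0 : ℝ) ≤ N + S.card * D := by positivity
  rw [← hQ, ← hT]
  have h1 : Q = ∑ n ∈ range N, l n * ∑ c ∈ S, (∑ m ∈ range N, l m * φ m c) * φ n c := by
    rw [hQ]
    simp only [mul_sum]
    rw [sum_comm]
    refine sum_congr rfl fun c _ => ?_
    rw [sq]
    conv_lhs => rw [sum_mul]
    exact sum_congr rfl fun n _ => by ring
  have h2 : Q ^ 2 ≤ T * ((N + S.card * D) * Q) := by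
    conv_lhs => rw [h1]
    refine (sum_mul_sq_le_sq_mul_sq _ _ _).trans ?_
    rw [hT]
    apply mul_le_mul_of_nonneg_left _ (sum_nonneg fun _ _ => sq_nonneg _)
    rw [hQ]
    exact dual_ls hφ hD horth N _
  by_cases hQ1 : Q = 0
  · rw [hQ1]; positivity
  · have hQ2 : 0 < Q := lt_of_le_of_ne hQ0 (Ne.symm hQ1)
    nlinarith

/-- number of representations as a product of three factors -/
theorem cube_expand (hmul : ∀ m n c, φ (m * n) c = φ m c * φ n c) (A : ℕ) (α : ℕ → ℝ) (c : ℕ) :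
    (∑ a ∈ Icc 1 A, α a * φ a c) ^ 3 =
      ∑ n ∈ range (A ^ 3 + 1), (∑ t ∈ (Icc 1 A ×ˢ (Icc 1 A ×ˢ Icc 1 A)).filter
        (fun t => t.1 * (t.2.1 * t.2.2) = n), α t.1 * (α t.2.1 * α t.2.2)) * φ n c := by
  have h1 : (∑ a ∈ Icc 1 A, α a * φ a c) ^ 3 =
      ∑ t ∈ Icc 1 A ×ˢ (Icc 1 A ×ˢ Icc 1 A),
        α t.1 * (α t.2.1 * α t.2.2) * φ (t.1 * (t.2.1 * t.2.2)) c := by
    have e1 : (∑ a ∈ Icc 1 A, α a * φ a c) ^ 3 =
        ∑ x ∈ Icc 1 A, ∑ y ∈ Icc 1 A, ∑ z ∈ Icc 1 A, α x * φ x c * (α y * φ y c * (α z * φ z c)) := by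
      calc (∑ a ∈ Icc 1 A, α a * φ a c) ^ 3 = (∑ a ∈ Icc 1 A, α a * φ a c) *
            ((∑ a ∈ Icc 1 A, α a * φ a c) * (∑ a ∈ Icc 1 A, α a * φ a c)) := by ring
        _ = (∑ a ∈ Icc 1 A, α a * φ a c) *
            ∑ y ∈ Icc 1 A, ∑ z ∈ Icc 1 A, α y * φ y c * (α z * φ z c) := by rw [sum_mul_sum]
        _ = _ := by
          rw [sum_mul]
          simp only [mul_sum]
    rw [e1, sum_product]
    refine sum_congr rfl fun x _ => ?_
    rw [sum_product]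
    refine sum_congr rfl fun y _ => sum_congr rfl fun z _ => ?_
    simp only [hmul]
    ring
  rw [h1]
  rw [← sum_fiberwise_of_maps_to (s := Icc 1 A ×ˢ (Icc 1 A ×ˢ Icc 1 A)) (t := range (A ^ 3 + 1))
    (g := fun t => t.1 * (t.2.1 * t.2.2))]
  · refine sum_congr rfl fun n _ => ?_
    rw [sum_mul]
    refine sum_congr rfl fun t ht => ?_
    rw [(mem_filter.mp ht).2]
  · intro t ht
    simp only [mem_product, mem_Icc] at ht
    rw [mem_range, Nat.lt_succ_iff]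
    calc t.1 * (t.2.1 * t.2.2) ≤ A * (A * A) :=
          Nat.mul_le_mul ht.1.2 (Nat.mul_le_mul ht.2.1.2 ht.2.2.2)
      _ = A ^ 3 := by ring

theorem card_rep_le (A : ℕ) {n : ℕ} (hn : n ≠ 0) :
    ((Icc 1 A ×ˢ (Icc 1 A ×ˢ Icc 1 A)).filter
      (fun t => t.1 * (t.2.1 * t.2.2) = n)).card ≤ n.divisors.card ^ 2 := by
  rw [sq, ← card_product]
  apply card_le_card_of_injOn (fun t => (t.1, t.2.1))
  · intro t ht
    rw [mem_coe, mem_filter] at ht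
    rw [mem_coe, mem_product]
    simp only [Nat.mem_divisors]
    refine ⟨⟨⟨_, ht.2.symm⟩, hn⟩, ⟨⟨t.1 * t.2.2, ?_⟩, hn⟩⟩
    rw [← ht.2]; ring
  · rintro ⟨a, b, c⟩ ht ⟨a', b', c'⟩ ht' h
    rw [mem_coe, mem_filter] at ht ht'
    simp only [Prod.mk.injEq] at h
    obtain ⟨rfl, rfl⟩ := h
    have h1 : a * (b * c) = a * (b * c') := ht.2.trans ht'.2.symm
    simp only [mem_product, mem_Icc] at ht
    have ha : a ≠ 0 := by omega
    have hb : b ≠ 0 := by omega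
    have h2 : c = c' := by
      have h3 := Nat.eq_of_mul_eq_mul_left (Nat.pos_of_ne_zero ha) h1
      exact Nat.eq_of_mul_eq_mul_left (Nat.pos_of_ne_zero hb) h3
    rw [h2]

theorem card_divisors_mul_le (m n : ℕ) : (m * n).divisors.card ≤ m.divisors.card * n.divisors.card := by
  rw [Nat.divisors_mul]
  exact card_mul_le

/-- the moment of the coefficients -/
theorem coef_sq_le {α : ℕ → ℝ} (hα : ∀ n, |α n| ≤ 1) (A : ℕ) :
    ∑ n ∈ range (A ^ 3 + 1), (∑ t ∈ (Icc 1 A ×ˢ (Icc 1 A ×ˢ Icc 1 A)).filter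
        (fun t => t.1 * (t.2.1 * t.2.2) = n), α t.1 * (α t.2.1 * α t.2.2)) ^ 2 ≤
      (A * (1 + Real.log A) ^ 3) ^ 3 := by
  have hτ : ∀ n ∈ range (A ^ 3 + 1), (∑ t ∈ (Icc 1 A ×ˢ (Icc 1 A ×ˢ Icc 1 A)).filter
        (fun t => t.1 * (t.2.1 * t.2.2) = n), α t.1 * (α t.2.1 * α t.2.2)) ^ 2 ≤
      ∑ t ∈ (Icc 1 A ×ˢ (Icc 1 A ×ˢ Icc 1 A)).filter
        (fun t => t.1 * (t.2.1 * t.2.2) = n), ((n.divisors.card : ℝ)) ^ 2 := by
    intro n _
    obtain ⟨F, hF⟩ : ∃ F, F = (Icc 1 A ×ˢ (Icc 1 A ×ˢ Icc 1 A)).filter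
        (fun t => t.1 * (t.2.1 * t.2.2) = n) := ⟨_, rfl⟩
    rw [← hF]
    have h1 : |∑ t ∈ F, α t.1 * (α t.2.1 * α t.2.2)| ≤ F.card := by
      calc |∑ t ∈ F, α t.1 * (α t.2.1 * α t.2.2)| ≤ ∑ t ∈ F, |α t.1 * (α t.2.1 * α t.2.2)| :=
            abs_sum_le_sum_abs _ _
        _ ≤ ∑ t ∈ F, (1 : ℝ) := by
            refine sum_le_sum fun t _ => ?_
            rw [abs_mul, abs_mul]
            exact mul_le_one₀ (hα _) (by positivity)
              (mul_le_one₀ (hα _) (abs_nonneg _) (hα _))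
        _ = F.card := by simp
    rw [sum_const, nsmul_eq_mul]
    by_cases hn : n = 0
    · have hFe : F = ∅ := by
        rw [hF, filter_eq_empty_iff]
        rintro ⟨a, b, c⟩ ht h
        simp only [mem_product, mem_Icc] at ht
        simp only [hn, mul_eq_zero] at h
        omega
      rw [hFe]; simp
    · have h2 : (F.card : ℝ) ≤ (n.divisors.card : ℝ) ^ 2 := by
        rw [hF]; exact_mod_cast card_rep_le A hn
      calc (∑ t ∈ F, α t.1 * (α t.2.1 * α t.2.2)) ^ 2 = |∑ t ∈ F, α t.1 * (α t.2.1 * α t.2.2)| ^ 2 := by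
            rw [sq_abs]
        _ ≤ (F.card : ℝ) ^ 2 := pow_le_pow_left₀ (abs_nonneg _) h1 2
        _ = F.card * F.card := sq _
        _ ≤ _ := mul_le_mul_of_nonneg_left h2 (Nat.cast_nonneg _)
  refine (sum_le_sum hτ).trans ?_
  have h3 : ∑ n ∈ range (A ^ 3 + 1), ∑ t ∈ (Icc 1 A ×ˢ (Icc 1 A ×ˢ Icc 1 A)).filter
        (fun t => t.1 * (t.2.1 * t.2.2) = n), ((n.divisors.card : ℝ)) ^ 2 =
      ∑ t ∈ Icc 1 A ×ˢ (Icc 1 A ×ˢ Icc 1 A), (((t.1 * (t.2.1 * t.2.2)).divisors.card : ℝ)) ^ 2 := by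
    rw [← sum_fiberwise_of_maps_to (s := Icc 1 A ×ˢ (Icc 1 A ×ˢ Icc 1 A)) (t := range (A ^ 3 + 1))
      (g := fun t => t.1 * (t.2.1 * t.2.2))]
    · refine sum_congr rfl fun n _ => sum_congr rfl fun t ht => ?_
      rw [(mem_filter.mp ht).2]
    · intro t ht
      simp only [mem_product, mem_Icc] at ht
      rw [mem_range, Nat.lt_succ_iff]
      calc t.1 * (t.2.1 * t.2.2) ≤ A * (A * A) :=
            Nat.mul_le_mul ht.1.2 (Nat.mul_le_mul ht.2.1.2 ht.2.2.2)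
        _ = A ^ 3 := by ring
  rw [h3]
  calc ∑ t ∈ Icc 1 A ×ˢ (Icc 1 A ×ˢ Icc 1 A), (((t.1 * (t.2.1 * t.2.2)).divisors.card : ℝ)) ^ 2
      ≤ ∑ t ∈ Icc 1 A ×ˢ (Icc 1 A ×ˢ Icc 1 A), ((t.1.divisors.card : ℝ)) ^ 2 *
          (((t.2.1.divisors.card : ℝ)) ^ 2 * ((t.2.2.divisors.card : ℝ)) ^ 2) := by
        refine sum_le_sum fun t _ => ?_
        rw [← mul_pow, ← mul_pow]
        apply pow_le_pow_left₀ (Nat.cast_nonneg _)
        have h4 := card_divisors_mul_le t.1 (t.2.1 * t.2.2)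
        have h5 := card_divisors_mul_le t.2.1 t.2.2
        have h6 := h4.trans (Nat.mul_le_mul_left _ h5)
        exact_mod_cast h6
    _ = (∑ a ∈ Icc 1 A, ((a.divisors.card : ℝ)) ^ 2) ^ 3 := by
        rw [sum_product]
        simp only [← mul_sum]
        rw [← sum_mul, sum_product]
        simp only [← mul_sum]
        rw [← sum_mul]
        ring
    _ ≤ _ := pow_le_pow_left₀ (sum_nonneg fun _ _ => sq_nonneg _) (tau_sq_le A) 3

/-- **Bilinear estimate**, abstract form. -/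
theorem bilinear (hφ : ∀ n c, |φ n c| ≤ 1) (hmul : ∀ m n c, φ (m * n) c = φ m c * φ n c)
    (hD : 0 ≤ D)
    (horth : ∀ c ∈ S, ∀ c' ∈ S, c ≠ c' → ∀ N : ℕ, |∑ n ∈ range N, φ n c * φ n c'| ≤ D)
    {α : ℕ → ℝ} (hα : ∀ n, |α n| ≤ 1) (A : ℕ) :
    (∑ c ∈ S, |∑ a ∈ Icc 1 A, α a * φ a c|) ^ 6 ≤
      (S.card : ℝ) ^ 5 * (((A : ℝ) ^ 3 + 1 + S.card * D) * (A * (1 + Real.log A) ^ 3) ^ 3) := by
  have h1 : (∑ c ∈ S, |∑ a ∈ Icc 1 A, α a * φ a c|) ^ 6 ≤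
      (S.card : ℝ) ^ 5 * ∑ c ∈ S, |∑ a ∈ Icc 1 A, α a * φ a c| ^ 6 := by
    rcases S.eq_empty_or_nonempty with rfl | hS
    · simp
    · have hc : (0 : ℝ) < S.card := by exact_mod_cast hS.card_pos
      have h := pow_sum_div_card_le_sum_pow (s := S)
        (f := fun c => |∑ a ∈ Icc 1 A, α a * φ a c|) (n := 5) (fun c _ => abs_nonneg _)
      rw [div_le_iff₀ (by positivity), mul_comm] at h
      exact h
  refine h1.trans ?_
  apply mul_le_mul_of_nonneg_left _ (by positivity)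
  have h2 : ∀ c ∈ S, |∑ a ∈ Icc 1 A, α a * φ a c| ^ 6 =
      (∑ n ∈ range (A ^ 3 + 1), (∑ t ∈ (Icc 1 A ×ˢ (Icc 1 A ×ˢ Icc 1 A)).filter
        (fun t => t.1 * (t.2.1 * t.2.2) = n), α t.1 * (α t.2.1 * α t.2.2)) * φ n c) ^ 2 := by
    intro c _
    rw [← cube_expand hmul, ← pow_mul]
    norm_num
    rw [show (6 : ℕ) = 2 * 3 from rfl, pow_mul, sq_abs, ← pow_mul]
  rw [sum_congr rfl h2]
  refine (ls hφ hD horth _ _).trans ?_
  have h3 : ((A ^ 3 + 1 : ℕ) : ℝ) + S.card * D = (A : ℝ) ^ 3 + 1 + S.card * D := by push_cast; ring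
  rw [h3]
  exact mul_le_mul_of_nonneg_left (coef_sq_le hα A) (by positivity)

end Vale.Agent.P017.PP
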