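import Vale.Agent.P017.H185P.Pkg

namespace Vale.Agent.P017.PP

open Finset Filter

theorem biU_le {ι : Type*} [DecidableEq ι] (s : Finset ι) (t : ι → Finset ℕ) {F : ℕ → ℝ}
    (hF : ∀ a, 0 ≤ F a) : ∑ a ∈ s.biUnion t, F a ≤ ∑ j ∈ s, ∑ a ∈ t j, F a := by
  induction s using Finset.induction_on with
  | empty => simp
  | insert a s ha ih =>
    rw [biUnion_insert, sum_insert ha]
    have h1 := sum_union_inter (s₁ := t a) (s₂ := s.biUnion t) (f := F)
    have h2 : 0 ≤ ∑ e ∈ t a ∩ s.biUnion t, F e := sum_nonneg fun e _ => hF e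
    linarith

/-- the set of primes `≡ 1 mod 60` in `(y, 2y]` -/
noncomputable def Py (y : ℕ) : Finset ℕ := (Ioc y (2 * y)).filter (fun p => p.Prime ∧ p % 60 = 1)

noncomputable def Sy (y e : ℕ) : ℝ := ∑ p ∈ Py y, (jacobiSym p e : ℝ) * Real.log p

theorem Th_le (y : ℕ) : ∑ p ∈ Py y, Real.log p ≤ 3 * y := by
  have h1 : ∑ p ∈ Py y, Real.log p ≤ ∑ p ∈ (Ioc 0 (2 * y)).filter Nat.Prime, Real.log p := by
    apply sum_le_sum_of_subset_of_nonneg
    · intro p hp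
      unfold Py at hp
      rw [mem_filter, mem_Ioc] at hp
      rw [mem_filter, mem_Ioc]
      exact ⟨⟨by omega, hp.1.2⟩, hp.2.1⟩
    · intro p hp _
      rw [mem_filter] at hp
      exact Real.log_nonneg (by exact_mod_cast hp.2.one_lt.le)
  have h2 : ∑ p ∈ (Ioc 0 (2 * y)).filter Nat.Prime, Real.log p =
      Chebyshev.theta ((2 * y : ℕ) : ℝ) := by
    unfold Chebyshev.theta
    rw [Nat.floor_natCast]
  rw [h2] at h1
  have h3 := Chebyshev.theta_le_log4_mul_x (x := ((2 * y : ℕ) : ℝ)) (Nat.cast_nonneg _)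
  have h4 : Real.log 4 ≤ 1.3863 := by
    rw [show (4 : ℝ) = 2 ^ 2 by norm_num, Real.log_pow]
    have := Real.log_two_lt_d9
    push_cast; linarith
  have hy : (0 : ℝ) ≤ y := Nat.cast_nonneg y
  push_cast at h3
  have h5 : Real.log 4 * (2 * (y : ℝ)) ≤ 1.3863 * (2 * y) :=
    mul_le_mul_of_nonneg_right h4 (by positivity)
  push_cast at h1
  linarith

theorem Sy_abs_le (y e : ℕ) : |Sy y e| ≤ 3 * y := by
  unfold Sy
  calc |∑ p ∈ Py y, (jacobiSym p e : ℝ) * Real.log p|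
      ≤ ∑ p ∈ Py y, |(jacobiSym p e : ℝ) * Real.log p| := abs_sum_le_sum_abs _ _
    _ ≤ ∑ p ∈ Py y, Real.log p := by
        refine sum_le_sum fun p hp => ?_
        unfold Py at hp
        rw [mem_filter] at hp
        have h0 : 0 ≤ Real.log p := Real.log_nonneg (by exact_mod_cast hp.2.1.one_lt.le)
        rw [abs_mul, abs_of_nonneg h0]
        exact mul_le_of_le_one_left h0 (J_abs_le _ _)
    _ ≤ 3 * y := Th_le y

theorem block {y E : ℕ} (hy : 1 ≤ y) (hE : 1 ≤ E) {P : ℕ → Prop} [DecidablePred P]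
    (hP : ∀ e, P e → Squarefree e ∧ Odd e) {Λ K : ℝ}
    (h1 : 1 + Real.log ((2 * y : ℕ) : ℝ) ≤ Λ) (h2 : 1 + Real.log ((2 * E : ℕ) : ℝ) ≤ Λ) (hK : 0 < K)
    (h3 : 6 * Λ ^ 9 * K ^ 6 ≤ ((2 * y : ℕ) : ℝ)) (h4 : 6 * Λ ^ 9 * K ^ 6 ≤ ((2 * E : ℕ) : ℝ)) :
    ∑ e ∈ (Ioc E (2 * E)).filter P, |Sy y e| ≤
      Real.log ((2 * y : ℕ) : ℝ) * (4 * y * E / K) := by
  have hy2 : (1 : ℝ) < ((2 * y : ℕ) : ℝ) := by exact_mod_cast (by omega : 1 < 2 * y)
  have hlog : 0 < Real.log ((2 * y : ℕ) : ℝ) := Real.log_pos hy2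
  obtain ⟨l, hl⟩ : ∃ l, l = Real.log ((2 * y : ℕ) : ℝ) := ⟨_, rfl⟩
  rw [← hl] at hlog ⊢
  obtain ⟨α, hα⟩ : ∃ α : ℕ → ℝ, α = fun a => if a ∈ Py y then Real.log a / l else 0 := ⟨_, rfl⟩
  obtain ⟨γ, hγ⟩ : ∃ γ : ℕ → ℝ, γ = fun c => if c ∈ (Ioc E (2 * E)).filter P then
    (if 0 ≤ Sy y c then 1 else -1) else 0 := ⟨_, rfl⟩
  have hα1 : ∀ a, |α a| ≤ 1 := by
    intro a
    rw [hα]; dsimp only
    split
    next ha =>
      unfold Py at ha
      rw [mem_filter, mem_Ioc] at ha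
      have h0 : 0 ≤ Real.log a := Real.log_nonneg (by exact_mod_cast ha.2.1.one_lt.le)
      rw [abs_of_nonneg (by positivity), div_le_one hlog, hl]
      apply Real.log_le_log (by exact_mod_cast ha.2.1.pos)
      exact_mod_cast ha.1.2
    next => simp
  have hγ1 : ∀ a, |γ a| ≤ 1 := by
    intro a
    rw [hγ]; dsimp only
    split
    · split <;> simp
    · simp
  have hαs : ∀ a, α a ≠ 0 → Squarefree a ∧ Odd a := by
    intro a ha
    rw [hα] at ha; dsimp only at ha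
    split at ha
    next h =>
      unfold Py at h
      rw [mem_filter, mem_Ioc] at h
      refine ⟨h.2.1.squarefree, ?_⟩
      rw [Nat.odd_iff]; omega
    next => exact absurd rfl ha
  have hγs : ∀ a, γ a ≠ 0 → Squarefree a ∧ Odd a := by
    intro a ha
    rw [hγ] at ha; dsimp only at ha
    split at ha
    next h => rw [mem_filter] at h; exact hP a h.2
    next => exact absurd rfl ha
  have hb := BL hα1 hγ1 hαs hγs (A := 2 * y) (C := 2 * E) (by omega) (by omega) h1 h2 hK h3 h4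
  have hS : ∀ c, Sy y c = l * ∑ a ∈ Icc 1 (2 * y), α a * (jacobiSym a c : ℝ) := by
    intro c
    rw [mul_sum]
    unfold Sy
    have hsub : Py y ⊆ Icc 1 (2 * y) := by
      intro p hp
      unfold Py at hp
      rw [mem_filter, mem_Ioc] at hp
      rw [mem_Icc]; omega
    apply sum_subset_zero_on_sdiff hsub
    · intro a ha
      rw [Finset.mem_sdiff] at ha
      rw [hα]; dsimp only
      rw [if_neg ha.2]; ring
    · intro a ha
      rw [hα]; dsimp only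
      rw [if_pos ha]
      field_simp
  have hsum : ∑ e ∈ (Ioc E (2 * E)).filter P, |Sy y e| =
      l * ∑ a ∈ Icc 1 (2 * y), ∑ c ∈ Icc 1 (2 * E), α a * γ c * (jacobiSym a c : ℝ) := by
    rw [sum_comm, mul_sum]
    have hsub : (Ioc E (2 * E)).filter P ⊆ Icc 1 (2 * E) := by
      intro p hp
      rw [mem_filter, mem_Ioc] at hp
      rw [mem_Icc]; omega
    apply sum_subset_zero_on_sdiff hsub
    · intro c hc
      rw [Finset.mem_sdiff] at hc
      have : γ c = 0 := by rw [hγ]; dsimp only; rw [if_neg hc.2]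
      rw [this]; simp
    · intro c hc
      have e1 : |Sy y c| = γ c * Sy y c := by
        rw [hγ]; dsimp only
        rw [if_pos hc]
        split
        next h => rw [abs_of_nonneg h, one_mul]
        next h => rw [abs_of_neg (not_le.mp h)]; ring
      rw [e1, hS c, mul_sum, mul_sum, mul_sum]
      refine sum_congr rfl fun a _ => ?_
      ring
  rw [hsum]
  apply mul_le_mul_of_nonneg_left _ hlog.le
  refine ((le_abs_self _).trans hb).trans (le_of_eq ?_)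
  push_cast; ring

theorem exists_t60 {e : ℕ} (hs : Squarefree e) (hcop : Nat.Coprime e 60) (he1 : e ≠ 1) :
    ∃ t : ℕ, Nat.Coprime t (60 * e) ∧ t % 60 = 1 ∧ jacobiSym t e = -1 := by
  have ho : Odd e := by
    rw [← Nat.coprime_two_right]
    exact hcop.coprime_dvd_right (by norm_num)
  obtain ⟨r, hr, hrc⟩ := Nat.exists_prime_and_dvd he1
  obtain ⟨t, ht, hJ, -⟩ := exists_t_aux (c' := 1) hs ho hr hrc hr.not_dvd_one
  rw [mul_one] at ht
  obtain ⟨s, hs1, hs2⟩ := Nat.chineseRemainder hcop t 1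
  refine ⟨s, ?_, ?_, ?_⟩
  · apply Nat.Coprime.mul_right
    · have : Nat.gcd s 60 = Nat.gcd 1 60 := hs2.gcd_eq
      rw [Nat.coprime_iff_gcd_eq_one, this]; norm_num
    · have : Nat.gcd s e = Nat.gcd t e := hs1.gcd_eq
      rw [Nat.coprime_iff_gcd_eq_one, this]; exact ht
  · exact hs2
  · rw [J_congr hs1, hJ]

/-- the oscillating function detecting `p ≡ 1 mod 60` and the symbol -/
noncomputable def g60 (e n : ℕ) : ℝ := if n % 60 = 1 then (jacobiSym n e : ℝ) else 0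

theorem g60_per (e : ℕ) : ∀ m n, m ≡ n [MOD 60 * e] → g60 e m = g60 e n := by
  intro m n h
  have h1 : m % 60 = n % 60 := h.of_dvd ⟨e, rfl⟩
  have h2 : m ≡ n [MOD e] := h.of_dvd ⟨60, by ring⟩
  unfold g60
  rw [h1, J_congr h2]

theorem g60_sum {e : ℕ} (hs : Squarefree e) (hcop : Nat.Coprime e 60) (he1 : e ≠ 1) :
    ∑ n ∈ range (60 * e), g60 e n = 0 := by
  obtain ⟨t, ht, ht60, hJ⟩ := exists_t60 hs hcop he1
  apply sum_period_zero (by have := hs.ne_zero; positivity) (g60_per e) ht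
  intro n
  unfold g60
  have h1 : (t * n) % 60 = n % 60 := by
    rw [Nat.mul_mod, ht60, one_mul, Nat.mod_mod]
  rw [h1]
  split
  · push_cast
    rw [jacobiSym.mul_left, hJ]; push_cast; ring
  · ring

theorem Sy_small (hSW : SWH) {A : ℝ} (hA : 0 < A) : ∃ y₀ : ℕ, ∀ y : ℕ, y₀ ≤ y → ∀ e : ℕ,
    Squarefree e → Nat.Coprime e 60 → e ≠ 1 → (60 * e : ℝ) ≤ (Real.log y) ^ A →
    |Sy y e| ≤ y / (Real.log y) ^ A := by
  obtain ⟨y₀, h⟩ := sw_osc hSW hA
  refine ⟨y₀, fun y hy e hs hcop he1 hle => ?_⟩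
  have he0 : 0 < e := Nat.pos_of_ne_zero hs.ne_zero
  have h1 := h y hy (60 * e) (by omega) (by push_cast; exact hle) (g60 e) (g60_per e)
    (fun n => by
      unfold g60; split
      · exact J_abs_le _ _
      · simp)
    (fun n hn => by
      unfold g60
      split
      next h60 =>
        have hc : Nat.Coprime n 60 := by
          rw [Nat.coprime_iff_gcd_eq_one, Nat.gcd_comm, Nat.gcd_rec, h60]
          norm_num
        have : ¬ Nat.Coprime n e := fun h => hn (Nat.Coprime.mul_right hc h)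
        have hJ : jacobiSym n e = 0 := by
          have := NeZero.mk he0.ne'
          rw [jacobiSym.eq_zero_iff_not_coprime, Int.gcd_natCast_natCast]
          assumption
        rw [hJ]; simp
      next => rfl)
    (g60_sum hs hcop he1)
  have h2 : Sy y e = ∑ p ∈ (Ioc y (2 * y)).filter Nat.Prime, g60 e p * Real.log p := by
    unfold Sy Py
    have e1 : (Ioc y (2 * y)).filter (fun p => p.Prime ∧ p % 60 = 1) =
        ((Ioc y (2 * y)).filter Nat.Prime).filter (fun p => p % 60 = 1) := by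
      rw [filter_filter]
    rw [e1, sum_filter]
    refine sum_congr rfl fun p _ => ?_
    unfold g60
    split
    · rfl
    · ring
  rw [h2]; exact h1

theorem cover {P : ℕ → Prop} [DecidablePred P] {L : ℕ} (hL1 : 1 ≤ L) (M : ℕ) :
    (Icc 2 M).filter P ⊆ (Icc 2 L).filter P ∪
      (range (Nat.log 2 M + 1)).biUnion (fun j => (Ioc (2 ^ j * L) (2 * (2 ^ j * L))).filter
        (fun e => P e ∧ e ≤ M)) := by
  intro e he
  obtain ⟨n, hn⟩ : ∃ n, n = Nat.log 2 M + 1 := ⟨_, rfl⟩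
  rw [← hn]
  rw [mem_filter, mem_Icc] at he
  rw [mem_union, mem_filter, mem_Icc, mem_biUnion]
  by_cases heL : e ≤ L
  · left; exact ⟨⟨he.1.1, heL⟩, he.2⟩
  right
  push Not at heL
  -- choose the dyadic block
  have hex : ∃ j, e ≤ 2 * (2 ^ j * L) := by
    refine ⟨n, ?_⟩
    have h1 : M < 2 ^ n := by rw [hn]; exact Nat.lt_pow_succ_log_self (by norm_num) M
    have h2 : 2 ^ n ≤ 2 ^ n * L := Nat.le_mul_of_pos_right _ (by omega)
    omega
  classical
  refine ⟨Nat.find hex, ?_, ?_⟩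
  · rw [mem_range]
    have h3 : Nat.find hex ≤ Nat.log 2 M := by
      apply Nat.find_min'
      have h1 : M < 2 ^ n := by rw [hn]; exact Nat.lt_pow_succ_log_self (by norm_num) M
      have h2 : 2 ^ n = 2 * 2 ^ (Nat.log 2 M) := by rw [hn]; ring
      have h3 : 2 ^ (Nat.log 2 M) ≤ 2 ^ (Nat.log 2 M) * L := Nat.le_mul_of_pos_right _ (by omega)
      omega
    omega
  · rw [mem_filter, mem_Ioc]
    refine ⟨⟨?_, Nat.find_spec hex⟩, he.2, he.1.2⟩
    rcases Nat.eq_zero_or_pos (Nat.find hex) with h0 | hpos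
    · rw [h0]; simpa using heL
    · have h4 := Nat.find_min hex (m := Nat.find hex - 1) (by omega)
      push Not at h4
      have h5 : 2 * (2 ^ (Nat.find hex - 1) * L) = 2 ^ (Nat.find hex) * L := by
        have : Nat.find hex = (Nat.find hex - 1) + 1 := by omega
        conv_rhs => rw [this, pow_succ]
        ring
      rw [← h5]; exact h4

theorem nlog_le {C₀ ℓ : ℝ} {M : ℕ} (hC : 0 < C₀) (hℓ : 1 ≤ ℓ) (hM : Real.log M ≤ C₀ * ℓ) :
    ((Nat.log 2 M + 1 : ℕ) : ℝ) ≤ (2 * C₀ + 1) * ℓ := by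
  push_cast
  rcases Nat.eq_zero_or_pos M with hM0 | hMpos
  · rw [hM0]; simp; nlinarith
  have h4 : (Nat.log 2 M : ℝ) * Real.log 2 ≤ Real.log M := by
    rw [← Real.log_pow]
    apply Real.log_le_log (by positivity)
    exact_mod_cast Nat.pow_log_le_self 2 hMpos.ne'
  have h5 : (0.6931471803 : ℝ) < Real.log 2 := Real.log_two_gt_d9
  have h6 : (0 : ℝ) ≤ Nat.log 2 M := Nat.cast_nonneg _
  nlinarith

theorem small_part {P : ℕ → Prop} [DecidablePred P] {y L : ℕ} {ℓ ε : ℝ} (hε : 0 < ε)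
    (hℓ4 : 1 ≤ ℓ) (hℓ2 : 2 / ε ≤ ℓ) (hL23 : 60 * (L : ℝ) ≤ ℓ ^ 23)
    (h : ∀ e, P e → 2 ≤ e → (60 * e : ℝ) ≤ ℓ ^ 23 → |Sy y e| ≤ y / ℓ ^ 23) :
    ∑ e ∈ (Icc 2 L).filter P, (Sy y e) ^ 2 / e ≤ ε / 2 * y ^ 2 := by
  have h1 : ∀ e ∈ (Icc 2 L).filter P, (Sy y e) ^ 2 / e ≤ (y / ℓ ^ 23) ^ 2 := by
    intro e he
    rw [mem_filter, mem_Icc] at he
    have heR : (1 : ℝ) ≤ e := by exact_mod_cast (by omega : 1 ≤ e)
    have h2 : (60 * e : ℝ) ≤ ℓ ^ 23 := by
      have : (e : ℝ) ≤ L := by exact_mod_cast he.1.2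
      linarith
    have h3 := h e he.2 he.1.1 h2
    calc (Sy y e) ^ 2 / e ≤ (Sy y e) ^ 2 / 1 := by
          apply div_le_div_of_nonneg_left (by positivity) (by norm_num) heR
      _ = |Sy y e| ^ 2 := by rw [div_one, sq_abs]
      _ ≤ _ := pow_le_pow_left₀ (abs_nonneg _) h3 2
  calc ∑ e ∈ (Icc 2 L).filter P, (Sy y e) ^ 2 / e
      ≤ ∑ e ∈ (Icc 2 L).filter P, ((y : ℝ) / ℓ ^ 23) ^ 2 := sum_le_sum h1
    _ = ((Icc 2 L).filter P).card * ((y : ℝ) / ℓ ^ 23) ^ 2 := by rw [sum_const, nsmul_eq_mul]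
    _ ≤ L * ((y : ℝ) / ℓ ^ 23) ^ 2 := by
        apply mul_le_mul_of_nonneg_right _ (by positivity)
        have : ((Icc 2 L).filter P).card ≤ L := by
          refine (card_filter_le _ _).trans ?_
          rw [Nat.card_Icc]; omega
        exact_mod_cast this
    _ ≤ ℓ ^ 23 * ((y : ℝ) / ℓ ^ 23) ^ 2 := by
        apply mul_le_mul_of_nonneg_right _ (by positivity)
        have : (0 : ℝ) ≤ L := Nat.cast_nonneg _
        linarith
    _ = (1 / ℓ ^ 23) * y ^ 2 := by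
        have : ℓ ≠ 0 := by linarith
        field_simp
    _ ≤ ε / 2 * y ^ 2 := by
        apply mul_le_mul_of_nonneg_right _ (by positivity)
        rw [div_le_iff₀ (by positivity)]
        have h5 : ℓ ≤ ℓ ^ 23 := le_self_pow₀ hℓ4 (by norm_num)
        have h6 : 2 / ε ≤ ℓ ^ 23 := hℓ2.trans h5
        rw [div_le_iff₀ hε] at h6
        linarith

theorem E1 (hSW : SWH) {ε C₀ : ℝ} (hε : 0 < ε) (hC : 0 < C₀) : ∃ y₀ : ℕ, ∀ y : ℕ, y₀ ≤ y →
    ∀ M : ℕ, Real.log M ≤ C₀ * Real.log y →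
    ∑ e ∈ (Icc 2 M).filter (fun e => Squarefree e ∧ Nat.Coprime e 60), (Sy y e) ^ 2 / e ≤
      ε * y ^ 2 := by
  obtain ⟨y₁, hsm⟩ := Sy_small hSW (A := 23) (by norm_num)
  obtain ⟨Q, hQ⟩ : ∃ Q, Q = 48 * (2 * C₀ + 1) / ε := ⟨_, rfl⟩
  have hQ0 : 0 < Q := by rw [hQ]; positivity
  have hev : ∀ᶠ x : ℝ in atTop, x ^ 22 ≤ Real.exp x := by
    have := (Real.isLittleO_pow_exp_atTop (n := 22)).bound (show (0 : ℝ) < 1 by norm_num)
    filter_upwards [this, eventually_ge_atTop 0] with x hx h0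
    rw [Real.norm_eq_abs, Real.norm_eq_abs, abs_of_nonneg (by positivity),
      abs_of_pos (Real.exp_pos x), one_mul] at hx
    exact hx
  have hall := ((ev_nat hev).and (ev_nat (eventually_ge_atTop
    (60 * 2 ^ 22 + 2 / ε + 6 * (C₀ + 3) ^ 9 * Q ^ 6)))).and (eventually_ge_atTop (y₁ + 1))
  rw [eventually_atTop] at hall
  obtain ⟨y₀, hy₀⟩ := hall
  refine ⟨y₀, fun y hy M hM => ?_⟩
  obtain ⟨⟨hexp, hbig⟩, hy1⟩ := hy₀ y hy
  have hyR : (0 : ℝ) < y := by exact_mod_cast (by omega : 0 < y)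
  obtain ⟨ℓ, hℓ⟩ : ∃ ℓ, ℓ = Real.log y := ⟨_, rfl⟩
  rw [← hℓ] at hexp hbig hM
  have hpos1 : 0 < 2 / ε := by positivity
  have hpos2 : 0 < 6 * (C₀ + 3) ^ 9 * Q ^ 6 := by positivity
  have hℓ1 : (60 * 2 ^ 22 : ℝ) ≤ ℓ := by linarith
  have hℓ2 : 2 / ε ≤ ℓ := by linarith
  have hℓ3 : 6 * (C₀ + 3) ^ 9 * Q ^ 6 ≤ ℓ := by linarith
  have hℓ4 : (1 : ℝ) ≤ ℓ := le_trans (by norm_num) hℓ1
  have hℓ0 : 0 < ℓ := by linarith
  rw [hℓ, Real.exp_log hyR, ← hℓ] at hexp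
  obtain ⟨N, hN⟩ : ∃ N, N = ⌈ℓ⌉₊ := ⟨_, rfl⟩
  have hNl : ℓ ≤ N := by rw [hN]; exact Nat.le_ceil _
  have hNu : (N : ℝ) ≤ 2 * ℓ := by
    have := Nat.ceil_lt_add_one hℓ0.le
    rw [hN]; linarith
  have hN1 : 1 ≤ N := by
    have : (1 : ℝ) ≤ N := by linarith
    exact_mod_cast this
  obtain ⟨L, hL⟩ : ∃ L, L = N ^ 22 := ⟨_, rfl⟩
  have hL1 : 1 ≤ L := by rw [hL]; exact Nat.one_le_pow _ _ hN1
  have hLR : (L : ℝ) = (N : ℝ) ^ 22 := by rw [hL]; push_cast; rfl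
  have hLle : (L : ℝ) ≤ (2 * ℓ) ^ 22 := by
    rw [hLR]; exact pow_le_pow_left₀ (Nat.cast_nonneg _) hNu 22
  have hLge : ℓ ^ 22 ≤ L := by rw [hLR]; exact pow_le_pow_left₀ hℓ0.le hNl 22
  have hL23 : 60 * (L : ℝ) ≤ ℓ ^ 23 := by
    calc 60 * (L : ℝ) ≤ 60 * (2 * ℓ) ^ 22 := by linarith
      _ = (60 * 2 ^ 22) * ℓ ^ 22 := by ring
      _ ≤ ℓ * ℓ ^ 22 := mul_le_mul_of_nonneg_right hℓ1 (by positivity)
      _ = ℓ ^ 23 := by ring
  have hrp : ℓ ^ (23 : ℝ) = ℓ ^ 23 := by rw [← Real.rpow_natCast]; norm_num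
  obtain ⟨P, hP⟩ : ∃ P : ℕ → Prop, P = fun e => (Squarefree e ∧ Nat.Coprime e 60) := ⟨_, rfl⟩
  have hnn : ∀ e : ℕ, 0 ≤ (Sy y e) ^ 2 / e := fun e => by positivity
  classical
  -- small moduli
  have small : ∑ e ∈ (Icc 2 L).filter P, (Sy y e) ^ 2 / e ≤ ε / 2 * y ^ 2 := by
    apply small_part hε hℓ4 hℓ2 hL23
    intro e he he2 hle
    rw [hP] at he
    have h3 := hsm y (by omega) e he.1 he.2 (by omega) (by rw [← hℓ, hrp]; exact hle)
    rw [← hℓ, hrp] at h3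
    exact h3
  -- dyadic blocks
  obtain ⟨n, hn⟩ : ∃ n, n = Nat.log 2 M + 1 := ⟨_, rfl⟩
  obtain ⟨K, hK⟩ : ∃ K, K = Q * ℓ ^ 2 := ⟨_, rfl⟩
  have hK0 : 0 < K := by rw [hK]; positivity
  obtain ⟨Λ, hΛ⟩ : ∃ Λ, Λ = (C₀ + 3) * ℓ := ⟨_, rfl⟩
  have hlog2 : Real.log 2 < 0.6931471808 := Real.log_two_lt_d9
  have hKL : 6 * Λ ^ 9 * K ^ 6 ≤ ℓ ^ 22 := by
    rw [hK, hΛ]
    calc 6 * ((C₀ + 3) * ℓ) ^ 9 * (Q * ℓ ^ 2) ^ 6 = (6 * (C₀ + 3) ^ 9 * Q ^ 6) * ℓ ^ 21 := by ring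
      _ ≤ ℓ * ℓ ^ 21 := mul_le_mul_of_nonneg_right hℓ3 (by positivity)
      _ = ℓ ^ 22 := by ring
  have hl2y : Real.log ((2 * y : ℕ) : ℝ) = Real.log 2 + ℓ := by
    push_cast; rw [Real.log_mul (by norm_num) hyR.ne', hℓ]
  have blk : ∀ j : ℕ, ∑ e ∈ (Ioc (2 ^ j * L) (2 * (2 ^ j * L))).filter (fun e => P e ∧ e ≤ M),
      (Sy y e) ^ 2 / e ≤ 24 * y ^ 2 * ℓ / K := by
    intro j
    obtain ⟨E, hE⟩ : ∃ E, E = 2 ^ j * L := ⟨_, rfl⟩
    rw [← hE]
    have hEL : L ≤ E := by rw [hE]; exact Nat.le_mul_of_pos_left L (by positivity)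
    have hER : (0 : ℝ) < E := by exact_mod_cast (by omega : 0 < E)
    by_cases hEM : M ≤ E
    · have : (Ioc E (2 * E)).filter (fun e => P e ∧ e ≤ M) = ∅ := by
        rw [filter_eq_empty_iff]
        intro e he
        rw [mem_Ioc] at he
        rintro ⟨-, h⟩; omega
      rw [this, sum_empty]; positivity
    push Not at hEM
    have hEM' : Real.log E ≤ C₀ * ℓ := by
      refine le_trans (Real.log_le_log hER ?_) hM
      exact_mod_cast hEM.le
    have hb := block (y := y) (E := E) (by omega) (by omega) (P := fun e => P e ∧ e ≤ M)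
      (fun e he => by
        rw [hP] at he
        refine ⟨he.1.1, ?_⟩
        rw [← Nat.coprime_two_right]
        exact he.1.2.coprime_dvd_right (by norm_num)) (Λ := Λ) (K := K)
      (by rw [hl2y, hΛ]; nlinarith)
      (by
        push_cast
        rw [Real.log_mul (by norm_num) hER.ne', hΛ]
        nlinarith) hK0
      (by push_cast; linarith)
      (by
        push_cast
        have : (L : ℝ) ≤ E := by exact_mod_cast hEL
        linarith)
    have h5 : ∀ e ∈ (Ioc E (2 * E)).filter (fun e => P e ∧ e ≤ M),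
        (Sy y e) ^ 2 / e ≤ (3 * y / E) * |Sy y e| := by
      intro e he
      rw [mem_filter, mem_Ioc] at he
      have heR : (E : ℝ) ≤ e := by exact_mod_cast he.1.1.le
      calc (Sy y e) ^ 2 / e ≤ (Sy y e) ^ 2 / E :=
            div_le_div_of_nonneg_left (by positivity) hER heR
        _ = |Sy y e| * |Sy y e| / E := by rw [← sq_abs, pow_two]
        _ ≤ (3 * y) * |Sy y e| / E := by
            apply div_le_div_of_nonneg_right _ hER.le
            exact mul_le_mul_of_nonneg_right (Sy_abs_le y e) (abs_nonneg _)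
        _ = _ := by ring
    calc _ ≤ ∑ e ∈ (Ioc E (2 * E)).filter (fun e => P e ∧ e ≤ M), (3 * y / E) * |Sy y e| :=
          sum_le_sum h5
      _ = (3 * y / E) * ∑ e ∈ (Ioc E (2 * E)).filter (fun e => P e ∧ e ≤ M), |Sy y e| := by
          rw [mul_sum]
      _ ≤ (3 * y / E) * (Real.log ((2 * y : ℕ) : ℝ) * (4 * y * E / K)) :=
          mul_le_mul_of_nonneg_left hb (by positivity)
      _ = 12 * y ^ 2 * Real.log ((2 * y : ℕ) : ℝ) / K := by field_simp; ring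
      _ ≤ 24 * y ^ 2 * ℓ / K := by
          apply div_le_div_of_nonneg_right _ hK0.le
          have : Real.log ((2 * y : ℕ) : ℝ) ≤ 2 * ℓ := by rw [hl2y]; linarith
          have hy2 : (0 : ℝ) ≤ 12 * y ^ 2 := by positivity
          nlinarith
  have hcov := cover (P := P) hL1 M
  rw [← hn] at hcov
  have hnle := nlog_le hC hℓ4 hM
  rw [← hn] at hnle
  have hPeq : (Icc 2 M).filter (fun e => Squarefree e ∧ Nat.Coprime e 60) = (Icc 2 M).filter P := by
    ext e; simp only [mem_filter, hP]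
  rw [hPeq]
  calc ∑ e ∈ (Icc 2 M).filter P, (Sy y e) ^ 2 / e
      ≤ ∑ e ∈ (Icc 2 L).filter P ∪ (range n).biUnion (fun j =>
        (Ioc (2 ^ j * L) (2 * (2 ^ j * L))).filter (fun e => P e ∧ e ≤ M)), (Sy y e) ^ 2 / e :=
        sum_le_sum_of_subset_of_nonneg hcov fun e _ _ => hnn e
    _ ≤ ∑ e ∈ (Icc 2 L).filter P, (Sy y e) ^ 2 / e + ∑ e ∈ (range n).biUnion (fun j =>
        (Ioc (2 ^ j * L) (2 * (2 ^ j * L))).filter (fun e => P e ∧ e ≤ M)), (Sy y e) ^ 2 / e := by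
        rw [← sum_union_inter]
        have : 0 ≤ ∑ e ∈ (Icc 2 L).filter P ∩ (range n).biUnion (fun j =>
          (Ioc (2 ^ j * L) (2 * (2 ^ j * L))).filter (fun e => P e ∧ e ≤ M)), (Sy y e) ^ 2 / e :=
          sum_nonneg fun e _ => hnn e
        linarith
    _ ≤ ε / 2 * y ^ 2 + ∑ j ∈ range n, ∑ e ∈ (Ioc (2 ^ j * L) (2 * (2 ^ j * L))).filter
        (fun e => P e ∧ e ≤ M), (Sy y e) ^ 2 / e := by
        apply add_le_add small
        exact biU_le _ _ fun e => hnn e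
    _ ≤ ε / 2 * y ^ 2 + ∑ j ∈ range n, 24 * y ^ 2 * ℓ / K := by
        apply add_le_add le_rfl
        exact sum_le_sum fun j _ => blk j
    _ = ε / 2 * y ^ 2 + n * (24 * y ^ 2 * ℓ / K) := by rw [sum_const, card_range, nsmul_eq_mul]
    _ ≤ ε / 2 * y ^ 2 + ((2 * C₀ + 1) * ℓ) * (24 * y ^ 2 * ℓ / K) := by
        apply add_le_add le_rfl
        apply mul_le_mul_of_nonneg_right hnle (by positivity)
    _ = ε * y ^ 2 := by
        rw [hK, hQ]
        field_simp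
        ring

end Vale.Agent.P017.PP
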