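import Vale.Agent.P017.H185P.Avg
import Vale.Agent.P017.H185P.E1

namespace Vale.Agent.P017.PP

open Finset Matrix Module

theorem sg_sum {α : Type*} (S : Finset α) (f : α → ZMod 2) : sg (∑ q ∈ S, f q) = ∏ q ∈ S, sg (f q) := by
  classical
  induction S using Finset.induction_on with
  | empty => simp [sg_zero]
  | insert a s ha ih => rw [sum_insert ha, prod_insert ha, sg_add, ih]

theorem J_prod_right (a : ℤ) (S : Finset ℕ) (h : ∀ q ∈ S, q ≠ 0) :
    (jacobiSym a (∏ q ∈ S, q) : ℝ) = ∏ q ∈ S, (jacobiSym a q : ℝ) := by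
  induction S using Finset.induction_on with
  | empty => simp
  | insert b s hb ih =>
    rw [prod_insert hb, prod_insert hb, J_mul_right a b _ (h b (mem_insert_self b s)) ?_, ih]
    · intro q hq; exact h q (mem_insert_of_mem hq)
    · rw [prod_ne_zero_iff]; intro q hq; exact h q (mem_insert_of_mem hq)

theorem sg_xv {m p : ℕ} (hp : p.Prime) (hpm : ¬ p ∣ m) (w : m.primeFactors → ZMod 2) :
    sg (w ⬝ᵥ xv m p) = (jacobiSym p (af m w) : ℝ) := by
  have h1 : w ⬝ᵥ xv m p = ∑ q ∈ St m w, ee p q := by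
    rw [← sum_St w (fun q => ee p q)]
    unfold dotProduct xv
    exact sum_congr rfl fun r _ => mul_comm _ _
  rw [h1, sg_sum]
  unfold af
  rw [J_prod_right]
  · refine prod_congr rfl fun q hq => ?_
    apply sg_ee
    have hqm := St_sub m w hq
    have hqp := Nat.prime_of_mem_primeFactors hqm
    apply J_ne_zero hqp.ne_zero
    rw [Nat.coprime_primes hp hqp]
    rintro rfl
    exact hpm (Nat.dvd_of_mem_primeFactors hqm)
  · intro q hq
    exact (Nat.prime_of_mem_primeFactors (St_sub m w hq)).ne_zero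

/-- total weight -/
noncomputable def Th (y : ℕ) : ℝ := ∑ p ∈ Py y, Real.log p

/-- weight of the primes with symbol vector `x` -/
noncomputable def NV (m y : ℕ) (x : m.primeFactors → ZMod 2) : ℝ :=
  ∑ p ∈ (Py y).filter (fun p => ¬ p ∣ m ∧ xv m p = x), Real.log p

noncomputable def TV (m y : ℕ) : ℝ :=
  ∑ x : m.primeFactors → ZMod 2, |NV m y x - Th y / 2 ^ Fintype.card m.primeFactors|

theorem log_nonneg_Py {y p : ℕ} (hp : p ∈ Py y) : 0 ≤ Real.log p := by
  unfold Py at hp
  rw [mem_filter] at hp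
  exact Real.log_nonneg (by exact_mod_cast hp.2.1.one_lt.le)

theorem NV_nonneg (m y : ℕ) (x : m.primeFactors → ZMod 2) : 0 ≤ NV m y x :=
  sum_nonneg fun _ hp => log_nonneg_Py (mem_filter.mp hp).1

theorem Th_nonneg (y : ℕ) : 0 ≤ Th y := sum_nonneg fun _ hp => log_nonneg_Py hp

theorem TV_nonneg (m y : ℕ) : 0 ≤ TV m y := sum_nonneg fun _ _ => abs_nonneg _

theorem sum_NV (m y : ℕ) (F : (m.primeFactors → ZMod 2) → ℝ) :
    ∑ x, NV m y x * F x = ∑ p ∈ (Py y).filter (fun p => ¬ p ∣ m), Real.log p * F (xv m p) := by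
  unfold NV
  have h1 : ∀ x : m.primeFactors → ZMod 2,
      (∑ p ∈ (Py y).filter (fun p => ¬ p ∣ m ∧ xv m p = x), Real.log p) * F x =
      ∑ p ∈ (Py y).filter (fun p => ¬ p ∣ m), if x = xv m p then Real.log p * F x else 0 := by
    intro x
    rw [← filter_filter, sum_mul, sum_filter]
    refine sum_congr rfl fun p _ => ?_
    by_cases h : xv m p = x
    · rw [if_pos h, if_pos h.symm]
    · rw [if_neg h, if_neg (fun h' => h h'.symm)]
  rw [sum_congr rfl fun x _ => h1 x, sum_comm]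
  refine sum_congr rfl fun p _ => ?_
  rw [sum_ite_eq' univ (xv m p) (fun x => Real.log p * F x), if_pos (mem_univ _)]

theorem sum_NV_le (m y : ℕ) : ∑ x, NV m y x ≤ Th y := by
  have h := sum_NV m y (fun _ => 1)
  simp only [mul_one] at h
  rw [h]
  unfold Th
  exact sum_le_sum_of_subset_of_nonneg (filter_subset _ _) fun p hp _ => log_nonneg_Py hp

theorem D_le {m y : ℕ} (hm : m ≠ 0) :
    ∑ p ∈ (Py y).filter (fun p => p ∣ m), Real.log p ≤ Real.log m := by
  have h1 : ∏ p ∈ (Py y).filter (fun p => p ∣ m), p ∣ m := by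
    refine dvd_trans (prod_dvd_prod_of_subset _ m.primeFactors _ ?_) (Nat.prod_primeFactors_dvd m)
    intro p hp
    rw [mem_filter] at hp
    unfold Py at hp
    rw [mem_filter] at hp
    exact Nat.mem_primeFactors.mpr ⟨hp.1.2.1, hp.2, hm⟩
  have h2 : ∑ p ∈ (Py y).filter (fun p => p ∣ m), Real.log p =
      Real.log ((∏ p ∈ (Py y).filter (fun p => p ∣ m), p : ℕ) : ℝ) := by
    push_cast
    rw [Real.log_prod]
    intro p hp
    rw [mem_filter] at hp
    unfold Py at hp
    rw [mem_filter] at hp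
    exact_mod_cast hp.1.2.1.ne_zero
  rw [h2]
  apply Real.log_le_log
  · have : 0 < ∏ p ∈ (Py y).filter (fun p => p ∣ m), p := Nat.pos_of_dvd_of_pos h1 (by omega)
    exact_mod_cast this
  · exact_mod_cast Nat.le_of_dvd (by omega) h1

theorem fourier_le {m y : ℕ} (hm : Squarefree m) (w : m.primeFactors → ZMod 2) :
    (∑ x, (NV m y x - Th y / 2 ^ Fintype.card m.primeFactors) * sg (w ⬝ᵥ x)) ^ 2 ≤
      2 * (if w = 0 then 0 else (Sy y (af m w)) ^ 2) + 2 * (Real.log m) ^ 2 := by
  have hm0 := hm.ne_zero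
  obtain ⟨D, hD⟩ : ∃ D, D = ∑ p ∈ (Py y).filter (fun p => p ∣ m),
    Real.log p * (jacobiSym p (af m w) : ℝ) := ⟨_, rfl⟩
  have hDle : |D| ≤ Real.log m := by
    rw [hD]
    refine le_trans (abs_sum_le_sum_abs _ _) (le_trans ?_ (D_le (y := y) hm0))
    refine sum_le_sum fun p hp => ?_
    have h0 := log_nonneg_Py (mem_filter.mp hp).1
    rw [abs_mul, abs_of_nonneg h0]
    exact mul_le_of_le_one_right h0 (J_abs_le _ _)
  have h1 : ∑ x, (NV m y x - Th y / 2 ^ Fintype.card m.primeFactors) * sg (w ⬝ᵥ x) =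
      (if w = 0 then 0 else Sy y (af m w)) - D := by
    have e1 : ∑ x, (NV m y x - Th y / 2 ^ Fintype.card m.primeFactors) * sg (w ⬝ᵥ x) =
        ∑ x, NV m y x * sg (w ⬝ᵥ x) - Th y / 2 ^ Fintype.card m.primeFactors *
          ∑ x : m.primeFactors → ZMod 2, sg (w ⬝ᵥ x) := by
      rw [mul_sum, ← sum_sub_distrib]
      exact sum_congr rfl fun x _ => by ring
    have e2 : ∑ p ∈ (Py y).filter (fun p => ¬ p ∣ m), Real.log p * sg (w ⬝ᵥ xv m p) =
        Sy y (af m w) - D := by
      have e3 : Sy y (af m w) = ∑ p ∈ (Py y).filter (fun p => p ∣ m),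
          Real.log p * (jacobiSym p (af m w) : ℝ) +
          ∑ p ∈ (Py y).filter (fun p => ¬ p ∣ m), Real.log p * (jacobiSym p (af m w) : ℝ) := by
        rw [sum_filter_add_sum_filter_not]
        unfold Sy
        exact sum_congr rfl fun p _ => mul_comm _ _
      rw [e3, hD, add_sub_cancel_left]
      refine sum_congr rfl fun p hp => ?_
      rw [mem_filter] at hp
      have hp1 := hp.1
      unfold Py at hp1
      rw [mem_filter] at hp1
      rw [sg_xv hp1.2.1 hp.2]
    rw [e1, sum_NV, e2, sum_chi]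
    split
    next hw =>
      rw [hw, af_zero]
      have e4 : Sy y 1 = Th y := by
        unfold Sy Th
        refine sum_congr rfl fun p _ => ?_
        rw [jacobiSym.one_right]; push_cast; ring
      rw [e4]
      have : (2 : ℝ) ^ Fintype.card m.primeFactors ≠ 0 := by positivity
      field_simp
      ring
    next => ring
  rw [h1]
  have h2 : D ^ 2 ≤ (Real.log m) ^ 2 := by
    rw [← sq_abs D]
    exact pow_le_pow_left₀ (abs_nonneg _) hDle 2
  have h3 : ∀ a : ℝ, (a - D) ^ 2 ≤ 2 * a ^ 2 + 2 * D ^ 2 := by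
    intro a; nlinarith [sq_nonneg (a + D)]
  refine (h3 _).trans ?_
  split
  · norm_num; linarith
  · linarith

theorem TV_sq_le {m y : ℕ} (hm : Squarefree m) :
    (TV m y) ^ 2 ≤ 2 * ∑ e ∈ m.divisors.erase 1, (Sy y e) ^ 2 +
      2 * m.divisors.card * (Real.log m) ^ 2 := by
  classical
  obtain ⟨F, hF⟩ : ∃ F : (m.primeFactors → ZMod 2) → ℝ,
    F = fun x => NV m y x - Th y / 2 ^ Fintype.card m.primeFactors := ⟨_, rfl⟩
  have h1 : TV m y = ∑ x, |F x| := by unfold TV; rw [hF]
  have h2 : (∑ x, |F x|) ^ 2 ≤ (2 : ℝ) ^ Fintype.card m.primeFactors * ∑ x, F x ^ 2 := by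
    have h3 := sum_mul_sq_le_sq_mul_sq univ (fun _ : m.primeFactors → ZMod 2 => (1 : ℝ))
      (fun x => |F x|)
    simp only [one_mul, one_pow, sq_abs, sum_const, card_univ, Fintype.card_pi, ZMod.card,
      prod_const, nsmul_eq_mul, mul_one] at h3
    push_cast at h3
    exact h3
  rw [h1]
  refine h2.trans ?_
  rw [parseval]
  have h4 : ∀ w : m.primeFactors → ZMod 2, (∑ x, F x * sg (w ⬝ᵥ x)) ^ 2 ≤
      2 * (if w = 0 then 0 else (Sy y (af m w)) ^ 2) + 2 * (Real.log m) ^ 2 := by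
    intro w
    rw [hF]; exact fourier_le hm w
  refine (sum_le_sum fun w _ => h4 w).trans ?_
  rw [sum_add_distrib, ← mul_sum]
  apply add_le_add
  · apply mul_le_mul_of_nonneg_left _ (by norm_num)
    have h5 : ∀ w : m.primeFactors → ZMod 2, (if w = 0 then 0 else (Sy y (af m w)) ^ 2) =
        (fun e => if e = 1 then 0 else (Sy y e) ^ 2) (af m w) := by
      intro w
      dsimp only
      by_cases hw : w = 0
      · rw [if_pos hw, hw, af_zero, if_pos rfl]
      · rw [if_neg hw, if_neg]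
        intro h
        apply hw
        apply af_inj m
        rw [h, af_zero]
    rw [sum_congr rfl fun w _ => h5 w]
    refine (sum_af_le hm (F := fun e => if e = 1 then 0 else (Sy y e) ^ 2) ?_).trans (le_of_eq ?_)
    · intro a; split
      · exact le_rfl
      · positivity
    · rw [← sum_erase (s := m.divisors) (a := 1)]
      · refine sum_congr rfl fun e he => ?_
        rw [mem_erase] at he
        rw [if_neg he.1]
      · rw [if_pos rfl]
  · have h6 := sum_af_le hm (F := fun _ => 2 * (Real.log m) ^ 2) (fun a => by positivity)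
    refine h6.trans (le_of_eq ?_)
    rw [sum_const, nsmul_eq_mul]; ring

theorem sum_tau_le (M : ℕ) : ∑ m ∈ Icc 1 M, (m.divisors.card : ℝ) ≤ M * (1 + Real.log M) := by
  have h1 := reindex M (fun _ _ => 1)
  have h2 : ∑ m ∈ Icc 1 M, (m.divisors.card : ℝ) = ∑ b ∈ Icc 1 M, ∑ c ∈ b.divisors, (1 : ℝ) := by
    refine sum_congr rfl fun m _ => ?_
    simp
  rw [h2, h1]
  calc ∑ c ∈ Icc 1 M, ∑ d ∈ Icc 1 M, (if c * d ≤ M then (1 : ℝ) else 0)
      = ∑ c ∈ Icc 1 M, ((M / c : ℕ) : ℝ) := by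
        refine sum_congr rfl fun c hc => ?_
        rw [mem_Icc] at hc
        rw [sum_if hc.1 (fun _ => 1)]; simp
    _ ≤ ∑ c ∈ Icc 1 M, (M : ℝ) * (1 / (c : ℝ)) := by
        refine sum_le_sum fun c _ => ?_
        rw [mul_one_div]; exact Nat.cast_div_le
    _ ≤ M * (1 + Real.log M) := by
        rw [← mul_sum]
        exact mul_le_mul_of_nonneg_left (harm_le M) (Nat.cast_nonneg _)

theorem sum_Sy_le {y M : ℕ} {S : Finset ℕ} (hS : S ⊆ Icc 1 M)
    (hg : ∀ m ∈ S, Squarefree m ∧ Nat.Coprime m 60) :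
    ∑ m ∈ S, ∑ e ∈ m.divisors.erase 1, (Sy y e) ^ 2 ≤
      M * ∑ e ∈ (Icc 2 M).filter (fun e => Squarefree e ∧ Nat.Coprime e 60), (Sy y e) ^ 2 / e := by
  obtain ⟨T, hT⟩ : ∃ T, T = (Icc 2 M).filter (fun e => Squarefree e ∧ Nat.Coprime e 60) := ⟨_, rfl⟩
  rw [← hT]
  have h1 : ∀ m ∈ S, ∑ e ∈ m.divisors.erase 1, (Sy y e) ^ 2 ≤
      ∑ e ∈ T, if e ∣ m then (Sy y e) ^ 2 else 0 := by
    intro m hm
    have hm1 := mem_Icc.mp (hS hm)
    have hm2 := hg m hm
    rw [← sum_filter]
    apply sum_le_sum_of_subset_of_nonneg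
    · intro e he
      rw [mem_erase, Nat.mem_divisors] at he
      rw [mem_filter, hT, mem_filter, mem_Icc]
      have he0 : 0 < e := Nat.pos_of_dvd_of_pos he.2.1 (by omega)
      refine ⟨⟨⟨by omega, (Nat.le_of_dvd (by omega) he.2.1).trans hm1.2⟩,
        hm2.1.squarefree_of_dvd he.2.1, hm2.2.coprime_dvd_left he.2.1⟩, he.2.1⟩
    · intro e _ _; positivity
  refine (sum_le_sum h1).trans ?_
  rw [sum_comm, mul_sum]
  refine sum_le_sum fun e he => ?_
  rw [← sum_filter, sum_const, nsmul_eq_mul]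
  have h2 : ((S.filter fun m => e ∣ m).card : ℝ) ≤ M / e := by
    refine le_trans ?_ (card_mult_le M e)
    have : (S.filter fun m => e ∣ m).card ≤ ((Icc 1 M).filter fun a => e ∣ a).card :=
      card_le_card (filter_subset_filter _ hS)
    exact_mod_cast this
  calc ((S.filter fun m => e ∣ m).card : ℝ) * (Sy y e) ^ 2 ≤ M / e * (Sy y e) ^ 2 :=
        mul_le_mul_of_nonneg_right h2 (by positivity)
    _ = _ := by ring

open Filter in
theorem EQ (hSW : SWH) {δ C₀ : ℝ} (hδ : 0 < δ) (hC : 0 < C₀) : ∃ y₀ : ℕ, ∀ y : ℕ, y₀ ≤ y →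
    ∀ M : ℕ, Real.log M ≤ C₀ * Real.log y → ∀ S ⊆ Icc 1 M,
    (∀ m ∈ S, Squarefree m ∧ Nat.Coprime m 60) → ∑ m ∈ S, TV m y ≤ δ * M * y := by
  obtain ⟨y₁, h1⟩ := E1 hSW (ε := δ ^ 2 / 4) (C₀ := C₀) (by positivity) hC
  have hev : ∀ᶠ x : ℝ in atTop, (1 + C₀ * x) ^ 3 ≤ δ ^ 2 / 4 * Real.exp x := by
    have := (Real.isLittleO_pow_exp_atTop (n := 3)).bound
      (show (0 : ℝ) < δ ^ 2 / 4 / (1 + C₀) ^ 3 by positivity)
    filter_upwards [this, eventually_ge_atTop 1] with x hx h0
    rw [Real.norm_eq_abs, Real.norm_eq_abs, abs_of_nonneg (by positivity),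
      abs_of_pos (Real.exp_pos x)] at hx
    calc (1 + C₀ * x) ^ 3 ≤ ((1 + C₀) * x) ^ 3 := by
          apply pow_le_pow_left₀ (by positivity)
          nlinarith
      _ = (1 + C₀) ^ 3 * x ^ 3 := by ring
      _ ≤ (1 + C₀) ^ 3 * (δ ^ 2 / 4 / (1 + C₀) ^ 3 * Real.exp x) :=
          mul_le_mul_of_nonneg_left hx (by positivity)
      _ = _ := by field_simp
  have hall := (ev_nat hev).and (eventually_ge_atTop (y₁ + 1))
  rw [eventually_atTop] at hall
  obtain ⟨y₀, hy₀⟩ := hall
  refine ⟨y₀, fun y hy M hM S hS hg => ?_⟩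
  obtain ⟨hexp, hy1⟩ := hy₀ y hy
  have hyR : (1 : ℝ) ≤ y := by exact_mod_cast (by omega : 1 ≤ y)
  rw [Real.exp_log (by linarith)] at hexp
  have hE := h1 y (by omega) M hM
  have hMR : (0 : ℝ) ≤ M := Nat.cast_nonneg M
  have hlogM : 0 ≤ Real.log M := Real.log_natCast_nonneg M
  have hcs : (∑ m ∈ S, TV m y) ^ 2 ≤ M * ∑ m ∈ S, (TV m y) ^ 2 := by
    have h3 := sum_mul_sq_le_sq_mul_sq S (fun _ : ℕ => (1 : ℝ)) (fun m => TV m y)
    simp only [one_mul, one_pow, sum_const, nsmul_eq_mul, mul_one] at h3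
    refine h3.trans (mul_le_mul_of_nonneg_right ?_ (sum_nonneg fun _ _ => by positivity))
    have := card_le_card hS
    rw [Nat.card_Icc] at this
    exact_mod_cast (by omega : S.card ≤ M)
  have h4 : ∑ m ∈ S, (TV m y) ^ 2 ≤ δ ^ 2 * M * y ^ 2 := by
    calc ∑ m ∈ S, (TV m y) ^ 2
        ≤ ∑ m ∈ S, (2 * ∑ e ∈ m.divisors.erase 1, (Sy y e) ^ 2 +
            2 * m.divisors.card * (Real.log M) ^ 2) := by
          refine sum_le_sum fun m hm => (TV_sq_le (hg m hm).1).trans ?_
          have hm1 := mem_Icc.mp (hS hm)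
          have h5 : (Real.log m) ^ 2 ≤ (Real.log M) ^ 2 := by
            apply pow_le_pow_left₀ (Real.log_natCast_nonneg m)
            apply Real.log_le_log (by exact_mod_cast hm1.1)
            exact_mod_cast hm1.2
          apply add_le_add le_rfl
          exact mul_le_mul_of_nonneg_left h5 (by positivity)
      _ = 2 * ∑ m ∈ S, ∑ e ∈ m.divisors.erase 1, (Sy y e) ^ 2 +
            2 * (Real.log M) ^ 2 * ∑ m ∈ S, (m.divisors.card : ℝ) := by
          rw [sum_add_distrib, ← mul_sum, mul_sum (s := S) (a := 2 * (Real.log M) ^ 2)]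
          congr 1
          exact sum_congr rfl fun m _ => by ring
      _ ≤ 2 * (M * (δ ^ 2 / 4 * y ^ 2)) + 2 * (Real.log M) ^ 2 * (M * (1 + Real.log M)) := by
          apply add_le_add
          · apply mul_le_mul_of_nonneg_left _ (by norm_num)
            exact (sum_Sy_le hS hg).trans (mul_le_mul_of_nonneg_left hE hMR)
          · apply mul_le_mul_of_nonneg_left _ (by positivity)
            refine le_trans ?_ (sum_tau_le M)
            exact sum_le_sum_of_subset_of_nonneg hS fun _ _ _ => Nat.cast_nonneg _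
      _ ≤ 2 * (M * (δ ^ 2 / 4 * y ^ 2)) + 2 * (M * (δ ^ 2 / 4 * y ^ 2)) := by
          apply add_le_add le_rfl
          have h6 : (Real.log M) ^ 2 * (1 + Real.log M) ≤ (1 + C₀ * Real.log y) ^ 3 := by
            calc (Real.log M) ^ 2 * (1 + Real.log M) ≤ (1 + Real.log M) ^ 3 := by
                  rw [show (1 + Real.log M) ^ 3 = (1 + Real.log M) ^ 2 * (1 + Real.log M) by ring]
                  apply mul_le_mul_of_nonneg_right _ (by linarith)
                  apply pow_le_pow_left₀ hlogM; linarith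
              _ ≤ _ := by
                  apply pow_le_pow_left₀ (by linarith); linarith
          have h7 : (1 + C₀ * Real.log y) ^ 3 ≤ δ ^ 2 / 4 * y ^ 2 := by
            refine hexp.trans ?_
            apply mul_le_mul_of_nonneg_left _ (by positivity)
            nlinarith
          have h8 : (Real.log M) ^ 2 * (1 + Real.log M) ≤ δ ^ 2 / 4 * y ^ 2 := h6.trans h7
          calc 2 * (Real.log M) ^ 2 * (M * (1 + Real.log M))
              = 2 * (M * ((Real.log M) ^ 2 * (1 + Real.log M))) := by ring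
            _ ≤ _ := by
                apply mul_le_mul_of_nonneg_left _ (by norm_num)
                exact mul_le_mul_of_nonneg_left h8 hMR
      _ = _ := by ring
  have h9 : (∑ m ∈ S, TV m y) ^ 2 ≤ (δ * M * y) ^ 2 := by
    refine hcs.trans ((mul_le_mul_of_nonneg_left h4 hMR).trans (le_of_eq ?_))
    ring
  exact (pow_le_pow_iff_left₀ (sum_nonneg fun _ _ => TV_nonneg _ _) (by positivity)
    (by norm_num)).mp h9

end Vale.Agent.P017.PP
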