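import Vale.Agent.P017.H185P.Tot
import Vale.Agent.P013.Bdl.B6

namespace Vale.Agent.P017.PP

open NumberField Vale.Agent.P017.H185

/-- the Siegel-Walfisz theorem -/
theorem swh : SWH := Vale.Agent.P013.J.sw

universe u

/-- a good `d` gives a field with the required properties -/
theorem finite_of_goodD {d : ℕ} (h : GoodD d) (K : Type u) [Field K] [NumberField K]
    [Algebra.IsQuadraticExtension ℚ K] (θ : K) (hθ : θ ^ 2 = -(d : K)) :
    (∀ x : ClassGroup (𝓞 K), orderOf x ≠ 4) ∧ Finite (X015.baseChange K).toAffine.Point := by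
  obtain ⟨hd, hd60, hR⟩ := h
  obtain ⟨q⟩ := exists_QF_of_sqrt hd hθ
  have hcl := q.no_order_four (by omega) hR
  refine ⟨hcl, ?_⟩
  apply q.finite_of_cond hcl
  · intro _ h
    have h1 : ((d : ℕ) : ZMod 3) = ((1 : ℕ) : ZMod 3) := by rw [h]; simp
    have h2 := (ZMod.natCast_eq_natCast_iff _ _ _).mp h1
    have h3 : d % 3 = 1 % 3 := h2
    omega
  · intro _ h
    have h1 : ((d : ℕ) : ZMod 5) = ((3 : ℕ) : ZMod 5) := by
      rw [ZMod.natCast_eq_natCast_iff]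
      show d % 5 = 3 % 5
      omega
    rw [h1] at h
    revert h
    decide

theorem positive_proportion : ∃ c : ℝ, 0 < c ∧ ∃ N₀ : ℕ, ∀ N : ℕ, N₀ ≤ N →
    c * N ≤ ({d : ℕ | 1 ≤ d ∧ d ≤ N ∧ Squarefree d ∧ d % 60 = 23 ∧
      ∀ (K : Type u) [Field K] [NumberField K] [Algebra.IsQuadraticExtension ℚ K] (θ : K),
        θ ^ 2 = -(d : K) → (∀ x : ClassGroup (𝓞 K), orderOf x ≠ 4) ∧
          Finite (X015.baseChange K).toAffine.Point}.ncard : ℝ) := by
  obtain ⟨c, hc, N₀, h⟩ := density swh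
  refine ⟨c, hc, N₀, fun N hN => ?_⟩
  have hfin : {d : ℕ | 1 ≤ d ∧ d ≤ N ∧ Squarefree d ∧ d % 60 = 23 ∧
      ∀ (K : Type u) [Field K] [NumberField K] [Algebra.IsQuadraticExtension ℚ K] (θ : K),
        θ ^ 2 = -(d : K) → (∀ x : ClassGroup (𝓞 K), orderOf x ≠ 4) ∧
          Finite (X015.baseChange K).toAffine.Point}.Finite :=
    (Set.finite_Icc 1 N).subset fun d hd => ⟨hd.1, hd.2.1⟩
  rw [Set.ncard_eq_toFinset_card _ hfin]
  apply h N hN
  intro d hd1 hd2 hd3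
  rw [Set.Finite.mem_toFinset]
  exact ⟨hd1, hd2, hd3.1, hd3.2.1, fun K _ _ _ θ hθ => finite_of_goodD hd3 K θ hθ⟩

end Vale.Agent.P017.PP
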