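import Vale.Agent.P017.H185P.Eq

namespace Vale.Agent.P017.PP

open Finset Matrix Module

def Good (m r : ℕ) (x : Fin (r + 1) → m.primeFactors → ZMod 2) : Prop :=
  finrank (ZMod 2) (kr (Bm m (∑ l, x l))) = r ∧
  Sep (kr (Bm m (∑ l, x l))) (fun l : Fin r => x l.succ) ∧
  Sep (kr (Bm m (∑ l, x l))ᵀ) (fun l : Fin r => x l.succ)

open Classical in
noncomputable def Pr (m r : ℕ) : ℝ :=
  (∑ s : m.primeFactors → ZMod 2, if finrank (ZMod 2) (kr (Bm m s)) = r then (1 : ℝ) else 0) /
    2 ^ Fintype.card m.primeFactors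

theorem Pr_nonneg (m r : ℕ) : 0 ≤ Pr m r := by
  unfold Pr
  apply div_nonneg _ (by positivity)
  apply sum_nonneg
  intro s _
  split <;> norm_num

open Classical in
theorem good_count (m r : ℕ) :
    (1 / 4) ^ r * Pr m r * ((2 : ℝ) ^ Fintype.card m.primeFactors) ^ (r + 1) ≤
      ∑ x : Fin (r + 1) → m.primeFactors → ZMod 2, if Good m r x then (1 : ℝ) else 0 := by
  obtain ⟨G, hG⟩ : ∃ G : (m.primeFactors → ZMod 2) → (Fin r → m.primeFactors → ZMod 2) → ℝ,
    G = fun s x' => if (finrank (ZMod 2) (kr (Bm m s)) = r ∧ Sep (kr (Bm m s)) x' ∧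
      Sep (kr (Bm m s)ᵀ) x') then 1 else 0 := ⟨_, rfl⟩
  have h1 : ∑ x : Fin (r + 1) → m.primeFactors → ZMod 2, (if Good m r x then (1 : ℝ) else 0) =
      ∑ s, ∑ x', G s x' := by
    rw [sum_cons, sum_comm]
    rw [sum_comm (f := fun s x' => G s x')]
    refine sum_congr rfl fun x' _ => ?_
    rw [← Equiv.sum_comp (Equiv.addRight (∑ l, x' l)) (fun s => G s x')]
    refine sum_congr rfl fun x₀ _ => ?_
    rw [hG]
    dsimp only [Equiv.coe_addRight]
    unfold Good
    have e : ∑ l, (Fin.cons x₀ x' : Fin (r + 1) → m.primeFactors → ZMod 2) l = x₀ + ∑ l, x' l := by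
      rw [Fin.sum_univ_succ]
      simp only [Fin.cons_zero, Fin.cons_succ]
    rw [e]
    simp only [Fin.cons_succ]
  rw [h1]
  have h2 : ∀ s, (if finrank (ZMod 2) (kr (Bm m s)) = r then (1 : ℝ) else 0) *
      ((2 : ℝ) ^ Fintype.card m.primeFactors / 4) ^ r ≤ ∑ x', G s x' := by
    intro s
    split
    next h =>
      rw [one_mul]
      refine (count_sep r (kr (Bm m s)) (kr (Bm m s)ᵀ) h
        (by rw [finrank_kr_transpose]; exact h)).trans ?_
      refine sum_le_sum fun x' _ => ?_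
      rw [hG]
      dsimp only
      split
      next h' => rw [if_pos ⟨h, h'⟩]
      next => split <;> norm_num
    next =>
      rw [zero_mul]
      apply sum_nonneg
      intro x' _
      rw [hG]
      dsimp only
      split <;> norm_num
  refine le_trans (le_of_eq ?_) (sum_le_sum fun s _ => h2 s)
  rw [← sum_mul]
  unfold Pr
  have h3 : (2 : ℝ) ^ Fintype.card m.primeFactors ≠ 0 := by positivity
  have e1 : (1 / 4 : ℝ) ^ r = 1 / 4 ^ r := by rw [div_pow, one_pow]
  rw [e1, div_pow (2 ^ Fintype.card m.primeFactors) (4 : ℝ), pow_succ]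
  field_simp

theorem sum_prod_le_one {V : Type*} [Fintype V] [DecidableEq V] {k : ℕ} {a : Fin k → V → ℝ}
    (ha : ∀ l x, 0 ≤ a l x) (ha1 : ∀ l, ∑ x, a l x ≤ 1) :
    ∑ x : Fin k → V, ∏ l, a l (x l) ≤ 1 := by
  have h := Finset.prod_univ_sum (fun _ : Fin k => (univ : Finset V)) (fun l x => a l x)
  rw [Fintype.piFinset_univ] at h
  rw [← h]
  exact prod_le_one (fun l _ => sum_nonneg fun x _ => ha l x) fun l _ => ha1 l

theorem prod_tv {V : Type*} [Fintype V] [DecidableEq V] (k : ℕ) : ∀ a b : Fin k → V → ℝ,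
    (∀ l x, 0 ≤ a l x) → (∀ l x, 0 ≤ b l x) → (∀ l, ∑ x, a l x ≤ 1) → (∀ l, ∑ x, b l x ≤ 1) →
    ∑ x : Fin k → V, |∏ l, a l (x l) - ∏ l, b l (x l)| ≤ ∑ l, ∑ x, |a l x - b l x| := by
  induction k with
  | zero => intro a b _ _ _ _; simp
  | succ k ih =>
    intro a b ha hb ha1 hb1
    rw [sum_cons, Fin.sum_univ_succ]
    have h1 : ∀ x₀ : V, ∀ x' : Fin k → V, |∏ l, a l ((Fin.cons x₀ x' : Fin (k + 1) → V) l) -
        ∏ l, b l ((Fin.cons x₀ x' : Fin (k + 1) → V) l)| ≤
        |a 0 x₀ - b 0 x₀| * ∏ l : Fin k, a l.succ (x' l) +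
        b 0 x₀ * |∏ l : Fin k, a l.succ (x' l) - ∏ l : Fin k, b l.succ (x' l)| := by
      intro x₀ x'
      rw [Fin.prod_univ_succ, Fin.prod_univ_succ]
      simp only [Fin.cons_zero, Fin.cons_succ]
      have e : a 0 x₀ * ∏ l : Fin k, a l.succ (x' l) - b 0 x₀ * ∏ l : Fin k, b l.succ (x' l) =
        (a 0 x₀ - b 0 x₀) * ∏ l : Fin k, a l.succ (x' l) +
        b 0 x₀ * (∏ l : Fin k, a l.succ (x' l) - ∏ l : Fin k, b l.succ (x' l)) := by ring
      rw [e]
      refine (abs_add_le _ _).trans (le_of_eq ?_)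
      rw [abs_mul, abs_mul, abs_of_nonneg (hb 0 x₀),
        abs_of_nonneg (prod_nonneg fun l _ => ha _ _)]
    calc _ ≤ ∑ x₀ : V, ∑ x' : Fin k → V, (|a 0 x₀ - b 0 x₀| * ∏ l : Fin k, a l.succ (x' l) +
        b 0 x₀ * |∏ l : Fin k, a l.succ (x' l) - ∏ l : Fin k, b l.succ (x' l)|) :=
          sum_le_sum fun x₀ _ => sum_le_sum fun x' _ => h1 x₀ x'
      _ = (∑ x₀ : V, |a 0 x₀ - b 0 x₀|) * (∑ x' : Fin k → V, ∏ l : Fin k, a l.succ (x' l)) +
          (∑ x₀ : V, b 0 x₀) * (∑ x' : Fin k → V,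
            |∏ l : Fin k, a l.succ (x' l) - ∏ l : Fin k, b l.succ (x' l)|) := by
          rw [sum_mul_sum, sum_mul_sum, ← sum_add_distrib]
          refine sum_congr rfl fun x₀ _ => ?_
          rw [← sum_add_distrib]
      _ ≤ (∑ x₀ : V, |a 0 x₀ - b 0 x₀|) * 1 + 1 * (∑ l : Fin k, ∑ x, |a l.succ x - b l.succ x|) := by
          apply add_le_add
          · apply mul_le_mul_of_nonneg_left _ (sum_nonneg fun _ _ => abs_nonneg _)
            exact sum_prod_le_one (fun l x => ha _ _) fun l => ha1 _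
          · apply mul_le_mul (hb1 0) _ (sum_nonneg fun _ _ => abs_nonneg _) (by norm_num)
            exact ih (fun l => a l.succ) (fun l => b l.succ) (fun l x => ha _ _)
              (fun l x => hb _ _) (fun l => ha1 _) (fun l => hb1 _)
      _ = _ := by ring

open Classical in
theorem W_lower (m r : ℕ) (y : Fin (r + 1) → ℕ) (hT : ∀ l, 0 < Th (y l)) :
    (∏ l, Th (y l)) * ((1 / 4) ^ r * Pr m r - ∑ l, TV m (y l) / Th (y l)) ≤
      ∑ x : Fin (r + 1) → m.primeFactors → ZMod 2,
        if Good m r x then ∏ l, NV m (y l) (x l) else 0 := by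
  obtain ⟨n, hn⟩ : ∃ n : ℝ, n = (2 : ℝ) ^ Fintype.card m.primeFactors := ⟨_, rfl⟩
  have hn0 : 0 < n := by rw [hn]; positivity
  have hTprod : 0 < ∏ l, Th (y l) := prod_pos fun l _ => hT l
  have hcard : (∑ _x : m.primeFactors → ZMod 2, (1 : ℝ)) = n := by
    rw [hn]; simp [ZMod.card]
  have h1 := prod_tv (V := m.primeFactors → ZMod 2) (r + 1) (fun l x => NV m (y l) x / Th (y l))
    (fun _ _ => 1 / n) (fun l x => div_nonneg (NV_nonneg _ _ _) (hT l).le)
    (fun _ _ => by positivity)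
    (fun l => by
      rw [← sum_div, div_le_one (hT l)]; exact sum_NV_le m (y l))
    (fun l => by
      have : ∑ _x : m.primeFactors → ZMod 2, 1 / n = 1 / n * ∑ _x : m.primeFactors → ZMod 2, (1 : ℝ) := by
        rw [mul_sum]; exact sum_congr rfl fun _ _ => (mul_one _).symm
      rw [this, hcard]
      apply le_of_eq; field_simp)
  have h2 : ∀ l : Fin (r + 1), ∑ x : m.primeFactors → ZMod 2, |NV m (y l) x / Th (y l) - 1 / n| =
      TV m (y l) / Th (y l) := by
    intro l
    unfold TV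
    rw [sum_div]
    refine sum_congr rfl fun x _ => ?_
    have hTl := hT l
    rw [← hn]
    have e : NV m (y l) x / Th (y l) - 1 / n = (NV m (y l) x - Th (y l) / n) / Th (y l) := by
      field_simp
    rw [e, abs_div, abs_of_pos hTl]
  rw [sum_congr rfl fun l _ => h2 l] at h1
  have h3 : ∀ x : Fin (r + 1) → m.primeFactors → ZMod 2,
      (if Good m r x then ∏ l, NV m (y l) (x l) else 0) =
      (∏ l, Th (y l)) * (if Good m r x then ∏ l, NV m (y l) (x l) / Th (y l) else 0) := by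
    intro x
    split
    · rw [prod_div_distrib]; field_simp
    · rw [mul_zero]
  rw [sum_congr rfl fun x _ => h3 x, ← mul_sum]
  apply mul_le_mul_of_nonneg_left _ hTprod.le
  have h4 : ∀ x : Fin (r + 1) → m.primeFactors → ZMod 2,
      (if Good m r x then (1 : ℝ) else 0) * (1 / n) ^ (r + 1) -
        |∏ l, NV m (y l) (x l) / Th (y l) - ∏ _l : Fin (r + 1), 1 / n| ≤
      (if Good m r x then ∏ l, NV m (y l) (x l) / Th (y l) else 0) := by
    intro x
    have e : ∏ _l : Fin (r + 1), 1 / n = (1 / n) ^ (r + 1) := by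
      rw [prod_const, card_univ, Fintype.card_fin]
    rw [e]
    have h5 := neg_abs_le (∏ l, NV m (y l) (x l) / Th (y l) - (1 / n) ^ (r + 1))
    have h6 := abs_nonneg (∏ l, NV m (y l) (x l) / Th (y l) - (1 / n) ^ (r + 1))
    split
    · linarith
    · linarith
  refine le_trans ?_ (sum_le_sum fun x _ => h4 x)
  rw [sum_sub_distrib, ← sum_mul]
  apply sub_le_sub _ h1
  have h7 := good_count m r
  rw [← hn] at h7
  calc (1 / 4) ^ r * Pr m r = (1 / 4) ^ r * Pr m r * n ^ (r + 1) * (1 / n) ^ (r + 1) := by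
        rw [mul_assoc ((1 / 4) ^ r * Pr m r), ← mul_pow, mul_one_div_cancel hn0.ne', one_pow, mul_one]
    _ ≤ _ := by
        refine mul_le_mul_of_nonneg_right (h7.trans (le_of_eq ?_)) (by positivity)
        exact sum_congr rfl fun x _ => by congr

open Classical in
/-- good tuples of primes -/
noncomputable def GT (m r : ℕ) (y : Fin (r + 1) → ℕ) : Finset (Fin (r + 1) → ℕ) :=
  (Fintype.piFinset fun l => (Py (y l)).filter fun p => ¬ p ∣ m).filter
    fun P => Good m r fun l => xv m (P l)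

open Classical in
theorem tuple_sum (m r : ℕ) (y : Fin (r + 1) → ℕ) :
    ∑ x : Fin (r + 1) → m.primeFactors → ZMod 2,
        (if Good m r x then ∏ l, NV m (y l) (x l) else 0) = ∑ P ∈ GT m r y, ∏ l, Real.log (P l) := by
  have h1 : ∀ x : Fin (r + 1) → m.primeFactors → ZMod 2, ∏ l, NV m (y l) (x l) =
      ∑ P ∈ Fintype.piFinset (fun l => (Py (y l)).filter fun p => ¬ p ∣ m),
        ∏ l, (if xv m (P l) = x l then Real.log (P l) else 0) := by
    intro x
    rw [← Finset.prod_univ_sum (fun l => (Py (y l)).filter fun p => ¬ p ∣ m)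
      (fun l p => if xv m p = x l then Real.log p else 0)]
    refine prod_congr rfl fun l _ => ?_
    unfold NV
    rw [← filter_filter, sum_filter]
  have h2 : ∀ x : Fin (r + 1) → m.primeFactors → ZMod 2,
      (if Good m r x then ∏ l, NV m (y l) (x l) else 0) =
      ∑ P ∈ Fintype.piFinset (fun l => (Py (y l)).filter fun p => ¬ p ∣ m),
        if (fun l => xv m (P l)) = x then (if Good m r x then ∏ l, Real.log (P l) else 0) else 0 := by
    intro x
    split
    next hG =>
      rw [h1 x]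
      refine sum_congr rfl fun P _ => ?_
      split
      next h =>
        refine prod_congr rfl fun l _ => ?_
        rw [if_pos (congrFun h l)]
      next h =>
        obtain ⟨l, hl⟩ := Function.ne_iff.mp h
        exact prod_eq_zero (mem_univ l) (if_neg hl)
    next => simp
  rw [sum_congr rfl fun x _ => h2 x, sum_comm]
  unfold GT
  rw [sum_filter]
  refine sum_congr rfl fun P _ => ?_
  rw [sum_ite_eq univ (fun l => xv m (P l)), if_pos (mem_univ _)]

theorem GT_card {m r : ℕ} {y : Fin (r + 1) → ℕ} (hT : ∀ l, 0 < Th (y l)) :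
    (∏ l, Th (y l)) * ((1 / 4) ^ r * Pr m r - ∑ l, TV m (y l) / Th (y l)) ≤
      (GT m r y).card * ∏ l, Real.log ((2 * y l : ℕ) : ℝ) := by
  classical
  have h1 := W_lower m r y hT
  rw [tuple_sum] at h1
  refine h1.trans ?_
  rw [← nsmul_eq_mul, ← sum_const]
  refine sum_le_sum fun P hP => ?_
  unfold GT at hP
  rw [mem_filter, Fintype.mem_piFinset] at hP
  apply prod_le_prod
  · intro l _
    exact log_nonneg_Py (mem_filter.mp (hP.1 l)).1
  · intro l _
    have h2 := (mem_filter.mp (hP.1 l)).1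
    unfold Py at h2
    rw [mem_filter, mem_Ioc] at h2
    apply Real.log_le_log (by exact_mod_cast h2.2.1.pos)
    exact_mod_cast h2.1.2

end Vale.Agent.P017.PP
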