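import Vale.Agent.P017.H185P.Per

namespace Vale.Agent.P017.PP

open Finset ArithmeticFunction

/-- Chebyshev function in a residue class -/
noncomputable def psiAP (x : ℝ) (q a : ℕ) : ℝ :=
  ∑ n ∈ (Icc 1 ⌊x⌋₊).filter (fun n => n ≡ a [MOD q]), vonMangoldt n

/-- the statement of the Siegel-Walfisz theorem -/
def SWH : Prop := ∀ C : ℝ, 0 < C → ∃ x₀ : ℝ, ∀ x : ℝ, x₀ ≤ x → ∀ q a : ℕ, 1 ≤ q →
  (q : ℝ) ≤ (Real.log x) ^ C → Nat.Coprime a q →
    |psiAP x q a - x / (Nat.totient q : ℝ)| ≤ x / (Real.log x) ^ C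

theorem psiAP_nat (x q a : ℕ) : psiAP x q a =
    ∑ n ∈ (Icc 1 x).filter (fun n => n ≡ a [MOD q]), vonMangoldt n := by
  unfold psiAP; rw [Nat.floor_natCast]

theorem psiAP_diff (y q a : ℕ) :
    ∑ n ∈ (Ioc y (2 * y)).filter (fun n => n ≡ a [MOD q]), vonMangoldt n =
      psiAP ((2 * y : ℕ) : ℝ) q a - psiAP (y : ℝ) q a := by
  rw [psiAP_nat, psiAP_nat]
  have h : (Icc 1 (2 * y)).filter (fun n => n ≡ a [MOD q]) =
      (Icc 1 y).filter (fun n => n ≡ a [MOD q]) ∪ (Ioc y (2 * y)).filter (fun n => n ≡ a [MOD q]) := by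
    ext n
    simp only [mem_filter, mem_union, mem_Icc, mem_Ioc]
    constructor
    · rintro ⟨h1, h2⟩
      by_cases h : n ≤ y
      · exact Or.inl ⟨⟨h1.1, h⟩, h2⟩
      · exact Or.inr ⟨⟨by omega, h1.2⟩, h2⟩
    · rintro (⟨h1, h2⟩ | ⟨h1, h2⟩)
      · exact ⟨⟨h1.1, by omega⟩, h2⟩
      · exact ⟨⟨by omega, h1.2⟩, h2⟩
  rw [h, sum_union]
  · ring
  · rw [disjoint_left]
    intro n hn hn'
    simp only [mem_filter, mem_Icc, mem_Ioc] at hn hn'
    omega

/-- Siegel-Walfisz in dyadic intervals -/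
theorem sw_dyadic (hSW : SWH) {C : ℝ} (hC : 0 < C) : ∃ y₀ : ℕ, ∀ y : ℕ, y₀ ≤ y → ∀ q a : ℕ, 1 ≤ q →
    (q : ℝ) ≤ (Real.log y) ^ C → Nat.Coprime a q →
    |∑ n ∈ (Ioc y (2 * y)).filter (fun n => n ≡ a [MOD q]), vonMangoldt n -
      y / (Nat.totient q : ℝ)| ≤ 3 * y / (Real.log y) ^ C := by
  obtain ⟨x₀, h⟩ := hSW C hC
  refine ⟨max ⌈x₀⌉₊ 3, fun y hy q a hq hqy hcop => ?_⟩
  have hy1 : x₀ ≤ y := (Nat.le_ceil x₀).trans (by exact_mod_cast (le_max_left _ _).trans hy)
  have hy3 : 3 ≤ y := (le_max_right _ _).trans hy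
  have hy3' : (3 : ℝ) ≤ y := by exact_mod_cast hy3
  have hlog : 0 < Real.log y := Real.log_pos (by linarith)
  have hlog2 : Real.log y ≤ Real.log (2 * y : ℕ) := by
    apply Real.log_le_log (by linarith)
    push_cast; linarith
  have hpow : (Real.log y) ^ C ≤ (Real.log (2 * y : ℕ)) ^ C :=
    Real.rpow_le_rpow hlog.le hlog2 hC.le
  have hpos : 0 < (Real.log y) ^ C := Real.rpow_pos_of_pos hlog C
  have h1 := h y hy1 q a hq hqy hcop
  have h2 := h (2 * y : ℕ) (hy1.trans (by push_cast; linarith)) q a hq (hqy.trans hpow) hcop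
  have h3 : ((2 * y : ℕ) : ℝ) / (Real.log (2 * y : ℕ)) ^ C ≤ 2 * y / (Real.log y) ^ C := by
    push_cast
    apply div_le_div_of_nonneg_left (by positivity) hpos
    push_cast at hpow; exact hpow
  rw [psiAP_diff]
  rw [abs_le] at h1 h2 ⊢
  have h4 : (y : ℝ) / (Nat.totient q : ℝ) = ((2 * y : ℕ) : ℝ) / (Nat.totient q : ℝ) -
      (y : ℝ) / (Nat.totient q : ℝ) := by push_cast; ring
  have h5 : 3 * (y : ℝ) / (Real.log y) ^ C = 2 * y / (Real.log y) ^ C + y / (Real.log y) ^ C := by ring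
  constructor <;> linarith [h1.1, h1.2, h2.1, h2.2]

/-- prime powers in a dyadic interval -/
theorem prime_powers_le {y : ℕ} (hy : 1 ≤ y) :
    ∑ n ∈ (Ioc y (2 * y)).filter (fun n => ¬ n.Prime), vonMangoldt n ≤
      2 * Real.sqrt (2 * y : ℕ) * Real.log (2 * y : ℕ) := by
  have h1 : (1 : ℝ) ≤ (2 * y : ℕ) := by exact_mod_cast (by omega : 1 ≤ 2 * y)
  refine le_trans ?_ (Chebyshev.psi_sub_theta_le h1)
  rw [Chebyshev.psi_sub_theta_eq_sum_not_prime, Nat.floor_natCast]
  apply sum_le_sum_of_subset_of_nonneg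
  · intro n hn
    simp only [mem_filter, mem_Ioc] at hn ⊢
    exact ⟨⟨by omega, hn.1.2⟩, hn.2⟩
  · intro n _ _; exact vonMangoldt_nonneg

/-- splitting a sum over residue classes -/
theorem sum_classes {y q : ℕ} (hq : 0 < q) {g : ℕ → ℝ}
    (hper : ∀ m n, m ≡ n [MOD q] → g m = g n) (F : ℕ → ℝ) :
    ∑ n ∈ Ioc y (2 * y), g n * F n =
      ∑ b ∈ range q, g b * ∑ n ∈ (Ioc y (2 * y)).filter (fun n => n ≡ b [MOD q]), F n := by
  rw [← sum_fiberwise_of_maps_to (s := Ioc y (2 * y)) (t := range q) (g := fun n => n % q)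
    (fun n _ => mem_range.mpr (Nat.mod_lt _ hq))]
  refine sum_congr rfl fun b hb => ?_
  rw [mul_sum]
  have hb' := mem_range.mp hb
  apply sum_congr
  · ext n
    simp only [mem_filter, and_congr_right_iff]
    intro _
    unfold Nat.ModEq
    rw [Nat.mod_eq_of_lt hb']
  · intro n hn
    rw [hper n b (mem_filter.mp hn).2]

/-- oscillating periodic functions over primes -/
theorem sw_osc (hSW : SWH) {A : ℝ} (hA : 0 < A) : ∃ y₀ : ℕ, ∀ y : ℕ, y₀ ≤ y → ∀ q : ℕ, 1 ≤ q →
    (q : ℝ) ≤ (Real.log y) ^ A → ∀ g : ℕ → ℝ, (∀ m n, m ≡ n [MOD q] → g m = g n) →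
    (∀ n, |g n| ≤ 1) → (∀ n, ¬ Nat.Coprime n q → g n = 0) → ∑ n ∈ range q, g n = 0 →
    |∑ p ∈ (Ioc y (2 * y)).filter Nat.Prime, g p * Real.log p| ≤ y / (Real.log y) ^ A := by
  obtain ⟨y₁, h⟩ := sw_dyadic hSW (C := 2 * A + 1) (by linarith)
  -- asymptotics
  have hlim : Filter.Tendsto (fun y : ℕ => Real.log (y : ℝ)) Filter.atTop Filter.atTop :=
    Real.tendsto_log_atTop.comp tendsto_natCast_atTop_atTop
  have hev1 : ∀ᶠ y : ℕ in Filter.atTop, (6 : ℝ) ≤ Real.log y := hlim.eventually_ge_atTop 6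
  have hev2 : ∀ᶠ y : ℕ in Filter.atTop, 2 * Real.sqrt (2 * y : ℕ) * Real.log (2 * y : ℕ) ≤
      (1 / 2) * (y / (Real.log y) ^ A) := by
    have h1 : (fun x : ℝ => (Real.log x) ^ (A + 1)) =o[Filter.atTop] fun x => x ^ (1 / 2 : ℝ) :=
      isLittleO_log_rpow_rpow_atTop (A + 1) (by norm_num)
    have h2 := h1.bound (c := 1 / 16) (by norm_num)
    have h3 := tendsto_natCast_atTop_atTop (R := ℝ) |>.eventually h2
    filter_upwards [h3, hev1, Filter.eventually_ge_atTop 2] with y hy hy6 hy2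
    have hy2' : (2 : ℝ) ≤ y := by exact_mod_cast hy2
    have hlog : 0 < Real.log y := by linarith
    rw [Real.norm_of_nonneg (by positivity), Real.norm_of_nonneg (by positivity),
      ← Real.sqrt_eq_rpow] at hy
    have e1 : Real.log (2 * y : ℕ) ≤ 2 * Real.log y := by
      push_cast
      rw [Real.log_mul (by norm_num) (by positivity)]
      have := Real.log_le_log (by norm_num) hy2'
      linarith
    have e2 : Real.sqrt (2 * y : ℕ) ≤ 2 * Real.sqrt y := by
      push_cast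
      rw [Real.sqrt_le_left (by positivity), mul_pow, Real.sq_sqrt (by positivity)]
      linarith
    have e3 : 0 < Real.sqrt y := Real.sqrt_pos.mpr (by linarith)
    have e4 : 0 < (Real.log y) ^ A := Real.rpow_pos_of_pos hlog A
    have e5 : 2 * Real.sqrt (2 * y : ℕ) * Real.log (2 * y : ℕ) ≤ 8 * (Real.sqrt y * Real.log y) := by
      calc 2 * Real.sqrt (2 * y : ℕ) * Real.log (2 * y : ℕ)
          ≤ 2 * (2 * Real.sqrt y) * (2 * Real.log y) := by gcongr
        _ = _ := by ring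
    refine e5.trans ?_
    rw [mul_div_assoc', le_div_iff₀ e4]
    have e6 : (Real.log y) ^ (A + 1) = (Real.log y) ^ A * Real.log y := by
      rw [Real.rpow_add hlog, Real.rpow_one]
    rw [e6] at hy
    calc 8 * (Real.sqrt y * Real.log y) * (Real.log y) ^ A
        = 8 * Real.sqrt y * ((Real.log y) ^ A * Real.log y) := by ring
      _ ≤ 8 * Real.sqrt y * (1 / 16 * Real.sqrt y) := by gcongr
      _ = 1 / 2 * (Real.sqrt y * Real.sqrt y) := by ring
      _ = 1 / 2 * y := by rw [Real.mul_self_sqrt (by linarith)]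
  obtain ⟨y₂, hy₂⟩ := Filter.eventually_atTop.mp (hev1.and hev2)
  refine ⟨max (max y₁ y₂) 2, fun y hy q hq hqy g hper hg hcop h0 => ?_⟩
  have hy1 : y₁ ≤ y := (le_max_left _ _).trans ((le_max_left _ _).trans hy)
  have hy2 := hy₂ y ((le_max_right _ _).trans ((le_max_left _ _).trans hy))
  have hy2n : 2 ≤ y := (le_max_right _ _).trans hy
  have hy2' : (2 : ℝ) ≤ y := by exact_mod_cast hy2n
  have hlog : 0 < Real.log y := by linarith [hy2.1]
  have hlogA : 0 < (Real.log y) ^ A := Real.rpow_pos_of_pos hlog A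
  have hCpow : (Real.log y) ^ (2 * A + 1) = (Real.log y) ^ A * (Real.log y) ^ A * Real.log y := by
    rw [← Real.rpow_add hlog, ← Real.rpow_add_one hlog.ne']
    congr 1; ring
  have hqC : (q : ℝ) ≤ (Real.log y) ^ (2 * A + 1) := by
    refine hqy.trans (Real.rpow_le_rpow_of_exponent_le (by linarith [hy2.1]) (by linarith))
  have key : |∑ n ∈ Ioc y (2 * y), g n * vonMangoldt n| ≤ (1 / 2) * (y / (Real.log y) ^ A) := by
    rw [sum_classes (by omega) hper]
    have e1 : ∑ b ∈ range q, g b * ∑ n ∈ (Ioc y (2 * y)).filter (fun n => n ≡ b [MOD q]),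
        vonMangoldt n = ∑ b ∈ range q, g b *
          (∑ n ∈ (Ioc y (2 * y)).filter (fun n => n ≡ b [MOD q]), vonMangoldt n -
            y / (Nat.totient q : ℝ)) := by
      simp only [mul_sub, sum_sub_distrib]
      rw [← sum_mul, h0]; ring
    rw [e1]
    calc |∑ b ∈ range q, g b * (∑ n ∈ (Ioc y (2 * y)).filter (fun n => n ≡ b [MOD q]),
          vonMangoldt n - y / (Nat.totient q : ℝ))|
        ≤ ∑ b ∈ range q, |g b * (∑ n ∈ (Ioc y (2 * y)).filter (fun n => n ≡ b [MOD q]),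
          vonMangoldt n - y / (Nat.totient q : ℝ))| := abs_sum_le_sum_abs _ _
      _ ≤ ∑ b ∈ range q, 3 * y / (Real.log y) ^ (2 * A + 1) := by
          refine sum_le_sum fun b _ => ?_
          rw [abs_mul]
          by_cases hb : Nat.Coprime b q
          · calc |g b| * _ ≤ 1 * (3 * y / (Real.log y) ^ (2 * A + 1)) :=
                mul_le_mul (hg b) (h y hy1 q b hq hqC hb) (abs_nonneg _) zero_le_one
              _ = _ := one_mul _
          · rw [hcop b hb, abs_zero, zero_mul]; positivity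
      _ = q * (3 * y / (Real.log y) ^ (2 * A + 1)) := by simp
      _ ≤ (Real.log y) ^ A * (3 * y / (Real.log y) ^ (2 * A + 1)) := by gcongr
      _ = 3 * y / ((Real.log y) ^ A * Real.log y) := by
          rw [hCpow]; field_simp
      _ ≤ 3 * y / ((Real.log y) ^ A * 6) := by
          apply div_le_div_of_nonneg_left (by positivity) (by positivity)
          exact mul_le_mul_of_nonneg_left hy2.1 hlogA.le
      _ = _ := by field_simp; norm_num
  have hsplit : ∑ n ∈ Ioc y (2 * y), g n * vonMangoldt n =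
      ∑ p ∈ (Ioc y (2 * y)).filter Nat.Prime, g p * Real.log p +
        ∑ n ∈ (Ioc y (2 * y)).filter (fun n => ¬ n.Prime), g n * vonMangoldt n := by
    rw [← sum_filter_add_sum_filter_not (Ioc y (2 * y)) Nat.Prime]
    congr 1
    refine sum_congr rfl fun p hp => ?_
    rw [vonMangoldt_apply_prime (mem_filter.mp hp).2]
  have hpp : |∑ n ∈ (Ioc y (2 * y)).filter (fun n => ¬ n.Prime), g n * vonMangoldt n| ≤
      (1 / 2) * (y / (Real.log y) ^ A) := by
    refine (abs_sum_le_sum_abs _ _).trans (le_trans ?_ ((prime_powers_le (by omega)).trans hy2.2))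
    refine sum_le_sum fun n _ => ?_
    rw [abs_mul, abs_of_nonneg (vonMangoldt_nonneg (n := n))]
    exact mul_le_of_le_one_left vonMangoldt_nonneg (hg n)
  rw [abs_le] at key hpp ⊢
  rw [hsplit] at key
  constructor <;> linarith [key.1, key.2, hpp.1, hpp.2]

/-- at most `0.55 y` from primes with `ψ(p) = 1` -/
theorem sw_half (hSW : SWH) {A : ℝ} (hA : 0 < A) : ∃ y₀ : ℕ, ∀ y : ℕ, y₀ ≤ y → ∀ q : ℕ, 1 ≤ q →
    (q : ℝ) ≤ (Real.log y) ^ A → ∀ g : ℕ → ℤ, (∀ m n, m ≡ n [MOD q] → g m = g n) →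
    (∀ n, g n = 0 ∨ g n = 1 ∨ g n = -1) → (∀ n, ¬ Nat.Coprime n q → g n = 0) →
    ∑ n ∈ range q, g n = 0 →
    ∑ p ∈ (Ioc y (2 * y)).filter (fun p => p.Prime ∧ g p = 1), Real.log p ≤ 11 / 20 * y := by
  obtain ⟨y₁, h⟩ := sw_dyadic hSW (C := A + 1) (by linarith)
  have hlim : Filter.Tendsto (fun y : ℕ => Real.log (y : ℝ)) Filter.atTop Filter.atTop :=
    Real.tendsto_log_atTop.comp tendsto_natCast_atTop_atTop
  obtain ⟨y₂, hy₂⟩ := Filter.eventually_atTop.mp (hlim.eventually_ge_atTop 60)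
  refine ⟨max (max y₁ y₂) 2, fun y hy q hq hqy g hper hg hcop h0 => ?_⟩
  have hy1 : y₁ ≤ y := (le_max_left _ _).trans ((le_max_left _ _).trans hy)
  have hy60 := hy₂ y ((le_max_right _ _).trans ((le_max_left _ _).trans hy))
  have hlog : 0 < Real.log y := by linarith
  have hlogA : 0 < (Real.log y) ^ A := Real.rpow_pos_of_pos hlog A
  have hCpow : (Real.log y) ^ (A + 1) = (Real.log y) ^ A * Real.log y := by
    rw [Real.rpow_add_one hlog.ne']
  have hqC : (q : ℝ) ≤ (Real.log y) ^ (A + 1) :=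
    hqy.trans (Real.rpow_le_rpow_of_exponent_le (by linarith) (by linarith))
  obtain ⟨B, hB⟩ : ∃ B, B = (range q).filter fun b => g b = 1 := ⟨_, rfl⟩
  -- count of the classes
  have hcard : 2 * B.card ≤ Nat.totient q := by
    obtain ⟨B', hB'⟩ : ∃ B', B' = (range q).filter fun b => g b = -1 := ⟨_, rfl⟩
    have e1 : ∑ n ∈ range q, g n = (B.card : ℤ) - B'.card := by
      have : ∀ n ∈ range q, g n = (if g n = 1 then (1 : ℤ) else 0) - (if g n = -1 then 1 else 0) := by
        intro n _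
        rcases hg n with h | h | h <;> rw [h] <;> norm_num
      rw [sum_congr rfl this, sum_sub_distrib, hB, hB', card_filter, card_filter]
      push_cast; rfl
    rw [h0] at e1
    have e2 : B.card = B'.card := by omega
    have e3 : (B ∪ B').card = B.card + B'.card := by
      apply card_union_of_disjoint
      rw [disjoint_left, hB, hB']
      intro n h1 h2
      rw [mem_filter] at h1 h2
      rw [h1.2] at h2
      norm_num at h2
    have e4 : (B ∪ B').card ≤ Nat.totient q := by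
      rw [Nat.totient_eq_card_coprime]
      apply card_le_card
      intro n hn
      rw [mem_union, hB, hB', mem_filter, mem_filter] at hn
      rw [mem_filter]
      have hne : g n ≠ 0 := by
        rcases hn with h | h <;> rw [h.2] <;> norm_num
      refine ⟨by rcases hn with h | h <;> exact h.1, ?_⟩
      rw [Nat.coprime_comm]
      by_contra hcon
      exact hne (hcop n hcon)
    omega
  have hφ : 0 < Nat.totient q := Nat.totient_pos.mpr hq
  have hcard' : (B.card : ℝ) ≤ (Nat.totient q : ℝ) / 2 := by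
    rw [le_div_iff₀ (by norm_num)]
    have : B.card * 2 ≤ Nat.totient q := by omega
    exact_mod_cast this
  have hφq : (Nat.totient q : ℝ) ≤ q := by exact_mod_cast Nat.totient_le q
  calc ∑ p ∈ (Ioc y (2 * y)).filter (fun p => p.Prime ∧ g p = 1), Real.log p
      ≤ ∑ n ∈ Ioc y (2 * y), (if g n = 1 then (1 : ℝ) else 0) * vonMangoldt n := by
        rw [sum_filter]
        refine sum_le_sum fun n _ => ?_
        by_cases h1 : n.Prime ∧ g n = 1
        · rw [if_pos h1, if_pos h1.2, vonMangoldt_apply_prime h1.1, one_mul]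
        · rw [if_neg h1]
          exact mul_nonneg (by split <;> norm_num) vonMangoldt_nonneg
    _ = ∑ b ∈ range q, (if g b = 1 then (1 : ℝ) else 0) *
          ∑ n ∈ (Ioc y (2 * y)).filter (fun n => n ≡ b [MOD q]), vonMangoldt n :=
        sum_classes (by omega) (fun m n hmn => by rw [hper m n hmn]) _
    _ = ∑ b ∈ B, ∑ n ∈ (Ioc y (2 * y)).filter (fun n => n ≡ b [MOD q]), vonMangoldt n := by
        rw [hB, sum_filter]
        refine sum_congr rfl fun b _ => ?_
        split <;> simp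
    _ ≤ ∑ b ∈ B, ((y : ℝ) / (Nat.totient q : ℝ) + 3 * y / (Real.log y) ^ (A + 1)) := by
        refine sum_le_sum fun b hb => ?_
        rw [hB, mem_filter] at hb
        have hb1 : Nat.Coprime b q := by
          by_contra hcon
          have := hcop b hcon
          rw [hb.2] at this; norm_num at this
        have := (abs_le.mp (h y hy1 q b hq hqC hb1)).2
        linarith
    _ = B.card * ((y : ℝ) / (Nat.totient q : ℝ) + 3 * y / (Real.log y) ^ (A + 1)) := by
        rw [sum_const, nsmul_eq_mul]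
    _ ≤ (Nat.totient q : ℝ) / 2 * ((y : ℝ) / (Nat.totient q : ℝ) +
          3 * y / (Real.log y) ^ (A + 1)) := by gcongr
    _ = y / 2 + (Nat.totient q : ℝ) * (3 * y / 2 / (Real.log y) ^ (A + 1)) := by
        have : (Nat.totient q : ℝ) ≠ 0 := by exact_mod_cast hφ.ne'
        field_simp
    _ ≤ y / 2 + (Real.log y) ^ A * (3 * y / 2 / (Real.log y) ^ (A + 1)) := by
        gcongr
        exact hφq.trans hqy
    _ = y / 2 + 3 * y / 2 / Real.log y := by
        rw [hCpow]; field_simp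
    _ ≤ y / 2 + 3 * y / 2 / 60 := by gcongr
    _ ≤ 11 / 20 * y := by
        have : (0 : ℝ) ≤ y := Nat.cast_nonneg y
        linarith

/-- lower bound for the primes `≡ 1 mod 60` -/
theorem sw_lower (hSW : SWH) : ∃ y₀ : ℕ, ∀ y : ℕ, y₀ ≤ y →
    (y : ℝ) / 20 ≤ ∑ p ∈ (Ioc y (2 * y)).filter (fun p => p.Prime ∧ p % 60 = 1), Real.log p := by
  obtain ⟨y₁, h⟩ := sw_dyadic hSW (C := 1) (by norm_num)
  have hlim : Filter.Tendsto (fun y : ℕ => Real.log (y : ℝ)) Filter.atTop Filter.atTop :=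
    Real.tendsto_log_atTop.comp tendsto_natCast_atTop_atTop
  have hev1 : ∀ᶠ y : ℕ in Filter.atTop, (1000 : ℝ) ≤ Real.log y := hlim.eventually_ge_atTop 1000
  have hev2 : ∀ᶠ y : ℕ in Filter.atTop, 2 * Real.sqrt (2 * y : ℕ) * Real.log (2 * y : ℕ) ≤
      (1 / 1000) * y := by
    have h1 : (fun x : ℝ => (Real.log x) ^ (1 : ℝ)) =o[Filter.atTop] fun x => x ^ (1 / 2 : ℝ) :=
      isLittleO_log_rpow_rpow_atTop 1 (by norm_num)
    have h2 := h1.bound (c := 1 / 8000) (by norm_num)
    have h3 := tendsto_natCast_atTop_atTop (R := ℝ) |>.eventually h2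
    filter_upwards [h3, hev1, Filter.eventually_ge_atTop 2] with y hy hy6 hy2
    have hy2' : (2 : ℝ) ≤ y := by exact_mod_cast hy2
    have hlog : 0 < Real.log y := by linarith
    rw [Real.norm_of_nonneg (by positivity), Real.norm_of_nonneg (by positivity),
      ← Real.sqrt_eq_rpow, Real.rpow_one] at hy
    have e1 : Real.log (2 * y : ℕ) ≤ 2 * Real.log y := by
      push_cast
      rw [Real.log_mul (by norm_num) (by positivity)]
      have := Real.log_le_log (by norm_num) hy2'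
      linarith
    have e2 : Real.sqrt (2 * y : ℕ) ≤ 2 * Real.sqrt y := by
      push_cast
      rw [Real.sqrt_le_left (by positivity), mul_pow, Real.sq_sqrt (by positivity)]
      linarith
    calc 2 * Real.sqrt (2 * y : ℕ) * Real.log (2 * y : ℕ)
        ≤ 2 * (2 * Real.sqrt y) * (2 * Real.log y) := by gcongr
      _ ≤ 2 * (2 * Real.sqrt y) * (2 * (1 / 8000 * Real.sqrt y)) := by gcongr
      _ = 1 / 1000 * (Real.sqrt y * Real.sqrt y) := by ring
      _ = 1 / 1000 * y := by rw [Real.mul_self_sqrt (by linarith)]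
  obtain ⟨y₂, hy₂⟩ := Filter.eventually_atTop.mp (hev1.and hev2)
  refine ⟨max (max y₁ y₂) 2, fun y hy => ?_⟩
  have hy1 : y₁ ≤ y := (le_max_left _ _).trans ((le_max_left _ _).trans hy)
  have hy2 := hy₂ y ((le_max_right _ _).trans ((le_max_left _ _).trans hy))
  have hy2n : 2 ≤ y := (le_max_right _ _).trans hy
  have hy0 : (0 : ℝ) ≤ y := Nat.cast_nonneg y
  have h1 := h y hy1 60 1 (by norm_num) (by
    rw [Real.rpow_one]; push_cast; linarith [hy2.1]) (by norm_num)
  rw [Real.rpow_one] at h1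
  have hφ : Nat.totient 60 = 16 := by decide
  rw [hφ] at h1
  have h2 := (abs_le.mp h1).1
  have h3 : 3 * (y : ℝ) / Real.log y ≤ 3 * y / 1000 := by
    apply div_le_div_of_nonneg_left (by positivity) (by norm_num) hy2.1
  have h4 : ∑ n ∈ (Ioc y (2 * y)).filter (fun n => n ≡ 1 [MOD 60]), vonMangoldt n ≤
      ∑ p ∈ (Ioc y (2 * y)).filter (fun p => p.Prime ∧ p % 60 = 1), Real.log p +
        ∑ n ∈ (Ioc y (2 * y)).filter (fun n => ¬ n.Prime), vonMangoldt n := by
    rw [sum_filter, sum_filter, sum_filter, ← sum_add_distrib]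
    refine sum_le_sum fun n _ => ?_
    by_cases hn : n ≡ 1 [MOD 60]
    · have hn' : n % 60 = 1 := hn
      rw [if_pos hn]
      by_cases hp : n.Prime
      · rw [if_pos ⟨hp, hn'⟩, vonMangoldt_apply_prime hp, if_neg (not_not.mpr hp), add_zero]
      · rw [if_neg (fun h => hp h.1), if_pos hp, zero_add]
    · rw [if_neg hn]
      apply add_nonneg
      · split
        · exact Real.log_natCast_nonneg n
        · exact le_rfl
      · split
        · exact vonMangoldt_nonneg
        · exact le_rfl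
  have h5 := (prime_powers_le (y := y) (by omega)).trans hy2.2
  have h6 : (y : ℝ) / ((16 : ℕ) : ℝ) = y / 16 := by push_cast; rfl
  rw [h6] at h2
  linarith

end Vale.Agent.P017.PP
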