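import Mathlib

namespace Vale.Agent.P017.PP

open Finset

/-- harmonic sum -/
theorem harm_le (A : ℕ) : ∑ a ∈ Icc 1 A, (1 / (a : ℝ)) ≤ 1 + Real.log A := by
  have h := harmonic_le_one_add_log A
  rw [harmonic_eq_sum_Icc] at h
  push_cast at h
  simpa [one_div] using h

theorem card_mult_le (A l : ℕ) : (((Icc 1 A).filter fun a => l ∣ a).card : ℝ) ≤ A / l := by
  have h : ((Icc 1 A).filter fun a => l ∣ a).card = A / l := by
    have := Nat.Ioc_filter_dvd_card_eq_div A l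
    rw [← this]
    rfl
  rw [h]
  exact Nat.cast_div_le

/-- the second moment of the divisor function -/
theorem tau_sq_le (A : ℕ) :
    ∑ a ∈ Icc 1 A, ((a.divisors.card : ℝ)) ^ 2 ≤ A * (1 + Real.log A) ^ 3 := by
  have h1 : ∀ a ∈ Icc 1 A, ((a.divisors.card : ℝ)) ^ 2 =
      ∑ d ∈ Icc 1 A, ∑ e ∈ Icc 1 A, if (d ∣ a ∧ e ∣ a) then (1 : ℝ) else 0 := by
    intro a ha
    rw [mem_Icc] at ha
    have hdiv : a.divisors = (Icc 1 A).filter fun d => d ∣ a := by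
      ext d
      simp only [Nat.mem_divisors, mem_filter, mem_Icc]
      constructor
      · rintro ⟨h, h0⟩
        exact ⟨⟨Nat.pos_of_dvd_of_pos h (by omega), (Nat.le_of_dvd (by omega) h).trans ha.2⟩, h⟩
      · rintro ⟨-, h⟩
        exact ⟨h, by omega⟩
    rw [sq, hdiv, card_filter]
    push_cast
    rw [sum_mul_sum]
    refine sum_congr rfl fun d _ => sum_congr rfl fun e _ => ?_
    by_cases h1 : d ∣ a <;> by_cases h2 : e ∣ a <;> simp [h1, h2]
  rw [sum_congr rfl h1, sum_comm]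
  have h2 : ∀ d ∈ Icc 1 A, ∑ a ∈ Icc 1 A, ∑ e ∈ Icc 1 A, (if (d ∣ a ∧ e ∣ a) then (1 : ℝ) else 0) =
      ∑ e ∈ Icc 1 A, (((Icc 1 A).filter fun a => Nat.lcm d e ∣ a).card : ℝ) := by
    intro d _
    rw [sum_comm]
    refine sum_congr rfl fun e _ => ?_
    rw [card_filter]
    push_cast
    refine sum_congr rfl fun a _ => ?_
    simp only [Nat.lcm_dvd_iff]
  rw [sum_congr rfl h2]
  have h3 : ∀ d ∈ Icc 1 A, ∀ e ∈ Icc 1 A,
      (((Icc 1 A).filter fun a => Nat.lcm d e ∣ a).card : ℝ) ≤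
        A * (1 / (Nat.gcd d e : ℝ) * (1 / (d / Nat.gcd d e : ℕ) * (1 / (e / Nat.gcd d e : ℕ)))) := by
    intro d hd e he
    rw [mem_Icc] at hd he
    refine (card_mult_le A _).trans (le_of_eq ?_)
    obtain ⟨g, hg⟩ : ∃ g, g = Nat.gcd d e := ⟨_, rfl⟩
    have hg0 : 0 < g := by rw [hg]; exact Nat.gcd_pos_of_pos_left _ (by omega)
    obtain ⟨x, hx⟩ : g ∣ d := by rw [hg]; exact Nat.gcd_dvd_left _ _
    obtain ⟨y, hy⟩ : g ∣ e := by rw [hg]; exact Nat.gcd_dvd_right _ _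
    rw [← hg]
    have hx' : d / g = x := by rw [hx]; exact Nat.mul_div_cancel_left x hg0
    have hy' : e / g = y := by rw [hy]; exact Nat.mul_div_cancel_left y hg0
    have hx0 : x ≠ 0 := by rintro rfl; omega
    have hy0 : y ≠ 0 := by rintro rfl; omega
    have hl : Nat.lcm d e = g * x * y := by
      have h := Nat.gcd_mul_lcm d e
      rw [← hg] at h
      apply Nat.eq_of_mul_eq_mul_left hg0
      rw [h, hx, hy]; ring
    rw [hl, hx', hy']
    have : (g : ℝ) ≠ 0 := by exact_mod_cast hg0.ne'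
    have : (x : ℝ) ≠ 0 := by exact_mod_cast hx0
    have : (y : ℝ) ≠ 0 := by exact_mod_cast hy0
    push_cast
    field_simp
  calc ∑ d ∈ Icc 1 A, ∑ e ∈ Icc 1 A, (((Icc 1 A).filter fun a => Nat.lcm d e ∣ a).card : ℝ)
      ≤ ∑ d ∈ Icc 1 A, ∑ e ∈ Icc 1 A,
        A * (1 / (Nat.gcd d e : ℝ) * (1 / (d / Nat.gcd d e : ℕ) * (1 / (e / Nat.gcd d e : ℕ)))) :=
        sum_le_sum fun d hd => sum_le_sum fun e he => h3 d hd e he
    _ = ∑ p ∈ Icc 1 A ×ˢ Icc 1 A, A * (1 / (Nat.gcd p.1 p.2 : ℝ) *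
        (1 / (p.1 / Nat.gcd p.1 p.2 : ℕ) * (1 / (p.2 / Nat.gcd p.1 p.2 : ℕ)))) := by
        rw [sum_product]
    _ = ∑ t ∈ (Icc 1 A ×ˢ Icc 1 A).image (fun p : ℕ × ℕ =>
          (Nat.gcd p.1 p.2, p.1 / Nat.gcd p.1 p.2, p.2 / Nat.gcd p.1 p.2)),
          A * (1 / (t.1 : ℝ) * (1 / (t.2.1 : ℕ) * (1 / (t.2.2 : ℕ)))) := by
        rw [sum_image]
        rintro ⟨d, e⟩ hd ⟨d', e'⟩ hd' h
        simp only [Prod.mk.injEq] at h
        obtain ⟨h1, h2, h3⟩ := h
        have e1 : d = d' := by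
          rw [← Nat.div_mul_cancel (Nat.gcd_dvd_left d e), ← Nat.div_mul_cancel (Nat.gcd_dvd_left d' e'),
            h2, h1]
        have e2 : e = e' := by
          rw [← Nat.div_mul_cancel (Nat.gcd_dvd_right d e),
            ← Nat.div_mul_cancel (Nat.gcd_dvd_right d' e'), h3, h1]
        rw [e1, e2]
    _ ≤ ∑ t ∈ Icc 1 A ×ˢ (Icc 1 A ×ˢ Icc 1 A),
          A * (1 / (t.1 : ℝ) * (1 / (t.2.1 : ℕ) * (1 / (t.2.2 : ℕ)))) := by
        apply sum_le_sum_of_subset_of_nonneg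
        · intro t ht
          obtain ⟨⟨d, e⟩, hde, rfl⟩ := mem_image.mp ht
          rw [mem_product, mem_Icc, mem_Icc] at hde
          simp only at hde
          have hg0 : 0 < Nat.gcd d e := Nat.gcd_pos_of_pos_left _ (by omega)
          have h1 : Nat.gcd d e ≤ d := Nat.le_of_dvd (by omega) (Nat.gcd_dvd_left _ _)
          have h2 : Nat.gcd d e ≤ e := Nat.le_of_dvd (by omega) (Nat.gcd_dvd_right _ _)
          simp only [mem_product, mem_Icc]
          refine ⟨⟨hg0, by omega⟩, ⟨Nat.div_pos h1 hg0, (Nat.div_le_self _ _).trans hde.1.2⟩,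
            ⟨Nat.div_pos h2 hg0, (Nat.div_le_self _ _).trans hde.2.2⟩⟩
        · intro t _ _
          positivity
    _ = A * (∑ a ∈ Icc 1 A, (1 / (a : ℝ))) ^ 3 := by
        rw [← mul_sum, sum_product]
        have : ∀ x ∈ Icc 1 A, ∑ y ∈ Icc 1 A ×ˢ Icc 1 A,
            1 / (x : ℝ) * (1 / (y.1 : ℕ) * (1 / (y.2 : ℕ))) =
            1 / (x : ℝ) * (∑ a ∈ Icc 1 A, (1 / (a : ℝ))) ^ 2 := by
          intro x _
          rw [← mul_sum, sum_product, sq, sum_mul_sum]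
        rw [sum_congr rfl this, ← sum_mul]
        ring
    _ ≤ A * (1 + Real.log A) ^ 3 := by
        apply mul_le_mul_of_nonneg_left _ (Nat.cast_nonneg _)
        exact pow_le_pow_left₀ (sum_nonneg fun a _ => by positivity) (harm_le A) 3

end Vale.Agent.P017.PP
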