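import Vale.Agent.P017.H185P.Mean
import Vale.Agent.P017.H185P.SWc
import Vale.Agent.P017.H185P.Tau

namespace Vale.Agent.P017.PP

open Finset

/-- the weight `2^(-ω(n))` on odd squarefree numbers -/
noncomputable def hw (p : ℕ) : ℝ := if p = 2 then 0 else 1 / 2

theorem hw_nonneg (p : ℕ) : 0 ≤ hw p := by unfold hw; split <;> norm_num
theorem hw_le_one (p : ℕ) : hw p ≤ 1 := by unfold hw; split <;> norm_num
theorem hw_le_half (p : ℕ) : hw p ≤ 1 / 2 := by unfold hw; split <;> norm_num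

/-- from the mean value lemma -/
theorem mean_of_exp {h : ℕ → ℝ} (h0 : ∀ p, 0 ≤ h p) (h1 : ∀ p, h p ≤ 1) {z : ℕ} (hz : 2 ≤ z)
    {θ C : ℝ} (hS : ∑ p ∈ (Icc 1 z).filter Nat.Prime, h p / p ≤ θ * Real.log (Real.log z) + C) :
    ∑ n ∈ Icc 1 z, mf h n ≤ 3 * Real.exp C * z * (Real.log z) ^ (θ - 1) := by
  have hz2 : (2 : ℝ) ≤ z := by exact_mod_cast hz
  have hlog : 0 < Real.log z := Real.log_pos (by linarith)
  have h2 := mean_le h0 h1 z
  have h3 := (sum_mf_div_le h0 z).trans (Real.exp_le_exp.mpr hS)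
  have h4 : Real.exp (θ * Real.log (Real.log z) + C) = Real.exp C * (Real.log z) ^ θ := by
    rw [Real.exp_add, Real.rpow_def_of_pos hlog]
    rw [mul_comm (Real.log (Real.log z)) θ]; ring
  rw [h4] at h3
  have h5 : Real.log z * ∑ n ∈ Icc 1 z, mf h n ≤ 3 * z * (Real.exp C * (Real.log z) ^ θ) :=
    h2.trans (by gcongr)
  have h6 : (Real.log z) ^ θ = (Real.log z) ^ (θ - 1) * Real.log z := by
    rw [← Real.rpow_add_one hlog.ne']; congr 1; ring
  rw [h6] at h5
  have h7 : Real.log z * ∑ n ∈ Icc 1 z, mf h n ≤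
      Real.log z * (3 * Real.exp C * z * (Real.log z) ^ (θ - 1)) := by
    calc _ ≤ _ := h5
      _ = _ := by ring
  exact le_of_mul_le_mul_left h7 hlog

/-- mean value of `2^(-ω(n))` -/
theorem W_bound : ∃ K : ℝ, 0 < K ∧ ∀ z : ℕ, 2 ≤ z →
    ∑ n ∈ Icc 1 z, mf hw n ≤ K * z * (Real.log z) ^ (-(1 / 2) : ℝ) := by
  obtain ⟨C, hC, h⟩ := sum_inv_prime_le
  refine ⟨3 * Real.exp (C / 2), by positivity, fun z hz => ?_⟩
  have h1 := mean_of_exp hw_nonneg hw_le_one hz (θ := 1 / 2) (C := C / 2) (by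
    calc ∑ p ∈ (Icc 1 z).filter Nat.Prime, hw p / p
        ≤ ∑ p ∈ (Icc 1 z).filter Nat.Prime, (1 / 2) * (1 / (p : ℝ)) := by
          refine sum_le_sum fun p _ => ?_
          rw [mul_one_div]
          exact div_le_div_of_nonneg_right (hw_le_half p) (Nat.cast_nonneg _)
      _ = (1 / 2) * ∑ p ∈ (Icc 1 z).filter Nat.Prime, 1 / (p : ℝ) := by rw [mul_sum]
      _ ≤ (1 / 2) * (Real.log (Real.log z) + C) := by
          exact mul_le_mul_of_nonneg_left (h z hz) (by norm_num)
      _ = _ := by ring)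
  norm_num at h1 ⊢
  exact h1

/-- the indicator of the primes with `g(p) = 1` -/
noncomputable def hg (g : ℕ → ℤ) (p : ℕ) : ℝ := if g p = 1 then 1 else 0

theorem hg_nonneg (g : ℕ → ℤ) (p : ℕ) : 0 ≤ hg g p := by unfold hg; split <;> norm_num
theorem hg_le_one (g : ℕ → ℤ) (p : ℕ) : hg g p ≤ 1 := by unfold hg; split <;> norm_num

theorem harm_between {a b : ℕ} (ha : 1 ≤ a) (hab : a ≤ b) :
    ∑ j ∈ Icc a b, (1 / (j : ℝ)) ≤ 1 + Real.log b - Real.log a := by
  have h1 := harm_le b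
  have h2 : Real.log a ≤ ∑ j ∈ Icc 1 (a - 1), (1 / (j : ℝ)) := by
    have := log_add_one_le_harmonic (a - 1)
    rw [harmonic_eq_sum_Icc] at this
    have e : ((a - 1 : ℕ) : ℝ) + 1 = a := by
      rw [Nat.cast_sub ha]; push_cast; ring
    push_cast at this
    rw [Nat.cast_sub ha] at this
    push_cast at this
    have e2 : (a : ℝ) - 1 + 1 = a := by ring
    rw [e2] at this
    simpa [one_div] using this
  have h3 : ∑ j ∈ Icc 1 b, (1 / (j : ℝ)) = ∑ j ∈ Icc 1 (a - 1), (1 / (j : ℝ)) +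
      ∑ j ∈ Icc a b, (1 / (j : ℝ)) := by
    rw [← sum_union]
    · congr 1
      ext j
      simp only [mem_Icc, mem_union]
      omega
    · rw [disjoint_left]
      intro j h1 h2
      rw [mem_Icc] at h1 h2
      omega
  linarith

/-- primes with `g(p) = 1`, dyadic blocks -/
theorem sum_block_le {g : ℕ → ℤ} {j : ℕ} (hj : 1 ≤ j)
    (h : ∑ p ∈ (Ioc (2 ^ j) (2 * 2 ^ j)).filter (fun p => p.Prime ∧ g p = 1), Real.log p ≤
      11 / 20 * ((2 ^ j : ℕ) : ℝ)) :
    ∑ p ∈ (Ioc (2 ^ j) (2 * 2 ^ j)).filter (fun p => p.Prime ∧ g p = 1), (1 / (p : ℝ)) ≤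
      4 / 5 * (1 / (j : ℝ)) := by
  have hj0 : (0 : ℝ) < j := by exact_mod_cast hj
  have hl2 : (0.6931471803 : ℝ) < Real.log 2 := Real.log_two_gt_d9
  have hpow : (0 : ℝ) < (2 : ℝ) ^ j := by positivity
  have h1 : ∀ p ∈ (Ioc (2 ^ j) (2 * 2 ^ j)).filter (fun p => p.Prime ∧ g p = 1),
      (1 / (p : ℝ)) ≤ Real.log p * (1 / ((2 : ℝ) ^ j * (j * Real.log 2))) := by
    intro p hp
    rw [mem_filter, mem_Ioc] at hp
    have hp1 : (2 : ℝ) ^ j ≤ p := by exact_mod_cast hp.1.1.le
    have hlog : (j : ℝ) * Real.log 2 ≤ Real.log p := by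
      rw [← Real.log_pow]
      exact Real.log_le_log hpow hp1
    rw [mul_one_div, div_le_div_iff₀ (by linarith) (by positivity), one_mul]
    calc (2 : ℝ) ^ j * (j * Real.log 2) ≤ p * Real.log p := by gcongr
      _ = Real.log p * p := by ring
  calc ∑ p ∈ (Ioc (2 ^ j) (2 * 2 ^ j)).filter (fun p => p.Prime ∧ g p = 1), (1 / (p : ℝ))
      ≤ ∑ p ∈ (Ioc (2 ^ j) (2 * 2 ^ j)).filter (fun p => p.Prime ∧ g p = 1),
        Real.log p * (1 / ((2 : ℝ) ^ j * (j * Real.log 2))) := sum_le_sum h1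
    _ = (∑ p ∈ (Ioc (2 ^ j) (2 * 2 ^ j)).filter (fun p => p.Prime ∧ g p = 1), Real.log p) *
        (1 / ((2 : ℝ) ^ j * (j * Real.log 2))) := by rw [sum_mul]
    _ ≤ 11 / 20 * ((2 ^ j : ℕ) : ℝ) * (1 / ((2 : ℝ) ^ j * (j * Real.log 2))) := by gcongr
    _ = 11 / 20 / Real.log 2 * (1 / (j : ℝ)) := by
        push_cast; field_simp
    _ ≤ 4 / 5 * (1 / (j : ℝ)) := by
        apply mul_le_mul_of_nonneg_right _ (by positivity)
        rw [div_le_iff₀ (by linarith)]
        linarith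

/-- **Numbers composed of primes with `g(p) = 1`.** -/
theorem H_bound (hSW : SWH) {A : ℝ} (hA : 0 < A) : ∃ K : ℝ, ∃ z₀ : ℕ, 0 < K ∧ ∀ z : ℕ, z₀ ≤ z →
    ∀ q : ℕ, 1 ≤ q → (q : ℝ) ≤ (Real.log z) ^ A → ∀ g : ℕ → ℤ,
    (∀ m n, m ≡ n [MOD q] → g m = g n) →
    (∀ n, g n = 0 ∨ g n = 1 ∨ g n = -1) → (∀ n, ¬ Nat.Coprime n q → g n = 0) →
    ∑ n ∈ range q, g n = 0 →
    ∑ n ∈ Icc 1 z, mf (hg g) n ≤ K * z * (Real.log z) ^ (-(1 / 10) : ℝ) := by
  obtain ⟨C, hC, hM⟩ := sum_inv_prime_le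
  obtain ⟨y₀, hy₀⟩ := sw_half hSW (A := 2 * A + 1) (by linarith)
  refine ⟨3 * Real.exp (C + 4), 2 ^ (y₀ ^ 2 + 100), by positivity, ?_⟩
  intro z hz q hq hqz g hper hg3 hcop h0
  obtain ⟨J, hJ⟩ : ∃ J, J = Nat.log 2 z := ⟨_, rfl⟩
  have hz0 : z ≠ 0 := by
    rintro rfl
    have := Nat.pow_pos (n := y₀ ^ 2 + 100) (show 0 < 2 by norm_num)
    omega
  have hJ1 : 2 ^ J ≤ z := by rw [hJ]; exact Nat.pow_log_le_self 2 hz0
  have hJ2 : z < 2 ^ (J + 1) := by rw [hJ]; exact Nat.lt_pow_succ_log_self (by norm_num) z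
  have hJ3 : y₀ ^ 2 + 100 ≤ J := by
    rw [hJ]; exact Nat.le_log_of_pow_le (by norm_num) hz
  obtain ⟨s, hs⟩ : ∃ s, s = Nat.sqrt (J + 1) := ⟨_, rfl⟩
  have hs1 : s * s ≤ J + 1 := by rw [hs]; exact Nat.sqrt_le _
  have hs2 : J + 1 < (s + 1) * (s + 1) := by rw [hs]; exact Nat.lt_succ_sqrt _
  obtain ⟨j₀, hj₀⟩ : ∃ j₀, j₀ = 2 * (s + 1) := ⟨_, rfl⟩
  have hs9 : 9 ≤ s := by nlinarith
  have hy₀s : y₀ ≤ s := by nlinarith
  have hj₀J : j₀ ≤ J := by nlinarith
  have hl2 : (0.6931471803 : ℝ) < Real.log 2 := Real.log_two_gt_d9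
  have hl2' : Real.log 2 < (0.6931471808 : ℝ) := Real.log_two_lt_d9
  have hzR : (0 : ℝ) < z := by exact_mod_cast Nat.pos_of_ne_zero hz0
  have hlogz1 : J * Real.log 2 ≤ Real.log z := by
    rw [← Real.log_pow]
    exact Real.log_le_log (by positivity) (by exact_mod_cast hJ1)
  have hlogz2 : Real.log z ≤ (J + 1) * Real.log 2 := by
    have : Real.log z ≤ Real.log ((2 : ℝ) ^ (J + 1)) :=
      Real.log_le_log hzR (by exact_mod_cast hJ2.le)
    rw [Real.log_pow] at this
    push_cast at this; exact this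
  have hJR : (100 : ℝ) ≤ J := by exact_mod_cast (by omega : 100 ≤ J)
  have hlogz : 0 < Real.log z := by nlinarith
  -- the blocks
  have hblock : ∀ j ∈ Icc j₀ J, ∑ p ∈ (Ioc (2 ^ j) (2 * 2 ^ j)).filter (fun p => p.Prime ∧ g p = 1),
      (1 / (p : ℝ)) ≤ 4 / 5 * (1 / (j : ℝ)) := by
    intro j hj
    rw [mem_Icc] at hj
    apply sum_block_le (by omega)
    have h2j : j ≤ 2 ^ j := Nat.lt_two_pow_self.le
    refine hy₀ (2 ^ j) (by omega) q hq ?_ g hper hg3 hcop h0
    refine hqz.trans ?_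
    have e1 : Real.log ((2 ^ j : ℕ) : ℝ) = j * Real.log 2 := by
      push_cast; rw [Real.log_pow]
    rw [e1]
    have hjR : (2 * (s + 1) : ℝ) ≤ j := by
      have : 2 * (s + 1) ≤ j := by omega
      exact_mod_cast this
    have hsR : ((J : ℝ) + 1) ≤ (s + 1) * (s + 1) := by exact_mod_cast hs2.le
    have hs9R : (9 : ℝ) ≤ s := by exact_mod_cast hs9
    have e2 : Real.log z ≤ (j * Real.log 2) ^ 2 := by
      have e3 : (2 * ((s : ℝ) + 1)) * 0.69 ≤ j * Real.log 2 := by
        apply mul_le_mul hjR (by linarith) (by norm_num) (by linarith)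
      have e4 : ((2 * ((s : ℝ) + 1)) * 0.69) ^ 2 ≤ (j * Real.log 2) ^ 2 :=
        pow_le_pow_left₀ (by positivity) e3 2
      nlinarith
    have e5 : (1 : ℝ) ≤ j * Real.log 2 := by nlinarith
    calc (Real.log z) ^ A ≤ ((j * Real.log 2) ^ 2) ^ A :=
          Real.rpow_le_rpow hlogz.le e2 hA.le
      _ = (j * Real.log 2) ^ (2 * A) := by
          rw [← Real.rpow_natCast, ← Real.rpow_mul (by linarith)]; norm_num
      _ ≤ (j * Real.log 2) ^ (2 * A + 1) := Real.rpow_le_rpow_of_exponent_le e5 (by linarith)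
  -- the sum over primes
  have hsum : ∑ p ∈ (Icc 1 z).filter Nat.Prime, hg g p / p ≤
      9 / 10 * Real.log (Real.log z) + (C + 4) := by
    have a1 : ∑ p ∈ (Icc 1 z).filter Nat.Prime, hg g p / p ≤
        ∑ p ∈ (Icc 1 (2 ^ j₀)).filter Nat.Prime, (1 / (p : ℝ)) +
        ∑ j ∈ Icc j₀ J, ∑ p ∈ (Ioc (2 ^ j) (2 * 2 ^ j)).filter (fun p => p.Prime ∧ g p = 1),
          (1 / (p : ℝ)) := by
      have b1 : ∑ p ∈ (Icc 1 z).filter Nat.Prime, hg g p / p =
          ∑ p ∈ (Icc 1 z).filter (fun p => p.Prime ∧ g p = 1), (1 / (p : ℝ)) := by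
        rw [sum_filter, sum_filter]
        refine sum_congr rfl fun p _ => ?_
        unfold hg
        by_cases hp : p.Prime <;> by_cases h1 : g p = 1 <;> simp [hp, h1]
      rw [b1, ← sum_biUnion]
      · rw [← sum_union_inter]
        refine le_trans (b := ∑ p ∈ (Icc 1 (2 ^ j₀)).filter Nat.Prime ∪ (Icc j₀ J).biUnion
            (fun j => (Ioc (2 ^ j) (2 * 2 ^ j)).filter (fun p => p.Prime ∧ g p = 1)), (1 / (p : ℝ))) ?_ ?_
        · apply sum_le_sum_of_subset_of_nonneg
          · intro p hp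
            rw [mem_filter, mem_Icc] at hp
            rw [mem_union]
            by_cases hpj : p ≤ 2 ^ j₀
            · left; rw [mem_filter, mem_Icc]; exact ⟨⟨hp.1.1, hpj⟩, hp.2.1⟩
            · right
              rw [mem_biUnion]
              push Not at hpj
              have hp0 : p - 1 ≠ 0 := by
                have := hp.2.1.two_le
                omega
              refine ⟨Nat.log 2 (p - 1), ?_, ?_⟩
              · rw [mem_Icc]
                constructor
                · exact Nat.le_log_of_pow_le (by norm_num) (by omega)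
                · rw [hJ]; exact Nat.log_mono_right (by omega)
              · rw [mem_filter, mem_Ioc]
                refine ⟨⟨?_, ?_⟩, hp.2⟩
                · have := Nat.pow_log_le_self 2 hp0
                  omega
                · have := Nat.lt_pow_succ_log_self (b := 2) (by norm_num) (p - 1)
                  rw [pow_succ] at this
                  omega
          · intro p _ _; positivity
        · exact le_add_of_nonneg_right (sum_nonneg fun p _ => by positivity)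
      · intro j hj j' hj' hne
        rw [Function.onFun, disjoint_left]
        intro p hp hp'
        rw [mem_filter, mem_Ioc] at hp hp'
        apply hne
        rcases lt_trichotomy j j' with h | h | h
        · exfalso
          have := Nat.pow_le_pow_right (n := 2) (by norm_num) (show j + 1 ≤ j' from h)
          rw [pow_succ] at this
          omega
        · exact h
        · exfalso
          have := Nat.pow_le_pow_right (n := 2) (by norm_num) (show j' + 1 ≤ j from h)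
          rw [pow_succ] at this
          omega
    have a2 : ∑ p ∈ (Icc 1 (2 ^ j₀)).filter Nat.Prime, (1 / (p : ℝ)) ≤ Real.log j₀ + C := by
      have h2 : 2 ≤ 2 ^ j₀ := by
        calc 2 = 2 ^ 1 := by norm_num
          _ ≤ 2 ^ j₀ := Nat.pow_le_pow_right (by norm_num) (by omega)
      refine (hM (2 ^ j₀) h2).trans ?_
      have hj0R : (0 : ℝ) < j₀ := by exact_mod_cast (by omega : 0 < j₀)
      have : Real.log (Real.log ((2 ^ j₀ : ℕ) : ℝ)) ≤ Real.log j₀ := by
        push_cast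
        rw [Real.log_pow]
        apply Real.log_le_log (by positivity)
        nlinarith
      linarith
    have a3 : ∑ j ∈ Icc j₀ J, ∑ p ∈ (Ioc (2 ^ j) (2 * 2 ^ j)).filter (fun p => p.Prime ∧ g p = 1),
          (1 / (p : ℝ)) ≤ 4 / 5 * (1 + Real.log J - Real.log j₀) := by
      refine (sum_le_sum hblock).trans ?_
      rw [← mul_sum]
      exact mul_le_mul_of_nonneg_left (harm_between (by omega) hj₀J) (by norm_num)
    have a4 : Real.log j₀ ≤ 2 + 1 / 2 * Real.log J := by
      have hJ0 : (0 : ℝ) < J := by linarith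
      have hj6 : (j₀ : ℝ) ^ 2 ≤ 49 * J := by
        have : j₀ ^ 2 ≤ 49 * J := by rw [hj₀]; nlinarith
        exact_mod_cast this
      have hj0R : (0 : ℝ) < j₀ := by exact_mod_cast (by omega : 0 < j₀)
      have h1 : Real.log ((j₀ : ℝ) ^ 2) ≤ Real.log (49 * J) := Real.log_le_log (by positivity) hj6
      rw [Real.log_pow, Real.log_mul (by norm_num) hJ0.ne'] at h1
      have h2 : Real.log 49 ≤ 4 := by
        have : (49 : ℝ) ≤ Real.exp 4 := by
          have := Real.exp_one_gt_d9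
          have h3 : Real.exp 4 = Real.exp 1 ^ 4 := by rw [← Real.exp_nat_mul]; norm_num
          rw [h3]
          calc (49 : ℝ) ≤ 2.7 ^ 4 := by norm_num
            _ ≤ _ := pow_le_pow_left₀ (by norm_num) (by linarith) 4
        calc Real.log 49 ≤ Real.log (Real.exp 4) := Real.log_le_log (by norm_num) this
          _ = 4 := Real.log_exp 4
      push_cast at h1
      linarith
    have a5 : Real.log J ≤ Real.log (Real.log z) + 1 := by
      have h1 : (J : ℝ) ≤ Real.log z * Real.exp 1 := by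
        have he := Real.exp_one_gt_d9
        have hle : (1 : ℝ) ≤ Real.log 2 * Real.exp 1 := by nlinarith
        calc (J : ℝ) = J * 1 := by ring
          _ ≤ J * (Real.log 2 * Real.exp 1) := by gcongr
          _ = J * Real.log 2 * Real.exp 1 := by ring
          _ ≤ Real.log z * Real.exp 1 := by gcongr
      calc Real.log J ≤ Real.log (Real.log z * Real.exp 1) := Real.log_le_log (by linarith) h1
        _ = _ := by rw [Real.log_mul hlogz.ne' (Real.exp_pos 1).ne', Real.log_exp]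
    linarith
  have := mean_of_exp (hg_nonneg g) (hg_le_one g) (z := z) (by
    have := Nat.pow_le_pow_right (n := 2) (by norm_num) (show 1 ≤ J by omega)
    omega) hsum
  norm_num at this ⊢
  exact this

end Vale.Agent.P017.PP
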