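import Vale.Agent.P017.H185P.BL

namespace Vale.Agent.P017.PP

open Finset

/-- one block of the hyperbola -/
theorem hyp_block {α γ : ℕ → ℝ} (hα : ∀ n, |α n| ≤ 1) (hγ : ∀ n, |γ n| ≤ 1)
    (hαs : ∀ n, α n ≠ 0 → Squarefree n ∧ Odd n) (hγs : ∀ n, γ n ≠ 0 → Squarefree n ∧ Odd n)
    {z L H x : ℕ} {Λ K : ℝ} (hH : 1 ≤ H) (hHL : H ≤ L) (hLx : L ≤ x) (hΛ : 1 + Real.log z ≤ Λ)
    (hK : 0 < K) (hL : 6 * Λ ^ 9 * K ^ 6 ≤ L) :
    |∑ a ∈ Ioc x (x + x / H + 1), ∑ c ∈ Ioc L (z / a), α a * γ c * (jacobiSym a c : ℝ)| ≤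
      z / K + 6 * z / H ^ 2 := by
  have hx0 : 0 < x := by omega
  have hzK : (0 : ℝ) ≤ z / K := by positivity
  by_cases hzx : z / x ≤ L
  · have : ∑ a ∈ Ioc x (x + x / H + 1), ∑ c ∈ Ioc L (z / a), α a * γ c * (jacobiSym a c : ℝ) = 0 := by
      apply sum_eq_zero
      intro a ha
      rw [mem_Ioc] at ha
      have : z / a ≤ L := (Nat.div_le_div_left ha.1.le hx0).trans hzx
      rw [Ioc_eq_empty (by omega), sum_empty]
    rw [this, abs_zero]
    positivity
  push Not at hzx
  obtain ⟨x', hx'⟩ : ∃ x', x' = x + x / H + 1 := ⟨_, rfl⟩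
  obtain ⟨C, hC⟩ : ∃ C, C = z / x' := ⟨_, rfl⟩
  rw [← hx']
  have hxltx' : x < x' := by rw [hx']; generalize x / H = t; omega
  have hx'0 : 0 < x' := by omega
  have hHR : (1 : ℝ) ≤ H := by exact_mod_cast hH
  have hxR : (0 : ℝ) < x := by exact_mod_cast hx0
  have hx'R : (0 : ℝ) < x' := by exact_mod_cast hx'0
  have hxx' : (x : ℝ) ≤ x' := by exact_mod_cast (by omega : x ≤ x')
  have hHx : (H : ℝ) ≤ x := by exact_mod_cast hHL.trans hLx
  have hdiff : (x' : ℝ) - x ≤ 2 * x / H := by
    have h1 : ((x / H : ℕ) : ℝ) ≤ x / H := Nat.cast_div_le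
    have h2 : (1 : ℝ) ≤ x / H := by rw [le_div_iff₀ (by linarith)]; linarith
    rw [hx']; push_cast
    have : 2 * (x : ℝ) / H = x / H + x / H := by ring
    linarith
  -- splitting
  have hsplit : ∀ a ∈ Ioc x x', ∑ c ∈ Ioc L (z / a), α a * γ c * (jacobiSym a c : ℝ) =
      ∑ c ∈ Ioc L C, α a * γ c * (jacobiSym a c : ℝ) +
        ∑ c ∈ Ioc (max L C) (z / a), α a * γ c * (jacobiSym a c : ℝ) := by
    intro a ha
    rw [mem_Ioc] at ha
    have hCa : C ≤ z / a := by rw [hC]; exact Nat.div_le_div_left ha.2 (by omega)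
    rw [← sum_union]
    · apply sum_congr _ fun _ _ => rfl
      ext c
      simp only [mem_Ioc, mem_union, max_lt_iff]
      omega
    · rw [disjoint_left]
      intro c h1 h2
      simp only [mem_Ioc, max_lt_iff] at h1 h2
      omega
  rw [sum_congr rfl hsplit, sum_add_distrib]
  -- the main part
  have hmain : |∑ a ∈ Ioc x x', ∑ c ∈ Ioc L C, α a * γ c * (jacobiSym a c : ℝ)| ≤ z / K := by
    by_cases hCL : C ≤ L
    · have : ∑ a ∈ Ioc x x', ∑ c ∈ Ioc L C, α a * γ c * (jacobiSym a c : ℝ) = 0 := by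
        apply sum_eq_zero
        intro a _
        rw [Ioc_eq_empty (by omega), sum_empty]
      rw [this, abs_zero]; exact hzK
    push Not at hCL
    have hC1 : 1 ≤ C := by omega
    have hx'z : x' ≤ z := by
      by_contra hcon
      push Not at hcon
      rw [hC, Nat.div_eq_of_lt hcon] at hC1
      omega
    have hCz : C ≤ z := by rw [hC]; exact Nat.div_le_self _ _
    have e1 : ∑ a ∈ Ioc x x', ∑ c ∈ Ioc L C, α a * γ c * (jacobiSym a c : ℝ) =
        ∑ a ∈ Icc 1 x', ∑ c ∈ Icc 1 C, (if x < a then α a else 0) * (if L < c then γ c else 0) *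
          (jacobiSym a c : ℝ) := by
      have f1 : Ioc x x' = (Icc 1 x').filter fun a => x < a := by
        ext a; simp only [mem_Ioc, mem_filter, mem_Icc]; omega
      have f2 : Ioc L C = (Icc 1 C).filter fun a => L < a := by
        ext a; simp only [mem_Ioc, mem_filter, mem_Icc]; omega
      rw [f1, f2, sum_filter]
      refine sum_congr rfl fun a _ => ?_
      by_cases h : x < a
      · rw [if_pos h, sum_filter, if_pos h]
        refine sum_congr rfl fun c _ => ?_
        by_cases h' : L < c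
        · rw [if_pos h', if_pos h']
        · rw [if_neg h', if_neg h']; ring
      · rw [if_neg h, if_neg h]
        simp
    rw [e1]
    have hb := BL (α := fun a => if x < a then α a else 0) (γ := fun c => if L < c then γ c else 0)
      (A := x') (C := C) (Λ := Λ) (K := K)
      (fun n => by split; exact hα n; simp)
      (fun n => by split; exact hγ n; simp)
      (fun n hn => by
        by_cases h : x < n
        · rw [if_pos h] at hn; exact hαs n hn
        · rw [if_neg h] at hn; exact absurd rfl hn)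
      (fun n hn => by
        by_cases h : L < n
        · rw [if_pos h] at hn; exact hγs n hn
        · rw [if_neg h] at hn; exact absurd rfl hn)
      (by omega) hC1
      (by
        have : Real.log x' ≤ Real.log z := Real.log_le_log hx'R (by exact_mod_cast hx'z)
        linarith)
      (by
        have : Real.log C ≤ Real.log z :=
          Real.log_le_log (by exact_mod_cast hC1) (by exact_mod_cast hCz)
        linarith)
      hK (hL.trans (by exact_mod_cast (by omega : L ≤ x')))
      (hL.trans (by exact_mod_cast hCL.le))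
    refine hb.trans ?_
    apply div_le_div_of_nonneg_right _ hK.le
    have : x' * C ≤ z := by rw [hC]; exact Nat.mul_div_le z x'
    exact_mod_cast this
  -- the rest
  have hrest : |∑ a ∈ Ioc x x', ∑ c ∈ Ioc (max L C) (z / a), α a * γ c * (jacobiSym a c : ℝ)| ≤
      6 * z / H ^ 2 := by
    have hzxR : (H : ℝ) ≤ z / x := by
      have h1 : (L : ℝ) ≤ ((z / x : ℕ) : ℝ) := by exact_mod_cast hzx.le
      have h2 : ((z / x : ℕ) : ℝ) ≤ z / x := Nat.cast_div_le
      have h3 : (H : ℝ) ≤ L := by exact_mod_cast hHL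
      linarith
    have hinner : ∀ a ∈ Ioc x x', |∑ c ∈ Ioc (max L C) (z / a), α a * γ c * (jacobiSym a c : ℝ)| ≤
        3 * z / (x * H) := by
      intro a ha
      rw [mem_Ioc] at ha
      calc |∑ c ∈ Ioc (max L C) (z / a), α a * γ c * (jacobiSym a c : ℝ)|
          ≤ ∑ c ∈ Ioc (max L C) (z / a), |α a * γ c * (jacobiSym a c : ℝ)| :=
            abs_sum_le_sum_abs _ _
        _ ≤ ∑ c ∈ Ioc (max L C) (z / a), (1 : ℝ) := by
            refine sum_le_sum fun c _ => ?_
            rw [abs_mul, abs_mul]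
            exact mul_le_one₀ (mul_le_one₀ (hα a) (abs_nonneg _) (hγ c)) (abs_nonneg _) (J_abs_le _ _)
        _ = ((Ioc (max L C) (z / a)).card : ℝ) := by simp
        _ ≤ ((Ioc C (z / x)).card : ℝ) := by
            have : (Ioc (max L C) (z / a)).card ≤ (Ioc C (z / x)).card := by
              apply card_le_card
              apply Ioc_subset_Ioc (le_max_right _ _)
              exact Nat.div_le_div_left ha.1.le hx0
            exact_mod_cast this
        _ = ((z / x : ℕ) : ℝ) - C := by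
            rw [Nat.card_Ioc, Nat.cast_sub]
            rw [hC]; exact Nat.div_le_div_left (by omega) hx0
        _ ≤ z / x - (z / x' - 1) := by
            have h1 : ((z / x : ℕ) : ℝ) ≤ z / x := Nat.cast_div_le
            have h2 : (z : ℝ) / x' < ((z / x' : ℕ) : ℝ) + 1 := by
              rw [div_lt_iff₀ hx'R]
              have := Nat.lt_succ_iff.mpr (le_refl (z / x'))
              have h3 : z < (z / x' + 1) * x' := by
                have := Nat.lt_mul_div_succ z hx'0
                linarith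
              exact_mod_cast h3
            rw [hC]; linarith
        _ = z * (x' - x) / (x * x') + 1 := by
            have := hxR.ne'
            have := hx'R.ne'
            field_simp
            ring
        _ ≤ z * (2 * x / H) / (x * x) + z / x / H := by
            apply add_le_add
            · apply div_le_div₀ (by positivity) _ (by positivity) (by gcongr)
              exact mul_le_mul_of_nonneg_left hdiff (Nat.cast_nonneg _)
            · rw [le_div_iff₀ (by linarith)]; linarith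
        _ = 3 * z / (x * H) := by
            have := hxR.ne'
            field_simp
            ring
    calc |∑ a ∈ Ioc x x', ∑ c ∈ Ioc (max L C) (z / a), α a * γ c * (jacobiSym a c : ℝ)|
        ≤ ∑ a ∈ Ioc x x', |∑ c ∈ Ioc (max L C) (z / a), α a * γ c * (jacobiSym a c : ℝ)| :=
          abs_sum_le_sum_abs _ _
      _ ≤ ∑ a ∈ Ioc x x', 3 * z / ((x : ℝ) * H) := sum_le_sum hinner
      _ = ((x' : ℝ) - x) * (3 * z / (x * H)) := by
          rw [sum_const, Nat.card_Ioc, nsmul_eq_mul, Nat.cast_sub (by omega)]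
      _ ≤ (2 * x / H) * (3 * z / (x * H)) := by
          apply mul_le_mul_of_nonneg_right hdiff (by positivity)
      _ = 6 * z / H ^ 2 := by
          have := hxR.ne'
          field_simp
          ring
  calc |_ + _| ≤ _ := abs_add_le _ _
    _ ≤ z / K + 6 * z / H ^ 2 := add_le_add hmain hrest

/-- break points -/
def bp (L H : ℕ) : ℕ → ℕ
  | 0 => L
  | n + 1 => bp L H n + bp L H n / H + 1

theorem bp_ge (L H n : ℕ) : L ≤ bp L H n := by
  induction n with
  | zero => exact le_rfl
  | succ n ih =>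
    show L ≤ bp L H n + bp L H n / H + 1
    generalize bp L H n / H = t
    omega

theorem bp_pow {L H : ℕ} (hL : 1 ≤ L) (hH : 1 ≤ H) (n : ℕ) :
    (1 + 1 / (H : ℝ)) ^ n ≤ bp L H n := by
  induction n with
  | zero => simp only [pow_zero, bp]; exact_mod_cast hL
  | succ n ih =>
    have h1 : (bp L H n : ℝ) / H < ((bp L H n / H : ℕ) : ℝ) + 1 := by
      rw [div_lt_iff₀ (by positivity)]
      have h3 := Nat.lt_mul_div_succ (bp L H n) (show 0 < H by omega)
      have h4 : bp L H n < (bp L H n / H + 1) * H := by linarith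
      exact_mod_cast h4
    have h2 : (bp L H (n + 1) : ℝ) = bp L H n + ((bp L H n / H : ℕ) : ℝ) + 1 := by
      show ((bp L H n + bp L H n / H + 1 : ℕ) : ℝ) = _
      push_cast; rfl
    rw [pow_succ, h2]
    calc (1 + 1 / (H : ℝ)) ^ n * (1 + 1 / H) ≤ bp L H n * (1 + 1 / H) := by gcongr
      _ = bp L H n + bp L H n / H := by ring
      _ ≤ _ := by linarith

theorem bp_large {L H z : ℕ} (hL : 1 ≤ L) (hH : 1 ≤ H) : z ≤ bp L H (H * (Nat.log 2 z + 1)) := by
  have h1 := bp_pow hL hH (H * (Nat.log 2 z + 1))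
  have hHR : (0 : ℝ) < H := by exact_mod_cast hH
  have h2 : (2 : ℝ) ≤ (1 + 1 / (H : ℝ)) ^ H := by
    have := one_add_mul_le_pow (a := 1 / (H : ℝ)) (by
      have : 0 < 1 / (H : ℝ) := by positivity
      linarith) H
    have e : 1 + (H : ℝ) * (1 / H) = 2 := by field_simp; norm_num
    linarith
  have h3 : (2 : ℝ) ^ (Nat.log 2 z + 1) ≤ bp L H (H * (Nat.log 2 z + 1)) := by
    refine le_trans ?_ h1
    rw [pow_mul]
    exact pow_le_pow_left₀ (by norm_num) h2 _
  have h4 : z < 2 ^ (Nat.log 2 z + 1) := Nat.lt_pow_succ_log_self (by norm_num) z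
  have h5 : 2 ^ (Nat.log 2 z + 1) ≤ bp L H (H * (Nat.log 2 z + 1)) := by exact_mod_cast h3
  omega

theorem sum_bp (L H : ℕ) (F : ℕ → ℝ) (n : ℕ) :
    ∑ a ∈ Ioc L (bp L H n), F a =
      ∑ j ∈ range n, ∑ a ∈ Ioc (bp L H j) (bp L H j + bp L H j / H + 1), F a := by
  induction n with
  | zero => simp [bp]
  | succ n ih =>
    rw [sum_range_succ, ← ih]
    show ∑ a ∈ Ioc L (bp L H n + bp L H n / H + 1), F a = _
    rw [← sum_union]
    · apply sum_congr _ fun _ _ => rfl
      have := bp_ge L H n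
      ext a
      simp only [mem_Ioc, mem_union]
      generalize bp L H n / H = t at *
      omega
    · rw [disjoint_left]
      intro a h1 h2
      simp only [mem_Ioc] at h1 h2
      omega

/-- **Bilinear sums under the hyperbola.** -/
theorem hyp_bilinear {α γ : ℕ → ℝ} (hα : ∀ n, |α n| ≤ 1) (hγ : ∀ n, |γ n| ≤ 1)
    (hαs : ∀ n, α n ≠ 0 → Squarefree n ∧ Odd n) (hγs : ∀ n, γ n ≠ 0 → Squarefree n ∧ Odd n)
    {z L H : ℕ} {Λ K : ℝ} (hH : 1 ≤ H) (hHL : H ≤ L) (hΛ : 1 + Real.log z ≤ Λ)
    (hK : 0 < K) (hL : 6 * Λ ^ 9 * K ^ 6 ≤ L) :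
    |∑ a ∈ Ioc L z, ∑ c ∈ Ioc L (z / a), α a * γ c * (jacobiSym a c : ℝ)| ≤
      H * (Nat.log 2 z + 1) * (z / K + 6 * z / H ^ 2) := by
  obtain ⟨F, hF⟩ : ∃ F : ℕ → ℝ, F = fun a => ∑ c ∈ Ioc L (z / a), α a * γ c * (jacobiSym a c : ℝ) :=
    ⟨_, rfl⟩
  obtain ⟨n, hn⟩ : ∃ n, n = H * (Nat.log 2 z + 1) := ⟨_, rfl⟩
  have hL1 : 1 ≤ L := by omega
  have h1 : ∑ a ∈ Ioc L z, F a = ∑ a ∈ Ioc L (bp L H n), F a := by
    apply sum_subset
    · apply Ioc_subset_Ioc_right
      rw [hn]; exact bp_large hL1 hH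
    · intro a ha ha'
      rw [mem_Ioc] at ha ha'
      have hza : z < a := by
        by_contra hcon
        push Not at hcon
        exact ha' ⟨ha.1, hcon⟩
      rw [hF]
      dsimp only
      rw [Nat.div_eq_of_lt hza, Ioc_eq_empty (by omega), sum_empty]
  have h2 : ∑ a ∈ Ioc L z, ∑ c ∈ Ioc L (z / a), α a * γ c * (jacobiSym a c : ℝ) =
      ∑ a ∈ Ioc L z, F a := by rw [hF]
  rw [h2, h1, sum_bp]
  calc |∑ j ∈ range n, ∑ a ∈ Ioc (bp L H j) (bp L H j + bp L H j / H + 1), F a|
      ≤ ∑ j ∈ range n, |∑ a ∈ Ioc (bp L H j) (bp L H j + bp L H j / H + 1), F a| :=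
        abs_sum_le_sum_abs _ _
    _ ≤ ∑ j ∈ range n, ((z : ℝ) / K + 6 * z / H ^ 2) := by
        refine sum_le_sum fun j _ => ?_
        rw [hF]
        exact hyp_block hα hγ hαs hγs hH hHL (bp_ge L H j) hΛ hK hL
    _ = _ := by
        rw [sum_const, card_range, nsmul_eq_mul, hn]
        push_cast; ring

end Vale.Agent.P017.PP
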