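import Vale.Agent.P017.H185P.H

namespace Vale.Agent.P017.PP

open Finset

theorem sum_divisors_sqfree {n : ℕ} (hn : Squarefree n) {χ : ℕ → ℝ} (h1 : χ 1 = 1)
    (hmul : ∀ m n, m ≠ 0 → n ≠ 0 → χ (m * n) = χ m * χ n) :
    ∑ d ∈ n.divisors, χ d = ∏ p ∈ n.primeFactors, (1 + χ p) := by
  let f : ArithmeticFunction ℝ := ⟨fun n => if n = 0 then 0 else χ n, by simp⟩
  have hf : f.IsMultiplicative := by
    refine ⟨?_, ?_⟩
    · show (if (1 : ℕ) = 0 then (0 : ℝ) else χ 1) = 1
      rw [if_neg one_ne_zero, h1]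
    · intro m n _
      show (if m * n = 0 then (0 : ℝ) else χ (m * n)) =
        (if m = 0 then (0 : ℝ) else χ m) * (if n = 0 then (0 : ℝ) else χ n)
      by_cases hm : m = 0
      · simp [hm]
      · by_cases hn : n = 0
        · simp [hn]
        · rw [if_neg (mul_ne_zero hm hn), if_neg hm, if_neg hn, hmul m n hm hn]
  have h := hf.prodPrimeFactors_one_add_of_squarefree hn
  have e1 : ∀ d ∈ n.divisors, f d = χ d := by
    intro d hd
    show (if d = 0 then (0 : ℝ) else χ d) = χ d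
    rw [if_neg (Nat.pos_of_mem_divisors hd).ne']
  have e2 : ∀ p ∈ n.primeFactors, (1 + f p) = 1 + χ p := by
    intro p hp
    show 1 + (if p = 0 then (0 : ℝ) else χ p) = 1 + χ p
    rw [if_neg (Nat.prime_of_mem_primeFactors hp).ne_zero]
  rw [← sum_congr rfl e1, ← h]
  exact prod_congr rfl e2

/-- the weight `2^(-ω(n))` on odd squarefree integers -/
noncomputable def wt (n : ℕ) : ℝ := mf hw n

theorem wt_nonneg (n : ℕ) : 0 ≤ wt n := mf_nonneg hw_nonneg n
theorem wt_le_one (n : ℕ) : wt n ≤ 1 := mf_le_one hw_nonneg hw_le_one n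

theorem wt_eq {n : ℕ} (hn : Squarefree n) (ho : Odd n) :
    wt n = ∏ _p ∈ n.primeFactors, (1 / 2 : ℝ) := by
  unfold wt mf
  rw [if_pos hn]
  refine prod_congr rfl fun p hp => ?_
  unfold hw
  rw [if_neg]
  rintro rfl
  exact (Nat.not_even_iff_odd.mpr ho) (even_iff_two_dvd.mpr (Nat.dvd_of_mem_primeFactors hp))

theorem wt_ne_zero {n : ℕ} (h : wt n ≠ 0) : Squarefree n ∧ Odd n := by
  unfold wt mf at h
  by_cases hs : Squarefree n
  · refine ⟨hs, ?_⟩
    rw [if_pos hs] at h
    rw [← Nat.not_even_iff_odd]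
    intro he
    apply h
    apply prod_eq_zero (i := 2)
    · rw [Nat.mem_primeFactors]
      exact ⟨Nat.prime_two, even_iff_two_dvd.mp he, hs.ne_zero⟩
    · unfold hw; rw [if_pos rfl]
  · rw [if_neg hs] at h; exact absurd rfl h

theorem wt_one : wt 1 = 1 := by
  rw [wt_eq squarefree_one odd_one]; simp

theorem wt_mul {m n : ℕ} (hmn : Squarefree (m * n)) : wt (m * n) = wt m * wt n := mf_mul hmn

/-- expansion of the local conditions -/
theorem wt_mul_sum {n : ℕ} (hn : Squarefree n) (ho : Odd n) {χ : ℕ → ℝ} (h1 : χ 1 = 1)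
    (hmul : ∀ m n, m ≠ 0 → n ≠ 0 → χ (m * n) = χ m * χ n) :
    wt n * ∑ d ∈ n.divisors, χ d = ∏ p ∈ n.primeFactors, ((1 + χ p) / 2) := by
  rw [sum_divisors_sqfree hn h1 hmul, wt_eq hn ho, ← prod_mul_distrib]
  exact prod_congr rfl fun p _ => by ring

/-- all local conditions hold -/
noncomputable def allp (g : ℕ → ℤ) (n : ℕ) : ℝ := by
  classical exact if ∀ p ∈ n.primeFactors, g p = 1 then 1 else 0

theorem allp_eq_prod {g : ℕ → ℤ} {n : ℕ} (h : ∀ p ∈ n.primeFactors, g p = 1 ∨ g p = -1) :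
    allp g n = ∏ p ∈ n.primeFactors, ((1 + (g p : ℝ)) / 2) := by
  classical
  unfold allp
  split
  next hall =>
    rw [prod_congr rfl (g := fun _ => (1 : ℝ))]
    · simp
    · intro p hp
      rw [hall p hp]; norm_num
  next hall =>
    push Not at hall
    obtain ⟨p, hp, hne⟩ := hall
    symm
    apply prod_eq_zero hp
    rcases h p hp with h | h
    · exact absurd h hne
    · rw [h]; norm_num

theorem allp_le_mf (g : ℕ → ℤ) {n : ℕ} (hn : Squarefree n) : allp g n = mf (hg g) n := by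
  classical
  unfold allp mf
  rw [if_pos hn]
  split
  next hall =>
    symm
    apply prod_eq_one
    intro p hp
    unfold hg; rw [if_pos (hall p hp)]
  next hall =>
    push Not at hall
    obtain ⟨p, hp, hne⟩ := hall
    symm
    apply prod_eq_zero hp
    unfold hg; rw [if_neg hne]

theorem allp_nonneg (g : ℕ → ℤ) (n : ℕ) : 0 ≤ allp g n := by
  unfold allp; split <;> norm_num

theorem allp_le_one (g : ℕ → ℤ) (n : ℕ) : allp g n ≤ 1 := by
  unfold allp; split <;> norm_num

/-- symbol `(a/·)` on odd integers, zero on even ones -/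
noncomputable def gu (a n : ℕ) : ℤ := if Odd n then jacobiSym a n else 0

/-- symbol `(·/c)` -/
noncomputable def gl (c n : ℕ) : ℤ := jacobiSym n c

theorem gu_trich (a n : ℕ) : gu a n = 0 ∨ gu a n = 1 ∨ gu a n = -1 := by
  unfold gu
  split
  · rcases jacobiSym.trichotomy a n with h | h | h
    · exact Or.inl h
    · exact Or.inr (Or.inl h)
    · exact Or.inr (Or.inr h)
  · exact Or.inl rfl

theorem gl_trich (c n : ℕ) : gl c n = 0 ∨ gl c n = 1 ∨ gl c n = -1 := by
  unfold gl
  rcases jacobiSym.trichotomy n c with h | h | h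
  · exact Or.inl h
  · exact Or.inr (Or.inl h)
  · exact Or.inr (Or.inr h)

theorem gu_per (a : ℕ) : ∀ m n, m ≡ n [MOD 4 * a] → gu a m = gu a n := by
  intro m n hmn
  have h2 : m ≡ n [MOD 2] := hmn.of_dvd ⟨2 * a, by ring⟩
  have hodd : Odd m ↔ Odd n := by rw [Nat.odd_iff, Nat.odd_iff, h2]
  unfold gu
  by_cases hm : Odd m
  · have hn := hodd.mp hm
    rw [if_pos hm, if_pos hn]
    have h3 : m % (4 * a) = n % (4 * a) := hmn
    exact Vale.Agent.P017.H185.J_mod hm hn (by simpa using h3)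
  · rw [if_neg hm, if_neg fun h => hm (hodd.mpr h)]

theorem gl_per (c : ℕ) : ∀ m n, m ≡ n [MOD c] → gl c m = gl c n := fun _ _ h => J_congr h

theorem gu_cop {a : ℕ} (n : ℕ) (h : ¬ Nat.Coprime n (4 * a)) : gu a n = 0 := by
  unfold gu
  split
  next ho =>
    have hn0 := NeZero.mk ho.pos.ne'
    rw [jacobiSym.eq_zero_iff_not_coprime, Int.gcd_natCast_natCast]
    intro h1
    apply h
    apply Nat.Coprime.mul_right
    · rw [show 4 = 2 ^ 2 by norm_num]
      exact Nat.Coprime.pow_right 2 (Nat.coprime_two_right.mpr ho)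
    · exact Nat.Coprime.symm h1
  next => rfl

theorem gl_cop {c : ℕ} (hc : c ≠ 0) (n : ℕ) (h : ¬ Nat.Coprime n c) : gl c n = 0 := by
  have := NeZero.mk hc
  unfold gl
  rw [jacobiSym.eq_zero_iff_not_coprime, Int.gcd_natCast_natCast]
  exact h

theorem sum_int_zero {f : ℕ → ℤ} {q t : ℕ} (hq : 0 < q)
    (hper : ∀ m n, m ≡ n [MOD q] → f m = f n) (ht : Nat.Coprime t q)
    (hmul : ∀ n, f (t * n) = -f n) : ∑ n ∈ range q, f n = 0 := by
  have := sum_period_zero (f := fun n => (f n : ℝ)) hq (fun m n h => by rw [hper m n h]) ht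
    (fun n => by rw [hmul n]; push_cast; rfl)
  exact_mod_cast this

theorem gu_sum {a : ℕ} (ha : Squarefree a) (ha1 : a ≠ 1) : ∑ n ∈ range (4 * a), gu a n = 0 := by
  have ha0 := Nat.pos_of_ne_zero ha.ne_zero
  obtain ⟨t, htB, htp, hto, htJ⟩ := Vale.Agent.P017.H185.exists_prime_neg
    (a := (a : ℤ)) (Int.squarefree_natCast.mpr ha) (by exact_mod_cast ha1) (4 * a)
  have hpos : 0 < 4 * a := by positivity
  have htcop : Nat.Coprime t (4 * a) := by
    rw [Nat.Prime.coprime_iff_not_dvd htp]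
    intro h1
    exact absurd (Nat.le_of_dvd hpos h1) (by omega)
  refine sum_int_zero hpos (gu_per a) htcop ?_
  intro n
  unfold gu
  by_cases hn : Odd n
  · have := NeZero.mk hto.pos.ne'
    have := NeZero.mk hn.pos.ne'
    rw [if_pos (hto.mul hn), if_pos hn, jacobiSym.mul_right, htJ]; ring
  · rw [if_neg (fun h => hn (Nat.odd_mul.mp h).2), if_neg hn]; ring

theorem gl_sum {c : ℕ} (hc : Squarefree c) (hco : Odd c) (hc1 : c ≠ 1) :
    ∑ n ∈ range c, gl c n = 0 := by
  obtain ⟨r, hr, hrc⟩ := Nat.exists_prime_and_dvd hc1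
  obtain ⟨t, ht, hJ, -⟩ := exists_t_aux (c' := 1) hc hco hr hrc hr.not_dvd_one
  rw [mul_one] at ht
  refine sum_int_zero (Nat.pos_of_ne_zero hc.ne_zero) (gl_per c) ht ?_
  intro n
  unfold gl
  push_cast
  rw [jacobiSym.mul_left, hJ]; ring

theorem gu_one_left (n : ℕ) (hn : Odd n) : gu 1 n = 1 := by
  unfold gu; rw [if_pos hn]; simp

/-- reindexing pairs `c ∣ b ≤ M` -/
theorem reindex (M : ℕ) (f : ℕ → ℕ → ℝ) :
    ∑ b ∈ Icc 1 M, ∑ c ∈ b.divisors, f b c =
      ∑ c ∈ Icc 1 M, ∑ d ∈ Icc 1 M, if c * d ≤ M then f (c * d) c else 0 := by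
  have h1 : ∀ b ∈ Icc 1 M, ∑ c ∈ b.divisors, f b c =
      ∑ c ∈ Icc 1 M, ∑ d ∈ Icc 1 M, if c * d = b then f b c else 0 := by
    intro b hb
    rw [mem_Icc] at hb
    have h2 : b.divisors = (Icc 1 M).filter fun c => c ∣ b := by
      ext c
      simp only [Nat.mem_divisors, mem_filter, mem_Icc]
      constructor
      · rintro ⟨h, h0⟩
        exact ⟨⟨Nat.pos_of_dvd_of_pos h (by omega), (Nat.le_of_dvd (by omega) h).trans hb.2⟩, h⟩
      · rintro ⟨-, h⟩
        exact ⟨h, by omega⟩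
    rw [h2, sum_filter]
    refine sum_congr rfl fun c hc => ?_
    rw [mem_Icc] at hc
    by_cases hcb : c ∣ b
    · rw [if_pos hcb]
      obtain ⟨d, rfl⟩ := hcb
      have hd : d ∈ Icc 1 M := by
        rw [mem_Icc]
        constructor
        · rcases Nat.eq_zero_or_pos d with rfl | h
          · omega
          · exact h
        · exact le_trans (Nat.le_mul_of_pos_left d (by omega)) hb.2
      rw [sum_eq_single d]
      · rw [if_pos rfl]
      · intro e _ hne
        rw [if_neg]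
        intro h
        exact hne (Nat.eq_of_mul_eq_mul_left (by omega) h)
      · intro h; exact absurd hd h
    · rw [if_neg hcb]
      symm
      apply sum_eq_zero
      intro d _
      rw [if_neg]
      intro h
      exact hcb ⟨d, h.symm⟩
  rw [sum_congr rfl h1, sum_comm]
  refine sum_congr rfl fun c hc => ?_
  rw [sum_comm]
  refine sum_congr rfl fun d hd => ?_
  rw [mem_Icc] at hc hd
  by_cases h : c * d ≤ M
  · rw [if_pos h, sum_eq_single (c * d)]
    · rw [if_pos rfl]
    · intro b _ hne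
      rw [if_neg hne.symm]
    · intro h'
      exact absurd (mem_Icc.mpr ⟨Nat.mul_pos (by omega) (by omega), h⟩) h'
  · rw [if_neg h]
    apply sum_eq_zero
    intro b hb
    rw [mem_Icc] at hb
    rw [if_neg]
    rintro rfl
    exact h hb.2

end Vale.Agent.P017.PP
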