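import Mathlib

namespace Vale.Agent.P017.PP

open Finset Matrix Module

/-- sign character of `F₂` -/
def sg (a : ZMod 2) : ℝ := if a = 0 then 1 else -1

theorem sg_zero : sg 0 = 1 := by unfold sg; rw [if_pos rfl]
theorem sg_one : sg 1 = -1 := by unfold sg; rw [if_neg (by decide)]

theorem f2_cases (a : ZMod 2) : a = 0 ∨ a = 1 := by revert a; decide

theorem f2_add_self (a : ZMod 2) : a + a = 0 := by revert a; decide

theorem f2_eq_of_add {a b : ZMod 2} (h : a + b = 0) : a = b := by revert a b; decide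

theorem sg_add (a b : ZMod 2) : sg (a + b) = sg a * sg b := by
  rcases f2_cases a with rfl | rfl <;> rcases f2_cases b with rfl | rfl
  · rw [add_zero, sg_zero]; norm_num
  · rw [zero_add, sg_zero]; norm_num
  · rw [add_zero, sg_zero]; norm_num
  · rw [show (1 : ZMod 2) + 1 = 0 by decide, sg_zero, sg_one]; norm_num

theorem sg_sq (a : ZMod 2) : sg a * sg a = 1 := by
  rcases f2_cases a with rfl | rfl
  · rw [sg_zero]; norm_num
  · rw [sg_one]; norm_num

variable {ι : Type*} [Fintype ι] [DecidableEq ι]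

theorem sum_chi (w : ι → ZMod 2) :
    ∑ x : ι → ZMod 2, sg (w ⬝ᵥ x) = if w = 0 then (2 : ℝ) ^ Fintype.card ι else 0 := by
  split
  next h =>
    rw [h]
    simp [sg_zero, ZMod.card]
  next h =>
    obtain ⟨i, hi⟩ := Function.ne_iff.mp h
    have hi1 : w i = 1 := by
      rcases f2_cases (w i) with h | h
      · exact absurd h hi
      · exact h
    have h1 : ∑ x : ι → ZMod 2, sg (w ⬝ᵥ x) = ∑ x : ι → ZMod 2, sg (w ⬝ᵥ (x + Pi.single i 1)) :=
      (Equiv.sum_comp (Equiv.addRight (Pi.single i (1 : ZMod 2) : ι → ZMod 2))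
        (fun x => sg (w ⬝ᵥ x))).symm
    have h2 : ∀ x : ι → ZMod 2, sg (w ⬝ᵥ (x + Pi.single i 1)) = - sg (w ⬝ᵥ x) := by
      intro x
      rw [dotProduct_add, sg_add, dotProduct_single, hi1, mul_one, sg_one]; ring
    rw [sum_congr rfl fun x _ => h2 x, sum_neg_distrib] at h1
    linarith

/-- separation -/
def Sep {r : ℕ} (K : Submodule (ZMod 2) (ι → ZMod 2)) (x : Fin r → ι → ZMod 2) : Prop :=
  ∀ u ∈ K, (∀ l, x l ⬝ᵥ u = 0) → u = 0

theorem sum_cons {V : Type*} [Fintype V] {r : ℕ} (F : (Fin (r + 1) → V) → ℝ) :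
    ∑ x, F x = ∑ x₀ : V, ∑ x' : Fin r → V, F (Fin.cons x₀ x') := by
  rw [← Fintype.sum_prod_type']
  exact (Fintype.sum_equiv (Fin.consEquiv fun _ => V) _ _ fun x => rfl).symm

theorem count_two {w w' : ι → ZMod 2} (hw : w ≠ 0) (hw' : w' ≠ 0) :
    (2 : ℝ) ^ Fintype.card ι / 4 ≤
      ∑ x : ι → ZMod 2, if (w ⬝ᵥ x = 1 ∧ w' ⬝ᵥ x = 1) then 1 else 0 := by
  have h1 : ∀ x : ι → ZMod 2, (if (w ⬝ᵥ x = 1 ∧ w' ⬝ᵥ x = 1) then (1 : ℝ) else 0) =
      (1 - sg (w ⬝ᵥ x) - sg (w' ⬝ᵥ x) + sg ((w + w') ⬝ᵥ x)) / 4 := by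
    intro x
    rw [add_dotProduct, sg_add]
    have hne : (0 : ZMod 2) ≠ 1 := by decide
    rcases f2_cases (w ⬝ᵥ x) with h | h <;> rcases f2_cases (w' ⬝ᵥ x) with h' | h' <;>
      (rw [h, h']; simp [sg_zero, sg_one]; try norm_num)
  rw [sum_congr rfl fun x _ => h1 x, ← sum_div]
  apply div_le_div_of_nonneg_right _ (by norm_num)
  rw [sum_add_distrib, sum_sub_distrib, sum_sub_distrib, sum_chi, sum_chi, sum_chi, if_neg hw,
    if_neg hw']
  have h2 : ∑ _x : ι → ZMod 2, (1 : ℝ) = 2 ^ Fintype.card ι := by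
    simp [ZMod.card]
  rw [h2]
  split
  · have : (0 : ℝ) ≤ 2 ^ Fintype.card ι := by positivity
    linarith
  · linarith

/-- cutting down a subspace by a functional -/
noncomputable def cut (K : Submodule (ZMod 2) (ι → ZMod 2)) (x : ι → ZMod 2) :
    Submodule (ZMod 2) (ι → ZMod 2) where
  carrier := {u | u ∈ K ∧ x ⬝ᵥ u = 0}
  add_mem' := by
    rintro a b ⟨ha, ha'⟩ ⟨hb, hb'⟩
    exact ⟨K.add_mem ha hb, by rw [dotProduct_add, ha', hb', add_zero]⟩
  zero_mem' := ⟨K.zero_mem, dotProduct_zero _⟩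
  smul_mem' := by
    rintro c a ⟨ha, ha'⟩
    exact ⟨K.smul_mem c ha, by rw [dotProduct_smul, ha', smul_zero]⟩

theorem finrank_cut {K : Submodule (ZMod 2) (ι → ZMod 2)} {x w : ι → ZMod 2} (hw : w ∈ K)
    (hx : x ⬝ᵥ w ≠ 0) : finrank (ZMod 2) (cut K x) + 1 = finrank (ZMod 2) K := by
  let f : K →ₗ[ZMod 2] ZMod 2 :=
    { toFun := fun u => x ⬝ᵥ (u : ι → ZMod 2)
      map_add' := fun a b => by simp [dotProduct_add]
      map_smul' := fun c a => by simp [dotProduct_smul] }
  have hf : f ≠ 0 := by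
    intro h
    apply hx
    have := LinearMap.congr_fun h ⟨w, hw⟩
    exact this
  have h1 := Module.Dual.finrank_ker_add_one_of_ne_zero (f := f) hf
  have h2 : cut K x = (LinearMap.ker f).map K.subtype := by
    ext u
    simp only [Submodule.mem_map, LinearMap.mem_ker, Submodule.subtype_apply]
    constructor
    · rintro ⟨hu, hu'⟩
      exact ⟨⟨u, hu⟩, hu', rfl⟩
    · rintro ⟨⟨v, hv⟩, hv', rfl⟩
      exact ⟨hv, hv'⟩
  rw [h2, Submodule.finrank_map_subtype_eq]
  exact h1

open Classical in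
theorem count_sep (r : ℕ) : ∀ K K' : Submodule (ZMod 2) (ι → ZMod 2),
    finrank (ZMod 2) K = r → finrank (ZMod 2) K' = r →
    ((2 : ℝ) ^ Fintype.card ι / 4) ^ r ≤
      ∑ x : Fin r → ι → ZMod 2, if (Sep K x ∧ Sep K' x) then 1 else 0 := by
  induction r with
  | zero =>
    intro K K' hK hK'
    rw [Fintype.sum_unique, if_pos]
    · norm_num
    · have h0 : K = ⊥ := Submodule.finrank_eq_zero.mp hK
      have h0' : K' = ⊥ := Submodule.finrank_eq_zero.mp hK'
      constructor
      · intro u hu _; rw [h0, Submodule.mem_bot] at hu; exact hu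
      · intro u hu _; rw [h0', Submodule.mem_bot] at hu; exact hu
  | succ r ih =>
    intro K K' hK hK'
    have hex : ∀ K : Submodule (ZMod 2) (ι → ZMod 2), finrank (ZMod 2) K = r + 1 →
        ∃ w ∈ K, w ≠ 0 := by
      intro K hK
      have : K ≠ ⊥ := by
        rintro rfl
        rw [finrank_bot] at hK; omega
      exact K.exists_mem_ne_zero_of_ne_bot this
    obtain ⟨w, hw, hw0⟩ := hex K hK
    obtain ⟨w', hw', hw0'⟩ := hex K' hK'
    rw [sum_cons]
    have hc := count_two hw0 hw0'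
    calc ((2 : ℝ) ^ Fintype.card ι / 4) ^ (r + 1)
        = ((2 : ℝ) ^ Fintype.card ι / 4) * ((2 : ℝ) ^ Fintype.card ι / 4) ^ r := pow_succ' _ _
      _ ≤ (∑ x : ι → ZMod 2, if (w ⬝ᵥ x = 1 ∧ w' ⬝ᵥ x = 1) then 1 else 0) *
          ((2 : ℝ) ^ Fintype.card ι / 4) ^ r :=
          mul_le_mul_of_nonneg_right hc (by positivity)
      _ = ∑ x : ι → ZMod 2, (if (w ⬝ᵥ x = 1 ∧ w' ⬝ᵥ x = 1) then 1 else 0) *
          ((2 : ℝ) ^ Fintype.card ι / 4) ^ r := by rw [sum_mul]
      _ ≤ _ := by
          refine sum_le_sum fun x₀ _ => ?_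
          split
          next h =>
            rw [one_mul]
            have g1 : finrank (ZMod 2) (cut K x₀) = r := by
              have := finrank_cut (K := K) (x := x₀) hw (by
                rw [dotProduct_comm, h.1]; decide)
              omega
            have g2 : finrank (ZMod 2) (cut K' x₀) = r := by
              have := finrank_cut (K := K') (x := x₀) hw' (by
                rw [dotProduct_comm, h.2]; decide)
              omega
            refine (ih (cut K x₀) (cut K' x₀) g1 g2).trans ?_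
            refine sum_le_sum fun x' _ => ?_
            have himp : ∀ K : Submodule (ZMod 2) (ι → ZMod 2), Sep (cut K x₀) x' →
                Sep K (Fin.cons x₀ x' : Fin (r + 1) → ι → ZMod 2) := by
              intro K hs u hu hl
              apply hs u ⟨hu, ?_⟩
              · intro l
                have := hl l.succ
                rwa [Fin.cons_succ] at this
              · have := hl 0
                rwa [Fin.cons_zero] at this
            split
            next hs => rw [if_pos ⟨himp K hs.1, himp K' hs.2⟩]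
            next => split <;> norm_num
          next =>
            rw [zero_mul]
            apply sum_nonneg
            intro x' _
            split <;> norm_num

/-- kernel as submodule -/
noncomputable def kr (B : Matrix ι ι (ZMod 2)) : Submodule (ZMod 2) (ι → ZMod 2) :=
  LinearMap.ker B.mulVecLin

theorem mem_kr {B : Matrix ι ι (ZMod 2)} {u : ι → ZMod 2} : u ∈ kr B ↔ B.mulVec u = 0 := by
  unfold kr; rw [LinearMap.mem_ker, Matrix.mulVecLin_apply]

theorem finrank_kr_transpose (B : Matrix ι ι (ZMod 2)) :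
    finrank (ZMod 2) (kr Bᵀ) = finrank (ZMod 2) (kr B) := by
  have h1 := LinearMap.finrank_range_add_finrank_ker B.mulVecLin
  have h2 := LinearMap.finrank_range_add_finrank_ker Bᵀ.mulVecLin
  have h3 : Bᵀ.rank = B.rank := Matrix.rank_transpose B
  unfold Matrix.rank at h3
  unfold kr
  omega

theorem LA_key {r : ℕ} {B : Matrix ι ι (ZMod 2)} {x : Fin r → ι → ZMod 2}
    (hr : finrank (ZMod 2) (kr B) = r) (hK' : Sep (kr Bᵀ) x) {u : ι → ZMod 2} {v : Fin r → ZMod 2}
    (h : B.mulVec u = ∑ l, v l • x l) : v = 0 := by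
  let f : kr Bᵀ →ₗ[ZMod 2] (Fin r → ZMod 2) :=
    { toFun := fun w l => x l ⬝ᵥ (w : ι → ZMod 2)
      map_add' := fun a b => by ext l; simp [dotProduct_add]
      map_smul' := fun c a => by ext l; simp [dotProduct_smul] }
  have hinj : Function.Injective f := by
    rw [injective_iff_map_eq_zero]
    intro a ha
    have := hK' a a.2 (fun l => congrFun ha l)
    exact Subtype.ext this
  have hsurj : Function.Surjective f := by
    have h1 : finrank (ZMod 2) (kr Bᵀ) = finrank (ZMod 2) (Fin r → ZMod 2) := by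
      rw [finrank_kr_transpose, hr, finrank_fintype_fun_eq_card, Fintype.card_fin]
    exact (LinearMap.injective_iff_surjective_of_finrank_eq_finrank h1).mp hinj
  ext l
  obtain ⟨w, hw⟩ := hsurj (Pi.single l 1)
  have h1 : (w : ι → ZMod 2) ⬝ᵥ B.mulVec u = 0 := by
    rw [dotProduct_mulVec, ← mulVec_transpose, mem_kr.mp w.2, zero_dotProduct]
  rw [h, dotProduct_sum] at h1
  have h2 : ∀ l', (w : ι → ZMod 2) ⬝ᵥ (v l' • x l') = if l' = l then v l else 0 := by
    intro l'
    rw [dotProduct_smul, dotProduct_comm]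
    have h3 : x l' ⬝ᵥ (w : ι → ZMod 2) = (Pi.single l 1 : Fin r → ZMod 2) l' := congrFun hw l'
    rw [h3, Pi.single_apply]
    split
    next heq => rw [heq]; simp
    next => simp
  rw [sum_congr rfl fun l' _ => h2 l', sum_ite_eq' univ l, if_pos (mem_univ l)] at h1
  exact h1

/-- Parseval -/
theorem parseval (F : (ι → ZMod 2) → ℝ) :
    (2 : ℝ) ^ Fintype.card ι * ∑ x, F x ^ 2 = ∑ w : ι → ZMod 2, (∑ x, F x * sg (w ⬝ᵥ x)) ^ 2 := by
  have h1 : ∀ w : ι → ZMod 2, (∑ x, F x * sg (w ⬝ᵥ x)) ^ 2 =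
      ∑ x, ∑ y, F x * F y * sg (w ⬝ᵥ (x + y)) := by
    intro w
    rw [pow_two, sum_mul_sum]
    refine sum_congr rfl fun x _ => sum_congr rfl fun y _ => ?_
    rw [dotProduct_add, sg_add]; ring
  rw [sum_congr rfl fun w _ => h1 w, sum_comm, mul_sum]
  refine sum_congr rfl fun x _ => ?_
  rw [sum_comm]
  have h2 : ∀ y : ι → ZMod 2, ∑ w : ι → ZMod 2, F x * F y * sg (w ⬝ᵥ (x + y)) =
      if y = x then (2 : ℝ) ^ Fintype.card ι * F x ^ 2 else 0 := by
    intro y
    rw [← mul_sum]
    have h3 : ∑ w : ι → ZMod 2, sg (w ⬝ᵥ (x + y)) = if x + y = 0 then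
        (2 : ℝ) ^ Fintype.card ι else 0 := by
      rw [← sum_chi (x + y)]
      exact sum_congr rfl fun w _ => by rw [dotProduct_comm]
    rw [h3]
    by_cases hxy : y = x
    · rw [if_pos hxy, if_pos (by rw [hxy]; ext i; exact f2_add_self _), hxy]; ring
    · rw [if_neg hxy, if_neg, mul_zero]
      intro h
      apply hxy
      ext i
      exact (f2_eq_of_add (congrFun h i)).symm
  rw [sum_congr rfl fun y _ => h2 y, sum_ite_eq' univ x, if_pos (mem_univ x)]

end Vale.Agent.P017.PP
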