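import Vale.Agent.P017.H185P.LA
import Vale.Agent.P017.H185.Fam

namespace Vale.Agent.P017.PP

open Finset Matrix Module Vale.Agent.P017.H185

/-- additive symbol -/
def ee (a b : ℕ) : ZMod 2 := if jacobiSym a b = -1 then 1 else 0

theorem sg_ee {a b : ℕ} (h : jacobiSym a b ≠ 0) : sg (ee a b) = (jacobiSym a b : ℝ) := by
  unfold ee
  rcases jacobiSym.trichotomy a b with h0 | h1 | h1
  · exact absurd h0 h
  · rw [h1, if_neg (by decide), sg_zero]; norm_num
  · rw [h1, if_pos rfl, sg_one]; norm_num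

theorem ee_mul {a a' b : ℕ} (h : jacobiSym a b ≠ 0) (h' : jacobiSym a' b ≠ 0) :
    ee (a * a') b = ee a b + ee a' b := by
  unfold ee
  push_cast
  rw [jacobiSym.mul_left]
  rcases jacobiSym.trichotomy a b with h0 | h1 | h1
  · exact absurd h0 h
  · rcases jacobiSym.trichotomy a' b with h0 | h2 | h2
    · exact absurd h0 h'
    · rw [h1, h2]; decide
    · rw [h1, h2]; decide
  · rcases jacobiSym.trichotomy a' b with h0 | h2 | h2
    · exact absurd h0 h'
    · rw [h1, h2]; decide
    · rw [h1, h2]; decide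

theorem ee_prod (S : Finset ℕ) (r : ℕ) (h : ∀ q ∈ S, jacobiSym q r ≠ 0) :
    ee (∏ q ∈ S, q) r = ∑ q ∈ S, ee q r ∧ jacobiSym ((∏ q ∈ S, q : ℕ) : ℤ) r ≠ 0 := by
  induction S using Finset.induction_on with
  | empty => simp [ee]
  | insert a s ha ih =>
    obtain ⟨ih1, ih2⟩ := ih fun q hq => h q (mem_insert_of_mem hq)
    have h1 := h a (mem_insert_self a s)
    rw [prod_insert ha, sum_insert ha]
    refine ⟨by rw [ee_mul h1 ih2, ih1], ?_⟩
    push_cast at ih2 ⊢
    rw [jacobiSym.mul_left]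
    exact mul_ne_zero h1 ih2

theorem J_ne_zero {a b : ℕ} (hb : b ≠ 0) (h : Nat.Coprime a b) : jacobiSym a b ≠ 0 := by
  have := NeZero.mk hb
  rw [Ne, jacobiSym.eq_zero_iff_not_coprime, Int.gcd_natCast_natCast, not_not]
  exact h

theorem ee_sqfree {b r : ℕ} (hb : Squarefree b) (hr : r.Prime) (hrb : ¬ r ∣ b) :
    ee b r = ∑ q ∈ b.primeFactors, ee q r := by
  have h := (ee_prod b.primeFactors r (fun q hq => by
    apply J_ne_zero hr.ne_zero
    have hqp := Nat.prime_of_mem_primeFactors hq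
    rw [Nat.coprime_primes hqp hr]
    rintro rfl
    exact hrb (Nat.dvd_of_mem_primeFactors hq))).1
  rw [Nat.prod_primeFactors_of_squarefree hb] at h
  exact h

theorem ee_of_isSquare {b r : ℕ} (hr : r.Prime) (hrb : ¬ r ∣ b)
    (h : IsSquare (b : ZMod r)) : ee b r = 0 := by
  have := Fact.mk hr
  have h0 : ((b : ℤ) : ZMod r) ≠ 0 := by
    push_cast
    rw [Ne, ZMod.natCast_eq_zero_iff]; exact hrb
  unfold ee
  rw [if_neg]
  rw [← jacobiSym.legendreSym.to_jacobiSym]
  have h1 : legendreSym r (b : ℤ) = 1 := by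
    rw [legendreSym.eq_one_iff r h0]
    push_cast; exact h
  rw [h1]; decide

/-- indicator of divisibility -/
def al (a r : ℕ) : ZMod 2 := if r ∣ a then 1 else 0

theorem sum_al {d b r : ℕ} (hd : Squarefree d) (hb : b ∣ d) :
    ∑ r' ∈ d.primeFactors, ee r' r * al b r' = ∑ r' ∈ b.primeFactors, ee r' r := by
  have hsub : b.primeFactors ⊆ d.primeFactors := Nat.primeFactors_mono hb hd.ne_zero
  symm
  apply sum_subset_zero_on_sdiff hsub
  · intro q hq
    rw [mem_sdiff] at hq
    unfold al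
    rw [if_neg, mul_zero]
    intro h
    apply hq.2
    rw [Nat.mem_primeFactors]
    exact ⟨Nat.prime_of_mem_primeFactors hq.1, h, ne_zero_of_dvd_ne_zero hd.ne_zero hb⟩
  · intro q hq
    unfold al
    rw [if_pos (Nat.dvd_of_mem_primeFactors hq), mul_one]

theorem row_eq {d a : ℕ} (hd : Squarefree d) (ha : a ∣ d)
    (h : ∀ p : ℕ, p.Prime → p ∣ d →
      (¬ p ∣ a → IsSquare (a : ZMod p)) ∧ (p ∣ a → IsSquare ((d / a : ℕ) : ZMod p))) :
    ∀ r ∈ d.primeFactors, ∑ r' ∈ d.primeFactors, ee r' r * (al a r' + al a r) = 0 := by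
  intro r hr
  have hrp := Nat.prime_of_mem_primeFactors hr
  have hrd := Nat.dvd_of_mem_primeFactors hr
  obtain ⟨h1, h2⟩ := h r hrp hrd
  by_cases hra : r ∣ a
  · have hb : d / a ∣ d := Nat.div_dvd_of_dvd ha
    have hbs : Squarefree (d / a) := hd.squarefree_of_dvd hb
    have hab : a * (d / a) = d := Nat.mul_div_cancel' ha
    have hex : ∀ q : ℕ, q.Prime → q ∣ a → ¬ q ∣ d / a := by
      intro q hq hqa hqb
      have : q * q ∣ d := by rw [← hab]; exact mul_dvd_mul hqa hqb
      exact hq.one_lt.ne' (Nat.isUnit_iff.mp (hd q this))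
    have h3 := ee_sqfree hbs hrp (hex r hrp hra)
    rw [ee_of_isSquare hrp (hex r hrp hra) (h2 hra), ← sum_al hd hb] at h3
    rw [h3]
    refine sum_congr rfl fun q hq => ?_
    congr 1
    have hqp := Nat.prime_of_mem_primeFactors hq
    have hqd := Nat.dvd_of_mem_primeFactors hq
    unfold al
    rw [if_pos hra]
    by_cases hqa : q ∣ a
    · rw [if_pos hqa, if_neg (hex q hqp hqa)]; decide
    · rw [if_neg hqa, if_pos]; decide
      rw [← hab] at hqd
      exact (hqp.dvd_mul.mp hqd).resolve_left hqa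
  · have h3 := ee_sqfree (hd.squarefree_of_dvd ha) hrp hra
    rw [ee_of_isSquare hrp hra (h1 hra), ← sum_al hd ha] at h3
    rw [h3]
    refine sum_congr rfl fun q hq => ?_
    have : al a r = 0 := by unfold al; rw [if_neg hra]
    rw [this, add_zero]

/-- Laplacian-type matrix with diagonal perturbation -/
def Bm (m : ℕ) (s : m.primeFactors → ZMod 2) : Matrix m.primeFactors m.primeFactors (ZMod 2) :=
  fun r r' => ee r' r + (if r' = r then s r + ∑ r'' : m.primeFactors, ee r'' r else 0)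

theorem Bm_mulVec (m : ℕ) (s u : m.primeFactors → ZMod 2) (r : m.primeFactors) :
    (Bm m s).mulVec u r = s r * u r + ∑ r' : m.primeFactors, ee r' r * (u r' + u r) := by
  unfold Matrix.mulVec dotProduct Bm
  have h1 : ∀ r' : m.primeFactors, (ee r' r + (if r' = r then s r +
      ∑ r'' : m.primeFactors, ee r'' r else 0)) * u r' = ee r' r * u r' +
      (if r' = r then (s r + ∑ r'' : m.primeFactors, ee r'' r) * u r else 0) := by
    intro r'
    rw [add_mul]
    congr 1
    split
    next h => rw [h]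
    next => rw [zero_mul]
  rw [sum_congr rfl fun r' _ => h1 r', sum_add_distrib, sum_ite_eq' univ r, if_pos (mem_univ r)]
  rw [sum_congr rfl fun (r' : m.primeFactors) _ => mul_add (ee r' r) (u r') (u r), sum_add_distrib,
    ← sum_mul]
  ring

/-- symbol vector of a prime -/
def xv (m p : ℕ) : m.primeFactors → ZMod 2 := fun r => ee p r

theorem sum_split {m r : ℕ} {p : Fin r → ℕ} {q : ℕ} (hm : Squarefree m)
    (hp : ∀ l, (p l).Prime ∧ p l % 4 = 1 ∧ ¬ p l ∣ m) (hq : q.Prime ∧ q % 4 = 1 ∧ ¬ q ∣ m)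
    (hinj : Function.Injective p) (hqp : ∀ l, p l ≠ q) (F : ℕ → ZMod 2) :
    ∑ r' ∈ (m * (∏ l, p l) * q).primeFactors, F r' =
      ∑ r' : m.primeFactors, F r' + ∑ l, F (p l) + F q := by
  have hP0 : ∏ l, p l ≠ 0 := prod_ne_zero_iff.mpr fun l _ => (hp l).1.ne_zero
  have e1 : (∏ l, p l).primeFactors = univ.image p := by
    ext x
    rw [Nat.mem_primeFactors, mem_image]
    constructor
    · rintro ⟨hx, hxd, -⟩
      obtain ⟨l, hl, hxl⟩ := (Nat.Prime.prime hx).exists_mem_finset_dvd hxd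
      exact ⟨l, hl, ((Nat.prime_dvd_prime_iff_eq hx (hp l).1).mp hxl).symm⟩
    · rintro ⟨l, hl, rfl⟩
      exact ⟨(hp l).1, dvd_prod_of_mem p hl, hP0⟩
  rw [Nat.primeFactors_mul (mul_ne_zero hm.ne_zero hP0) hq.1.ne_zero,
    Nat.primeFactors_mul hm.ne_zero hP0, hq.1.primeFactors, e1, sum_union, sum_union,
    sum_image (fun x _ y _ h => hinj h), sum_singleton, ← sum_coe_sort m.primeFactors]
  · rw [disjoint_left]
    intro x hx hx'
    rw [mem_image] at hx'
    obtain ⟨l, -, rfl⟩ := hx'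
    exact (hp l).2.2 (Nat.dvd_of_mem_primeFactors hx)
  · rw [disjoint_singleton_right, mem_union, mem_image]
    rintro (h | ⟨l, -, h⟩)
    · exact hq.2.2 (Nat.dvd_of_mem_primeFactors h)
    · exact hqp l h

theorem ee_symm {p r : ℕ} (hp : p % 4 = 1) (hr : Odd r) : ee r p = ee p r := by
  unfold ee
  rw [jacobiSym.quadratic_reciprocity_one_mod_four hp hr]

theorem sqfree_d {m r : ℕ} {p : Fin r → ℕ} {q : ℕ} (hm : Squarefree m)
    (hp : ∀ l, (p l).Prime ∧ p l % 4 = 1 ∧ ¬ p l ∣ m) (hq : q.Prime ∧ q % 4 = 1 ∧ ¬ q ∣ m)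
    (hinj : Function.Injective p) (hqp : ∀ l, p l ≠ q) : Squarefree (m * (∏ l, p l) * q) := by
  have hPs : Squarefree (∏ l, p l) := by
    refine Finset.squarefree_prod_of_pairwise_isCoprime (fun x _ y _ hxy => ?_)
      fun l _ => (hp l).1.squarefree
    rw [Function.onFun, ← Nat.coprime_iff_isRelPrime]
    exact (Nat.coprime_primes (hp x).1 (hp y).1).mpr fun h => hxy (hinj h)
  have h1 : Nat.Coprime m (∏ l, p l) := by
    apply Nat.Coprime.prod_right
    intro l _
    rw [Nat.coprime_comm, Nat.Prime.coprime_iff_not_dvd (hp l).1]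
    exact (hp l).2.2
  have h2 : Nat.Coprime (m * ∏ l, p l) q := by
    rw [Nat.coprime_comm, Nat.Prime.coprime_iff_not_dvd hq.1]
    intro h
    rcases hq.1.dvd_mul.mp h with h | h
    · exact hq.2.2 h
    · obtain ⟨l, -, hxl⟩ := (Nat.Prime.prime hq.1).exists_mem_finset_dvd h
      exact hqp l ((Nat.prime_dvd_prime_iff_eq hq.1 (hp l).1).mp hxl).symm
  rw [Nat.squarefree_mul_iff]
  refine ⟨h2, ?_, hq.1.squarefree⟩
  rw [Nat.squarefree_mul_iff]
  exact ⟨h1, hm, hPs⟩

theorem redei_of_sep {m r : ℕ} (hm : Squarefree m) (hmo : Odd m) {p : Fin r → ℕ} {q : ℕ}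
    (hp : ∀ l, (p l).Prime ∧ p l % 4 = 1 ∧ ¬ p l ∣ m) (hq : q.Prime ∧ q % 4 = 1 ∧ ¬ q ∣ m)
    (hinj : Function.Injective p) (hqp : ∀ l, p l ≠ q)
    (hr : finrank (ZMod 2) (kr (Bm m (∑ l, xv m (p l) + xv m q))) = r)
    (hK : Sep (kr (Bm m (∑ l, xv m (p l) + xv m q))) (fun l => xv m (p l)))
    (hK' : Sep (kr (Bm m (∑ l, xv m (p l) + xv m q))ᵀ) (fun l => xv m (p l))) :
    Redei (m * (∏ l, p l) * q) := by
  intro a ha hloc
  have hds := sqfree_d hm hp hq hinj hqp
  have hrow := row_eq hds ha hloc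
  obtain ⟨d, hd⟩ : ∃ d, d = m * (∏ l, p l) * q := ⟨_, rfl⟩
  obtain ⟨β, hβ⟩ : ∃ β : ℕ → ZMod 2, β = fun x => al a x + al a q := ⟨_, rfl⟩
  have hβq : β q = 0 := by rw [hβ]; exact f2_add_self _
  have hsplit := fun F => sum_split (F := F) hm hp hq hinj hqp
  rw [← hd] at hds hrow ha hloc hsplit ⊢
  have hrow' : ∀ x ∈ d.primeFactors, ∑ x' : m.primeFactors, ee x' x * (β x' + β x) +
      ∑ l, ee (p l) x * (β (p l) + β x) + ee q x * (β q + β x) = 0 := by
    intro x hx
    rw [← hsplit (fun x' => ee x' x * (β x' + β x)), ← hrow x hx]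
    refine sum_congr rfl fun x' _ => ?_
    rw [hβ]
    congr 1
    show al a x' + al a q + (al a x + al a q) = al a x' + al a x
    have := f2_add_self (al a q)
    linear_combination this
  have hd0 : d ≠ 0 := hds.ne_zero
  have hmd : m ∣ d := by rw [hd, mul_assoc]; exact Dvd.intro _ rfl
  have hpd : ∀ l, p l ∣ d := fun l => by
    rw [hd]
    exact dvd_mul_of_dvd_left (dvd_mul_of_dvd_right (dvd_prod_of_mem p (mem_univ l)) m) q
  have hqd : q ∣ d := by rw [hd]; exact Dvd.intro_left _ rfl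
  -- step 1
  have hv : (fun l => β (p l)) = (0 : Fin r → ZMod 2) := by
    apply LA_key hr hK' (u := fun x => β x)
    ext x
    have hx : (x : ℕ) ∈ d.primeFactors := Nat.primeFactors_mono hmd hd0 x.2
    have h1 := hrow' x hx
    rw [Bm_mulVec, hβq] at *
    have h2 : (∑ l, xv m (p l) + xv m q) x = ∑ l, ee (p l) x + ee q x := by
      rw [Pi.add_apply, Finset.sum_apply]; rfl
    rw [h2]
    have h3 : (∑ l, β (p l) • xv m (p l)) x = ∑ l, ee (p l) x * β (p l) := by
      rw [Finset.sum_apply]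
      refine sum_congr rfl fun l _ => ?_
      rw [Pi.smul_apply, smul_eq_mul, mul_comm]; rfl
    rw [h3]
    rw [sum_congr rfl fun l _ => mul_add (ee (p l) x) (β (p l)) (β x), sum_add_distrib,
      ← sum_mul] at h1
    have h4 := f2_add_self (∑ l, ee (p l) x * β (p l))
    linear_combination h1 - h4
  have hv' : ∀ l, β (p l) = 0 := fun l => congrFun hv l
  -- step 2
  have hu : (fun x : m.primeFactors => β x) = 0 := by
    apply hK
    · rw [mem_kr]
      ext x
      have hx : (x : ℕ) ∈ d.primeFactors := Nat.primeFactors_mono hmd hd0 x.2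
      have h1 := hrow' x hx
      rw [Bm_mulVec, hβq] at *
      have h2 : (∑ l, xv m (p l) + xv m q) x = ∑ l, ee (p l) x + ee q x := by
        rw [Pi.add_apply, Finset.sum_apply]; rfl
      rw [h2]
      have h3 : ∑ l, ee (p l) x * (β (p l) + β x) = (∑ l, ee (p l) x) * β x := by
        rw [sum_mul]
        refine sum_congr rfl fun l _ => ?_
        rw [hv' l, zero_add]
      rw [h3] at h1
      rw [Pi.zero_apply]
      linear_combination h1
    · intro l
      have hx : p l ∈ d.primeFactors := by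
        rw [Nat.mem_primeFactors]; exact ⟨(hp l).1, hpd l, hd0⟩
      have h1 := hrow' (p l) hx
      rw [hv' l, hβq] at h1
      have h3 : ∑ l', ee (p l') (p l) * (β (p l') + 0) = 0 := by
        apply sum_eq_zero
        intro l' _
        rw [hv' l']; ring
      rw [h3] at h1
      unfold dotProduct
      have h4 : ∀ x : m.primeFactors, xv m (p l) x * β x = ee x (p l) * (β x + 0) := by
        intro x
        rw [add_zero]
        congr 1
        exact (ee_symm (hp l).2.1 (hmo.of_dvd_nat (Nat.dvd_of_mem_primeFactors x.2))).symm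
      rw [sum_congr rfl fun x _ => h4 x]
      linear_combination h1
  have hall : ∀ x ∈ d.primeFactors, β x = 0 := by
    intro x hx
    rw [hd] at hx
    rw [Nat.mem_primeFactors] at hx
    obtain ⟨hxp, hxd, -⟩ := hx
    rcases hxp.dvd_mul.mp hxd with h | h
    · rcases hxp.dvd_mul.mp h with h | h
      · exact congrFun hu ⟨x, Nat.mem_primeFactors.mpr ⟨hxp, h, hm.ne_zero⟩⟩
      · obtain ⟨l, -, hxl⟩ := (Nat.Prime.prime hxp).exists_mem_finset_dvd h
        rw [(Nat.prime_dvd_prime_iff_eq hxp (hp l).1).mp hxl]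
        exact hv' l
    · rw [(Nat.prime_dvd_prime_iff_eq hxp hq.1).mp h]
      exact hβq
  have hal : ∀ x ∈ d.primeFactors, al a x = al a q := by
    intro x hx
    have := hall x hx
    rw [hβ] at this
    exact f2_eq_of_add this
  have has : Squarefree a := hds.squarefree_of_dvd ha
  rcases f2_cases (al a q) with h0 | h1
  · left
    by_contra hne
    obtain ⟨x, hx, hxa⟩ := Nat.exists_prime_and_dvd hne
    have h2 := hal x (Nat.mem_primeFactors.mpr ⟨hx, hxa.trans ha, hd0⟩)
    rw [h0] at h2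
    unfold al at h2
    rw [if_pos hxa] at h2
    exact absurd h2 (by decide)
  · right
    apply Nat.dvd_antisymm ha
    rw [← Nat.prod_primeFactors_of_squarefree hds, ← Nat.prod_primeFactors_of_squarefree has]
    apply prod_dvd_prod_of_subset
    intro x hx
    have h2 := hal x hx
    rw [h1] at h2
    unfold al at h2
    rw [Nat.mem_primeFactors]
    refine ⟨Nat.prime_of_mem_primeFactors hx, ?_, has.ne_zero⟩
    by_contra hcon
    rw [if_neg hcon] at h2
    exact absurd h2 (by decide)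

end Vale.Agent.P017.PP
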