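import Vale.Agent.P017.H185P.Mert

namespace Vale.Agent.P017.PP

open Finset

/-- the multiplicative function supported on squarefree numbers with values `h p` at primes -/
noncomputable def mf (h : ℕ → ℝ) (n : ℕ) : ℝ :=
  if Squarefree n then ∏ p ∈ n.primeFactors, h p else 0

variable {h : ℕ → ℝ}

theorem mf_nonneg (h0 : ∀ p, 0 ≤ h p) (n : ℕ) : 0 ≤ mf h n := by
  unfold mf
  split
  · exact prod_nonneg fun p _ => h0 p
  · exact le_rfl

theorem mf_le_one (h0 : ∀ p, 0 ≤ h p) (h1 : ∀ p, h p ≤ 1) (n : ℕ) : mf h n ≤ 1 := by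
  unfold mf
  split
  · exact prod_le_one (fun p _ => h0 p) fun p _ => h1 p
  · exact zero_le_one

theorem mf_mul {m n : ℕ} (hmn : Squarefree (m * n)) : mf h (m * n) = mf h m * mf h n := by
  have hc : Nat.Coprime m n := Nat.coprime_of_squarefree_mul hmn
  obtain ⟨hm, hn⟩ := (Nat.squarefree_mul hc).mp hmn
  unfold mf
  rw [if_pos hmn, if_pos hm, if_pos hn, Nat.Coprime.primeFactors_mul hc,
    prod_union hc.disjoint_primeFactors]

theorem mf_prime_mul_le (h0 : ∀ p, 0 ≤ h p) (h1 : ∀ p, h p ≤ 1) {p m : ℕ} :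
    mf h (p * m) ≤ mf h m := by
  by_cases hs : Squarefree (p * m)
  · rw [mf_mul hs]
    exact mul_le_of_le_one_left (mf_nonneg h0 _) (mf_le_one h0 h1 _)
  · have : mf h (p * m) = 0 := by unfold mf; rw [if_neg hs]
    rw [this]; exact mf_nonneg h0 _

/-- logarithmic sum and Euler product -/
theorem sum_mf_div_le (h0 : ∀ p, 0 ≤ h p) (z : ℕ) :
    ∑ m ∈ Icc 1 z, mf h m / m ≤ Real.exp (∑ p ∈ (Icc 1 z).filter Nat.Prime, h p / p) := by
  classical
  calc ∑ m ∈ Icc 1 z, mf h m / m
      = ∑ m ∈ (Icc 1 z).filter Squarefree, ∏ p ∈ m.primeFactors, (h p / p) := by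
        rw [sum_filter]
        refine sum_congr rfl fun m _ => ?_
        unfold mf
        by_cases hs : Squarefree m
        · rw [if_pos hs, if_pos hs, prod_div_distrib]
          congr 1
          have := Nat.prod_primeFactors_of_squarefree hs
          rw [← Nat.cast_prod, this]
        · rw [if_neg hs, if_neg hs, zero_div]
    _ = ∑ T ∈ ((Icc 1 z).filter Squarefree).image Nat.primeFactors, ∏ p ∈ T, (h p / p) := by
        rw [sum_image]
        intro m hm m' hm' he
        rw [mem_coe, mem_filter] at hm hm'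
        rw [← Nat.prod_primeFactors_of_squarefree hm.2,
          ← Nat.prod_primeFactors_of_squarefree hm'.2, he]
    _ ≤ ∑ T ∈ ((Icc 1 z).filter Nat.Prime).powerset, ∏ p ∈ T, (h p / p) := by
        apply sum_le_sum_of_subset_of_nonneg
        · intro T hT
          obtain ⟨m, hm, rfl⟩ := mem_image.mp hT
          rw [mem_filter, mem_Icc] at hm
          rw [mem_powerset]
          intro p hp
          rw [mem_filter, mem_Icc]
          have hpp := Nat.prime_of_mem_primeFactors hp
          exact ⟨⟨hpp.one_lt.le, (Nat.le_of_dvd (by omega)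
            (Nat.dvd_of_mem_primeFactors hp)).trans hm.1.2⟩, hpp⟩
        · intro T _ _
          exact prod_nonneg fun p _ => div_nonneg (h0 p) (Nat.cast_nonneg _)
    _ = ∏ p ∈ (Icc 1 z).filter Nat.Prime, (1 + h p / p) := by
        rw [Finset.prod_one_add]
    _ ≤ ∏ p ∈ (Icc 1 z).filter Nat.Prime, Real.exp (h p / p) := by
        apply prod_le_prod
        · intro p _
          have := div_nonneg (h0 p) (Nat.cast_nonneg (α := ℝ) p)
          linarith
        · intro p _
          rw [add_comm]; exact Real.add_one_le_exp _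
    _ = _ := by rw [Real.exp_sum]

/-- **Mean values.** -/
theorem mean_le (h0 : ∀ p, 0 ≤ h p) (h1 : ∀ p, h p ≤ 1) (z : ℕ) :
    Real.log z * ∑ n ∈ Icc 1 z, mf h n ≤ 3 * z * ∑ m ∈ Icc 1 z, mf h m / m := by
  rcases Nat.eq_zero_or_pos z with rfl | hz
  · simp
  have hz0 : (0 : ℝ) < z := by exact_mod_cast hz
  -- first part
  have e1 : ∑ n ∈ Icc 1 z, mf h n * Real.log n ≤ Real.log 4 * z * ∑ m ∈ Icc 1 z, mf h m / m := by
    have a1 : ∀ n ∈ Icc 1 z, mf h n * Real.log n =
        ∑ p ∈ (Icc 1 z).filter Nat.Prime, if p ∣ n then mf h n * Real.log p else 0 := by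
      intro n hn
      rw [mem_Icc] at hn
      by_cases hs : Squarefree n
      · have hlog : Real.log n = ∑ p ∈ n.primeFactors, Real.log p := by
          conv_lhs => rw [← Nat.prod_primeFactors_of_squarefree hs]
          push_cast
          rw [Real.log_prod]
          intro p hp
          have := (Nat.prime_of_mem_primeFactors hp).pos
          positivity
        rw [hlog, mul_sum, ← sum_filter, filter_filter]
        apply sum_congr _ fun _ _ => rfl
        ext p
        simp only [Nat.mem_primeFactors, mem_filter, mem_Icc]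
        constructor
        · rintro ⟨hp, hd, hn0⟩
          exact ⟨⟨hp.one_lt.le, (Nat.le_of_dvd (by omega) hd).trans hn.2⟩, hp, hd⟩
        · rintro ⟨-, hp, hd⟩
          exact ⟨hp, hd, by omega⟩
      · have : mf h n = 0 := by unfold mf; rw [if_neg hs]
        rw [this]; simp
    rw [sum_congr rfl a1, sum_comm]
    have a2 : ∀ p ∈ (Icc 1 z).filter Nat.Prime,
        ∑ n ∈ Icc 1 z, (if p ∣ n then mf h n * Real.log p else 0) ≤
          ∑ m ∈ Icc 1 z, if p * m ≤ z then mf h m * Real.log p else 0 := by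
      intro p hp
      rw [mem_filter, mem_Icc] at hp
      have hp0 := hp.2.pos
      rw [← sum_filter, ← sum_filter]
      calc ∑ n ∈ (Icc 1 z).filter (fun n => p ∣ n), mf h n * Real.log p
          = ∑ n ∈ ((Icc 1 z).filter (fun m => p * m ≤ z)).image (fun m => p * m),
              mf h n * Real.log p := by
            apply sum_congr _ fun _ _ => rfl
            ext n
            simp only [mem_filter, mem_Icc, mem_image]
            constructor
            · rintro ⟨hn, m, rfl⟩
              refine ⟨m, ⟨⟨?_, ?_⟩, hn.2⟩, rfl⟩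
              · rcases Nat.eq_zero_or_pos m with rfl | h
                · omega
                · exact h
              · exact le_trans (Nat.le_mul_of_pos_left m hp0) hn.2
            · rintro ⟨m, ⟨hm, hpm⟩, rfl⟩
              exact ⟨⟨Nat.mul_pos hp0 (by omega), hpm⟩, dvd_mul_right _ _⟩
        _ = ∑ m ∈ (Icc 1 z).filter (fun m => p * m ≤ z), mf h (p * m) * Real.log p := by
            rw [sum_image]
            intro m _ m' _ he
            exact Nat.eq_of_mul_eq_mul_left hp0 he
        _ ≤ _ := by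
            refine sum_le_sum fun m _ => ?_
            exact mul_le_mul_of_nonneg_right (mf_prime_mul_le h0 h1)
              (Real.log_nonneg (by exact_mod_cast hp.2.one_lt.le))
    refine (sum_le_sum a2).trans ?_
    rw [sum_comm, mul_sum]
    refine sum_le_sum fun m hm => ?_
    rw [mem_Icc] at hm
    have hm0 : (0 : ℝ) < m := by exact_mod_cast hm.1
    have a3 : ∑ p ∈ (Icc 1 z).filter Nat.Prime, (if p * m ≤ z then mf h m * Real.log p else 0) ≤
        mf h m * Chebyshev.theta (z / m) := by
      rw [← sum_filter, Chebyshev.theta_eq_sum_Icc, mul_sum]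
      apply sum_le_sum_of_subset_of_nonneg
      · intro p hp
        simp only [mem_filter, mem_Icc] at hp ⊢
        refine ⟨⟨Nat.zero_le _, ?_⟩, hp.1.2⟩
        apply Nat.le_floor
        rw [le_div_iff₀ hm0]
        exact_mod_cast hp.2
      · intro p hp _
        simp only [mem_filter, mem_Icc] at hp
        exact mul_nonneg (mf_nonneg h0 _) (Real.log_nonneg (by exact_mod_cast hp.2.one_lt.le))
    refine a3.trans ?_
    calc mf h m * Chebyshev.theta (z / m) ≤ mf h m * (Real.log 4 * (z / m)) :=
          mul_le_mul_of_nonneg_left (Chebyshev.theta_le_log4_mul_x (by positivity)) (mf_nonneg h0 _)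
      _ = Real.log 4 * z * (mf h m / m) := by ring
  -- second part
  have e2 : ∑ n ∈ Icc 1 z, mf h n * (Real.log z - Real.log n) ≤ z * ∑ m ∈ Icc 1 z, mf h m / m := by
    rw [mul_sum]
    refine sum_le_sum fun n hn => ?_
    rw [mem_Icc] at hn
    have hn0 : (0 : ℝ) < n := by exact_mod_cast hn.1
    rw [← Real.log_div hz0.ne' hn0.ne']
    calc mf h n * Real.log (z / n) ≤ mf h n * (z / n) :=
          mul_le_mul_of_nonneg_left ((Real.log_le_sub_one_of_pos (by positivity)).trans
            (by linarith)) (mf_nonneg h0 _)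
      _ = z * (mf h n / n) := by ring
  have hlog4 : Real.log 4 ≤ 2 := by
    rw [show (4 : ℝ) = 2 ^ 2 by norm_num, Real.log_pow]
    have := Real.log_two_lt_d9
    push_cast; linarith
  have hS : 0 ≤ ∑ m ∈ Icc 1 z, mf h m / m :=
    sum_nonneg fun m _ => div_nonneg (mf_nonneg h0 _) (Nat.cast_nonneg _)
  calc Real.log z * ∑ n ∈ Icc 1 z, mf h n
      = ∑ n ∈ Icc 1 z, mf h n * Real.log n + ∑ n ∈ Icc 1 z, mf h n * (Real.log z - Real.log n) := by
        rw [← sum_add_distrib, mul_sum]
        exact sum_congr rfl fun n _ => by ring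
    _ ≤ Real.log 4 * z * ∑ m ∈ Icc 1 z, mf h m / m + z * ∑ m ∈ Icc 1 z, mf h m / m :=
        add_le_add e1 e2
    _ ≤ 3 * z * ∑ m ∈ Icc 1 z, mf h m / m := by
        have : Real.log 4 * z * ∑ m ∈ Icc 1 z, mf h m / m ≤
            2 * z * ∑ m ∈ Icc 1 z, mf h m / m := by gcongr
        linarith

/-- Mertens' second theorem, upper bound -/
theorem sum_inv_prime_le : ∃ C : ℝ, 0 < C ∧ ∀ z : ℕ, 2 ≤ z →
    ∑ p ∈ (Icc 1 z).filter Nat.Prime, 1 / (p : ℝ) ≤ Real.log (Real.log z) + C := by
  obtain ⟨C, hC, h⟩ := Vale.Agent.P017.PPM.mertens_two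
  refine ⟨-Real.log (Real.log 2) + C / Real.log 2 + 1 + 10, ?_, ?_⟩
  · have h1 : Real.log (Real.log 2) ≤ 0 :=
      Real.log_nonpos (Real.log_nonneg (by norm_num)) (by
        have := Real.log_two_lt_d9; linarith)
    have h2 : 0 < C / Real.log 2 := div_pos hC (Real.log_pos (by norm_num))
    linarith
  · intro z hz
    have h1 := h 2 z le_rfl hz
    have h2 : ∑ p ∈ (Icc 1 z).filter Nat.Prime, 1 / (p : ℝ) ≤
        ∑ p ∈ (Ico 2 z).filter Nat.Prime, 1 / (p : ℝ) + 1 := by
      have h3 : (Icc 1 z).filter Nat.Prime ⊆ insert z ((Ico 2 z).filter Nat.Prime) := by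
        intro p hp
        simp only [mem_filter, mem_Icc, mem_insert, mem_Ico] at hp ⊢
        have := hp.2.two_le
        by_cases hpz : p = z
        · exact Or.inl hpz
        · exact Or.inr ⟨⟨this, by omega⟩, hp.2⟩
      have hz1 : 1 / (z : ℝ) ≤ 1 := by
        rw [div_le_one (by positivity)]
        exact_mod_cast (by omega : 1 ≤ z)
      calc ∑ p ∈ (Icc 1 z).filter Nat.Prime, 1 / (p : ℝ) ≤
          ∑ p ∈ insert z ((Ico 2 z).filter Nat.Prime), 1 / (p : ℝ) :=
            sum_le_sum_of_subset_of_nonneg h3 fun _ _ _ => by positivity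
        _ ≤ 1 / (z : ℝ) + ∑ p ∈ (Ico 2 z).filter Nat.Prime, 1 / (p : ℝ) := by
            rw [sum_insert (by simp)]
        _ ≤ _ := by linarith
    push_cast at h1
    linarith

end Vale.Agent.P017.PP
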