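import Vale.Agent.P017.H185P.Id
import Vale.Agent.P017.H185P.Hyp

namespace Vale.Agent.P017.PP

open Finset Filter

theorem ev_nat {P : ℝ → Prop} (h : ∀ᶠ x in atTop, P x) : ∀ᶠ M : ℕ in atTop, P (Real.log M) :=
  (Real.tendsto_log_atTop.comp tendsto_natCast_atTop_atTop).eventually h

theorem ev_pow : ∀ᶠ x : ℝ in atTop, 2 * ((2 * x) ^ 40) ^ 2 ≤ Real.exp (x / 2) := by
  have h1 : ∀ᶠ x : ℝ in atTop, (2 : ℝ) ^ 162 * (81).factorial ≤ x := eventually_ge_atTop _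
  filter_upwards [h1, eventually_ge_atTop 1] with x hx hx1
  have h2 := Real.pow_div_factorial_le_exp (x / 2) (by linarith) 81
  refine le_trans ?_ h2
  rw [le_div_iff₀ (by positivity)]
  have e1 : 2 * ((2 * x) ^ 40) ^ 2 * ((81).factorial : ℝ) =
      ((2 : ℝ) ^ 162 * (81).factorial) * (x ^ 80 / 2 ^ 81) := by ring
  have e2 : (x / 2) ^ 81 = x * (x ^ 80 / 2 ^ 81) := by ring
  rw [e1, e2]
  exact mul_le_mul_of_nonneg_right hx (by positivity)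

theorem ev_log : ∀ᶠ x : ℝ in atTop, 29 + 40 * Real.log x ≤ x ^ ((1 : ℝ) / 10) := by
  have h1 := (isLittleO_log_rpow_atTop (show (0 : ℝ) < 1 / 10 by norm_num)).bound
    (show (0 : ℝ) < 1 / 100 by norm_num)
  have h2 : ∀ᶠ x : ℝ in atTop, 100 ≤ x ^ ((1 : ℝ) / 10) :=
    (tendsto_rpow_atTop (show (0 : ℝ) < 1 / 10 by norm_num)).eventually (eventually_ge_atTop _)
  filter_upwards [h1, h2, eventually_ge_atTop 1] with x h1 h2 h3
  rw [Real.norm_eq_abs, Real.norm_eq_abs, abs_of_nonneg (Real.log_nonneg h3),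
    abs_of_nonneg (by positivity)] at h1
  linarith

theorem pkg (hSW : SWH) : ∃ K : ℝ, 0 < K ∧ ∃ M₀ : ℕ, ∀ M : ℕ, M₀ ≤ M → ∃ (L : ℕ) (ρ : ℝ),
    1 ≤ L ∧ 2 ≤ M ∧ 0 < ρ ∧ ρ ≤ 1 ∧ (1 + Real.log L) * ρ ≤ 1 ∧
  (∀ u : ℕ, 1 ≤ u → u ≤ L ^ 2 → ∑ n ∈ Icc 1 (M / u), wt n ≤ K * (M / u) * ρ ^ 2) ∧
  (∀ u : ℕ, 1 ≤ u → u ≤ L → ∀ q : ℕ, 1 ≤ q → q ≤ 4 * L → ∀ g : ℕ → ℤ,
    (∀ m n, m ≡ n [MOD q] → g m = g n) →
    (∀ n, g n = 0 ∨ g n = 1 ∨ g n = -1) → (∀ n, ¬ Nat.Coprime n q → g n = 0) →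
    ∑ n ∈ range q, g n = 0 →
    ∑ n ∈ Icc 1 (M / u), mf (hg g) n ≤ K * (M / u) * ρ) ∧
  (∀ d : ℕ, 1 ≤ d → ∀ α γ : ℕ → ℝ, (∀ n, |α n| ≤ 1) → (∀ n, |γ n| ≤ 1) →
    (∀ n, α n ≠ 0 → Squarefree n ∧ Odd n) → (∀ n, γ n ≠ 0 → Squarefree n ∧ Odd n) →
    |∑ a ∈ Ioc L (M / d), ∑ c ∈ Ioc L (M / d / a), α a * γ c * (jacobiSym a c : ℝ)| ≤
      K * (M / d) / (1 + Real.log M)) := by
  obtain ⟨K₁, hK₁, hW⟩ := W_bound
  obtain ⟨K₂, z₀, hK₂, hH⟩ := H_bound hSW (A := 41) (by norm_num)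
  have hz0 : ∀ᶠ x : ℝ in atTop, (z₀ : ℝ) + 2 ≤ Real.exp (x / 2) :=
    (Real.tendsto_exp_atTop.comp (tendsto_id.atTop_div_const (by norm_num : (0 : ℝ) < 2))).eventually
      (eventually_ge_atTop _)
  have hall := (((ev_nat ev_pow).and (ev_nat ev_log)).and
    ((ev_nat hz0).and (ev_nat (eventually_ge_atTop ((2 : ℝ) ^ 100))))).and
      (eventually_ge_atTop 2)
  rw [eventually_atTop] at hall
  obtain ⟨M₀, hM₀⟩ := hall
  refine ⟨2 * K₁ + 2 * K₂ + 42, by positivity, M₀, fun M hM => ?_⟩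
  obtain ⟨⟨⟨hpow, hlog⟩, ⟨hexp, hbig⟩⟩, hM2⟩ := hM₀ M hM
  obtain ⟨ℓ, hℓ⟩ : ∃ ℓ, ℓ = Real.log M := ⟨_, rfl⟩
  rw [← hℓ] at hpow hlog hexp hbig
  have hMR : (0 : ℝ) < M := by exact_mod_cast (by omega : 0 < M)
  have hℓ1 : (1 : ℝ) ≤ ℓ := le_trans (by norm_num) hbig
  have hℓ0 : 0 < ℓ := by linarith
  obtain ⟨N, hN⟩ : ∃ N, N = ⌈ℓ⌉₊ := ⟨_, rfl⟩
  have hNl : ℓ ≤ N := by rw [hN]; exact Nat.le_ceil _
  have hNu : (N : ℝ) ≤ 2 * ℓ := by
    have := Nat.ceil_lt_add_one hℓ0.le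
    rw [hN]; linarith
  have hN1R : (2 : ℝ) ^ 100 ≤ N := hbig.trans hNl
  have hN1 : 1 ≤ N := by
    have : (1 : ℝ) ≤ N := le_trans (by norm_num) hN1R
    exact_mod_cast this
  have hNR : (0 : ℝ) < N := by exact_mod_cast hN1
  obtain ⟨L, hL⟩ : ∃ L, L = N ^ 40 := ⟨_, rfl⟩
  have hL1 : 1 ≤ L := by rw [hL]; exact Nat.one_le_pow _ _ hN1
  have hLR : (L : ℝ) = (N : ℝ) ^ 40 := by rw [hL]; push_cast; rfl
  have hLle : (L : ℝ) ≤ (2 * ℓ) ^ 40 := by rw [hLR]; exact pow_le_pow_left₀ hNR.le hNu 40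
  obtain ⟨ρ, hρ⟩ : ∃ ρ, ρ = ℓ ^ (-(1 / 10) : ℝ) := ⟨_, rfl⟩
  have hρ0 : 0 < ρ := by rw [hρ]; positivity
  have hρ1 : ρ ≤ 1 := by
    rw [hρ]; exact Real.rpow_le_one_of_one_le_of_nonpos hℓ1 (by norm_num)
  have hexpM : Real.exp (ℓ / 2) * Real.exp (ℓ / 2) = M := by
    rw [← Real.exp_add, hℓ]
    rw [show Real.log M / 2 + Real.log M / 2 = Real.log M by ring, Real.exp_log hMR]
  -- sizes of the quotients
  have hz : ∀ u : ℕ, 1 ≤ u → u ≤ L ^ 2 → Real.exp (ℓ / 2) ≤ ((M / u : ℕ) : ℝ) := by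
    intro u hu1 hu2
    have huR : (0 : ℝ) < u := by exact_mod_cast hu1
    have h1 : (u : ℝ) ≤ ((2 * ℓ) ^ 40) ^ 2 := by
      calc (u : ℝ) ≤ (L : ℝ) ^ 2 := by exact_mod_cast hu2
        _ ≤ _ := pow_le_pow_left₀ (Nat.cast_nonneg _) hLle 2
    have h2 : (M : ℝ) / u < ((M / u : ℕ) : ℝ) + 1 := by
      rw [div_lt_iff₀ huR]
      have h3 := Nat.lt_mul_div_succ M (show 0 < u by omega)
      have h4 : M < (M / u + 1) * u := by linarith
      exact_mod_cast h4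
    have h3 : 2 * Real.exp (ℓ / 2) ≤ M / u := by
      rw [le_div_iff₀ huR, ← hexpM]
      have h4 : 2 * (u : ℝ) ≤ Real.exp (ℓ / 2) := by linarith
      have := Real.exp_pos (ℓ / 2)
      nlinarith
    have h4 : (1 : ℝ) ≤ Real.exp (ℓ / 2) := Real.one_le_exp (by linarith)
    linarith
  have hzlog : ∀ u : ℕ, 1 ≤ u → u ≤ L ^ 2 → ℓ / 2 ≤ Real.log ((M / u : ℕ) : ℝ) := by
    intro u hu1 hu2
    have h1 := hz u hu1 hu2
    rw [Real.le_log_iff_exp_le (lt_of_lt_of_le (Real.exp_pos _) h1)]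
    exact h1
  have hdivle : ∀ u : ℕ, 1 ≤ u → ((M / u : ℕ) : ℝ) ≤ M / u := fun u _ => Nat.cast_div_le
  refine ⟨L, ρ, hL1, hM2, hρ0, hρ1, ?_, ?_, ?_, ?_⟩
  · -- log L
    have h1 : Real.log L = 40 * Real.log N := by rw [hLR, Real.log_pow]; push_cast; ring
    have h2 : Real.log N ≤ Real.log 2 + Real.log ℓ := by
      rw [← Real.log_mul (by norm_num) hℓ0.ne']
      exact Real.log_le_log hNR hNu
    have h3 : Real.log 2 < 0.6931471808 := Real.log_two_lt_d9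
    have h4 : 1 + Real.log L ≤ ℓ ^ ((1 : ℝ) / 10) := by rw [h1]; linarith
    calc (1 + Real.log L) * ρ ≤ ℓ ^ ((1 : ℝ) / 10) * ρ := mul_le_mul_of_nonneg_right h4 hρ0.le
      _ = 1 := by
          rw [hρ, ← Real.rpow_add hℓ0]; norm_num
  · intro u hu1 hu2
    have huR : (0 : ℝ) < u := by exact_mod_cast hu1
    have h1 := hz u hu1 hu2
    have h2 : 2 ≤ M / u := by
      have : (2 : ℝ) ≤ ((M / u : ℕ) : ℝ) := by
        have : (0 : ℝ) ≤ z₀ := Nat.cast_nonneg _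
        linarith
      exact_mod_cast this
    have h3 := hW _ h2
    refine h3.trans ?_
    have h4 : Real.log ((M / u : ℕ) : ℝ) ^ (-(1 / 2) : ℝ) ≤ 2 * ρ ^ 2 := by
      have h5 := hzlog u hu1 hu2
      calc Real.log ((M / u : ℕ) : ℝ) ^ (-(1 / 2) : ℝ) ≤ (ℓ / 2) ^ (-(1 / 2) : ℝ) :=
            Real.rpow_le_rpow_of_nonpos (by positivity) h5 (by norm_num)
        _ = ℓ ^ (-(1 / 2) : ℝ) * 2 ^ ((1 / 2) : ℝ) := by
            rw [Real.div_rpow hℓ0.le (by norm_num), Real.rpow_neg (by norm_num : (0 : ℝ) ≤ 2)]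
            field_simp
        _ ≤ ℓ ^ (-(1 / 5) : ℝ) * 2 := by
            apply mul_le_mul _ _ (by positivity) (by positivity)
            · exact Real.rpow_le_rpow_of_exponent_le hℓ1 (by norm_num)
            · calc (2 : ℝ) ^ ((1 / 2) : ℝ) ≤ 2 ^ (1 : ℝ) :=
                    Real.rpow_le_rpow_of_exponent_le (by norm_num) (by norm_num)
                _ = 2 := Real.rpow_one 2
        _ = 2 * ρ ^ 2 := by
            rw [hρ, ← Real.rpow_natCast, ← Real.rpow_mul hℓ0.le]; norm_num; ring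
    calc K₁ * ((M / u : ℕ) : ℝ) * Real.log ((M / u : ℕ) : ℝ) ^ (-(1 / 2) : ℝ)
        ≤ K₁ * (M / u) * (2 * ρ ^ 2) := by
          apply mul_le_mul _ h4 (Real.rpow_nonneg (by linarith [hzlog u hu1 hu2]) _) (by positivity)
          exact mul_le_mul_of_nonneg_left (hdivle u hu1) hK₁.le
      _ ≤ _ := by
          have : 0 ≤ (2 * K₂ + 42) * ((M : ℝ) / u) * ρ ^ 2 := by positivity
          linarith
  · intro u hu1 hu2 q hq1 hq2 g hper htri hcop hsum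
    have huR : (0 : ℝ) < u := by exact_mod_cast hu1
    have hu2' : u ≤ L ^ 2 := hu2.trans (by nlinarith)
    have h1 := hz u hu1 hu2'
    have h5 := hzlog u hu1 hu2'
    have h2 : z₀ ≤ M / u := by
      have : (z₀ : ℝ) ≤ ((M / u : ℕ) : ℝ) := by linarith
      exact_mod_cast this
    have hq : (q : ℝ) ≤ (Real.log ((M / u : ℕ) : ℝ)) ^ (41 : ℝ) := by
      calc (q : ℝ) ≤ 4 * (L : ℝ) := by exact_mod_cast hq2
        _ ≤ 4 * (2 * ℓ) ^ 40 := by linarith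
        _ = 2 ^ 83 * (ℓ ^ 40 / 2 ^ 41) := by ring
        _ ≤ ℓ * (ℓ ^ 40 / 2 ^ 41) := by
            apply mul_le_mul_of_nonneg_right _ (by positivity)
            exact le_trans (by norm_num) hbig
        _ = (ℓ / 2) ^ 41 := by ring
        _ ≤ (Real.log ((M / u : ℕ) : ℝ)) ^ 41 := pow_le_pow_left₀ (by positivity) h5 _
        _ = _ := by rw [← Real.rpow_natCast]; norm_num
    have h3 := hH _ h2 q hq1 hq g hper htri hcop hsum
    refine h3.trans ?_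
    have h4 : Real.log ((M / u : ℕ) : ℝ) ^ (-(1 / 10) : ℝ) ≤ 2 * ρ := by
      calc Real.log ((M / u : ℕ) : ℝ) ^ (-(1 / 10) : ℝ) ≤ (ℓ / 2) ^ (-(1 / 10) : ℝ) :=
            Real.rpow_le_rpow_of_nonpos (by positivity) h5 (by norm_num)
        _ = ℓ ^ (-(1 / 10) : ℝ) * 2 ^ ((1 / 10) : ℝ) := by
            rw [Real.div_rpow hℓ0.le (by norm_num), Real.rpow_neg (by norm_num : (0 : ℝ) ≤ 2)]
            field_simp
        _ ≤ ℓ ^ (-(1 / 10) : ℝ) * 2 := by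
            apply mul_le_mul_of_nonneg_left _ (by positivity)
            calc (2 : ℝ) ^ ((1 / 10) : ℝ) ≤ 2 ^ (1 : ℝ) :=
                    Real.rpow_le_rpow_of_exponent_le (by norm_num) (by norm_num)
                _ = 2 := Real.rpow_one 2
        _ = 2 * ρ := by rw [hρ]; ring
    calc K₂ * ((M / u : ℕ) : ℝ) * Real.log ((M / u : ℕ) : ℝ) ^ (-(1 / 10) : ℝ)
        ≤ K₂ * (M / u) * (2 * ρ) := by
          apply mul_le_mul _ h4 (Real.rpow_nonneg (by linarith) _) (by positivity)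
          exact mul_le_mul_of_nonneg_left (hdivle u hu1) hK₂.le
      _ ≤ _ := by
          have : 0 ≤ (2 * K₁ + 42) * ((M : ℝ) / u) * ρ := by positivity
          linarith
  · intro d hd α γ hα hγ hαs hγs
    have hdR : (0 : ℝ) < d := by exact_mod_cast hd
    have h1l : 0 < 1 + Real.log M := by rw [← hℓ]; linarith
    obtain ⟨z, hzd⟩ : ∃ z, z = M / d := ⟨_, rfl⟩
    rw [← hzd]
    rcases Nat.eq_zero_or_pos z with h0 | hzpos
    · rw [h0, Ioc_eq_empty (by omega), sum_empty, abs_zero]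
      positivity
    have hzR : (0 : ℝ) < z := by exact_mod_cast hzpos
    have hzM : (z : ℝ) ≤ M := by rw [hzd]; exact_mod_cast Nat.div_le_self M d
    have hlogz : Real.log z ≤ ℓ := by rw [hℓ]; exact Real.log_le_log hzR hzM
    have hb := hyp_bilinear hα hγ hαs hγs (z := z) (L := L) (H := N ^ 2) (Λ := 2 * N)
      (K := (N : ℝ) ^ 4) (Nat.one_le_pow _ _ hN1)
      (by rw [hL]; exact Nat.pow_le_pow_right hN1 (by norm_num))
      (by linarith) (by positivity) (by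
        rw [hLR]
        have e : 6 * (2 * (N : ℝ)) ^ 9 * ((N : ℝ) ^ 4) ^ 6 = 3072 * (N : ℝ) ^ 33 := by ring
        rw [e]
        calc 3072 * (N : ℝ) ^ 33 ≤ N ^ 7 * (N : ℝ) ^ 33 := by
              apply mul_le_mul_of_nonneg_right _ (by positivity)
              calc (3072 : ℝ) ≤ 2 ^ 100 := by norm_num
                _ ≤ N := hN1R
                _ ≤ (N : ℝ) ^ 7 := le_self_pow₀ (by exact_mod_cast hN1) (by norm_num)
          _ = (N : ℝ) ^ 40 := by ring)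
    refine hb.trans ?_
    have h3 : (Nat.log 2 z : ℝ) + 1 ≤ 3 * N := by
      have h4 : (Nat.log 2 z : ℝ) * Real.log 2 ≤ Real.log z := by
        rw [← Real.log_pow]
        apply Real.log_le_log (by positivity)
        exact_mod_cast Nat.pow_log_le_self 2 hzpos.ne'
      have h5 : (0.6931471803 : ℝ) < Real.log 2 := Real.log_two_gt_d9
      have h6 : (0 : ℝ) ≤ Nat.log 2 z := Nat.cast_nonneg _
      nlinarith
    have h4 : (z : ℝ) / N ^ 4 + 6 * z / ((N ^ 2 : ℕ) : ℝ) ^ 2 = 7 * z / N ^ 4 := by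
      push_cast; field_simp; ring
    rw [h4]
    have e7 : ((N ^ 2 : ℕ) : ℝ) * (3 * (N : ℝ)) * (7 * (z : ℝ) / (N : ℝ) ^ 4) = 21 * (z : ℝ) / (N : ℝ) := by
      push_cast; field_simp; ring
    calc ((N ^ 2 : ℕ) : ℝ) * ((Nat.log 2 z : ℝ) + 1) * (7 * (z : ℝ) / (N : ℝ) ^ 4)
        ≤ ((N ^ 2 : ℕ) : ℝ) * (3 * (N : ℝ)) * (7 * (z : ℝ) / (N : ℝ) ^ 4) := by gcongr
      _ = 21 * (z : ℝ) / (N : ℝ) := e7
      _ ≤ 21 * ((M : ℝ) / (d : ℝ)) / (N : ℝ) := by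
          have : (z : ℝ) ≤ M / d := by rw [hzd]; exact Nat.cast_div_le
          gcongr
      _ ≤ 42 * (M / d) / (1 + Real.log M) := by
          rw [div_le_div_iff₀ hNR h1l]
          have : 1 + Real.log M ≤ 2 * N := by rw [← hℓ]; linarith
          have h5 : (0 : ℝ) ≤ M / d := by positivity
          nlinarith
      _ ≤ _ := by
          apply div_le_div_of_nonneg_right _ h1l.le
          apply mul_le_mul_of_nonneg_right _ (by positivity)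
          linarith

end Vale.Agent.P017.PP
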