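import Vale.Agent.P017.H185P.Cnt

namespace Vale.Agent.P017.PP

open Finset Matrix Module Vale.Agent.P017.H185

def GoodD (d : ℕ) : Prop := Squarefree d ∧ d % 60 = 23 ∧ Redei d

theorem dyadic_unique {x a b : ℕ} (h : x ∈ Ioc (2 ^ a) (2 * 2 ^ a))
    (h' : x ∈ Ioc (2 ^ b) (2 * 2 ^ b)) : a = b := by
  rw [mem_Ioc] at h h'
  have h1 : 2 ^ a < 2 ^ (b + 1) := by rw [pow_succ]; omega
  have h2 : 2 ^ b < 2 ^ (a + 1) := by rw [pow_succ]; omega
  have h3 := (Nat.pow_lt_pow_iff_right (by norm_num : 1 < 2)).mp h1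
  have h4 := (Nat.pow_lt_pow_iff_right (by norm_num : 1 < 2)).mp h2
  omega

theorem mem_Py {y p : ℕ} : p ∈ Py y ↔ p ∈ Ioc y (2 * y) ∧ p.Prime ∧ p % 60 = 1 := by
  unfold Py; rw [mem_filter]

theorem mem_GT {m r : ℕ} {y P : Fin (r + 1) → ℕ} :
    P ∈ GT m r y ↔ (∀ l, P l ∈ Py (y l) ∧ ¬ P l ∣ m) ∧ Good m r fun l => xv m (P l) := by
  classical
  unfold GT
  rw [mem_filter, Fintype.mem_piFinset]
  constructor
  · rintro ⟨h1, h2⟩
    exact ⟨fun l => mem_filter.mp (h1 l), h2⟩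
  · rintro ⟨h1, h2⟩
    exact ⟨fun l => mem_filter.mpr (h1 l), h2⟩

theorem prod_mod_one {ι : Type*} (S : Finset ι) (f : ι → ℕ) (h : ∀ i ∈ S, f i % 60 = 1) :
    (∏ i ∈ S, f i) % 60 = 1 := by
  classical
  induction S using Finset.induction_on with
  | empty => simp
  | insert a s ha ih =>
    rw [prod_insert ha, Nat.mul_mod, h a (mem_insert_self a s),
      ih fun i hi => h i (mem_insert_of_mem hi)]

theorem goodD_of {m r : ℕ} {y P : Fin (r + 1) → ℕ} (hm : Squarefree m ∧ m % 60 = 23)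
    (hP : P ∈ GT m r y) (hinj : Function.Injective P) :
    GoodD (m * (∏ l : Fin r, P l.succ) * P 0) := by
  rw [mem_GT] at hP
  obtain ⟨h1, hr, hK, hK'⟩ := hP
  have hp : ∀ l, (P l).Prime ∧ P l % 60 = 1 ∧ ¬ P l ∣ m := fun l =>
    ⟨(mem_Py.mp (h1 l).1).2.1, (mem_Py.mp (h1 l).1).2.2, (h1 l).2⟩
  have hp4 : ∀ l, (P l).Prime ∧ P l % 4 = 1 ∧ ¬ P l ∣ m := fun l =>
    ⟨(hp l).1, by have := (hp l).2.1; omega, (hp l).2.2⟩
  have hinj' : Function.Injective fun l : Fin r => P l.succ :=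
    hinj.comp (Fin.succ_injective r)
  have hqp : ∀ l : Fin r, P l.succ ≠ P 0 := fun l h => Fin.succ_ne_zero l (hinj h)
  have hs : ∑ l : Fin (r + 1), xv m (P l) = ∑ l : Fin r, xv m (P l.succ) + xv m (P 0) := by
    rw [Fin.sum_univ_succ, add_comm]
  rw [hs] at hr hK hK'
  refine ⟨sqfree_d hm.1 (fun l => hp4 l.succ) (hp4 0) hinj' hqp, ?_, ?_⟩
  · rw [Nat.mul_mod, Nat.mul_mod m, hm.2, prod_mod_one _ _ fun l _ => (hp l.succ).2.1,
      (hp 0).2.1]
  · refine redei_of_sep hm.1 (by rw [Nat.odd_iff]; have := hm.2; omega) (fun l => hp4 l.succ)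
      (hp4 0) hinj' hqp hr hK hK'

/-- the large prime factors -/
def bigpf (T b : ℕ) : Finset ℕ := b.primeFactors.filter fun p => 2 ^ T < p

theorem bigpf_card {T b k : ℕ} (hb0 : b ≠ 0) (hb : b ≤ 2 ^ k) :
    T * (bigpf T b).card ≤ k := by
  have h1 : (2 ^ T) ^ (bigpf T b).card ≤ ∏ p ∈ bigpf T b, p := by
    rw [← prod_const]
    apply prod_le_prod' 
    intro p hp
    unfold bigpf at hp
    exact (mem_filter.mp hp).2.le
  have h2 : ∏ p ∈ bigpf T b, p ≤ b := by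
    apply Nat.le_of_dvd (Nat.pos_of_ne_zero hb0)
    refine dvd_trans (prod_dvd_prod_of_subset _ b.primeFactors _ (filter_subset _ _))
      (Nat.prod_primeFactors_dvd b)
  have h3 : 2 ^ (T * (bigpf T b).card) ≤ 2 ^ k := by
    rw [pow_mul]; exact (h1.trans h2).trans hb
  exact (Nat.pow_le_pow_iff_right (by norm_num)).mp h3

/-- exponents -/
def jj (Q T : ℕ) {r : ℕ} (i : ℕ) (e : Fin r → ℕ) : Fin (r + 1) → ℕ :=
  Fin.cons (Q * T - i - ∑ l, e l) e

theorem jj_zero (Q T : ℕ) {r : ℕ} (i : ℕ) (e : Fin r → ℕ) : jj Q T i e 0 = Q * T - i - ∑ l, e l := rfl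

theorem jj_succ (Q T : ℕ) {r : ℕ} (i : ℕ) (e : Fin r → ℕ) (l : Fin r) : jj Q T i e l.succ = e l := by
  unfold jj; rw [Fin.cons_succ]

theorem count_T (hSW : SWH) : ∃ c : ℝ, 0 < c ∧ ∃ Q : ℕ, 1 ≤ Q ∧ ∃ R T₀ : ℕ, ∀ T : ℕ, T₀ ≤ T →
    ∀ D : Finset ℕ, (∀ d, 1 ≤ d → d ≤ 2 ^ (Q * T + R + 2) → GoodD d → d ∈ D) →
    c * 2 ^ (Q * T) ≤ D.card := by
  classical
  obtain ⟨R, c, hc, y₀, hPH⟩ := PH hSW
  obtain ⟨Q, hQ⟩ : ∃ Q, Q = (R + 3) ^ 2 := ⟨_, rfl⟩
  have hQ1 : 1 ≤ Q := by rw [hQ]; exact Nat.one_le_pow _ _ (by omega)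
  obtain ⟨c', hc', T₁, hblk⟩ := block_count hSW (R := R) (Q := Q) hc hQ1
  refine ⟨c' / (R + 1) / (Q + 1) ^ (R + 1), by positivity, Q, hQ1, R, T₁ + y₀ + R + 2, ?_⟩
  intro T hT D hD
  have hT1 : 1 ≤ T := by omega
  have hTR : (0 : ℝ) < T := by exact_mod_cast hT1
  -- pigeonhole over i
  have hex : ∀ i ∈ Icc (T + 1) (2 * T), ∃ r ∈ range (R + 1),
      c * (2 ^ i : ℕ) ≤ ∑ m ∈ Q23 (2 ^ i), Pr m r := by
    intro i hi
    rw [mem_Icc] at hi
    have hbig : y₀ ≤ 2 ^ i := by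
      have : i < 2 ^ i := Nat.lt_two_pow_self
      omega
    obtain ⟨r, hr, h⟩ := hPH (2 ^ i) hbig
    exact ⟨r, mem_range.mpr (by omega), h⟩
  obtain ⟨r, hr, hcardI⟩ : ∃ r ∈ range (R + 1), T ≤ (R + 1) *
      ((Icc (T + 1) (2 * T)).filter fun i => c * (2 ^ i : ℕ) ≤ ∑ m ∈ Q23 (2 ^ i), Pr m r).card := by
    by_contra hcon
    push Not at hcon
    have h1 : Icc (T + 1) (2 * T) ⊆ (range (R + 1)).biUnion fun r =>
        (Icc (T + 1) (2 * T)).filter fun i => c * (2 ^ i : ℕ) ≤ ∑ m ∈ Q23 (2 ^ i), Pr m r := by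
      intro i hi
      obtain ⟨r, hr, h⟩ := hex i hi
      rw [mem_biUnion]
      exact ⟨r, hr, mem_filter.mpr ⟨hi, h⟩⟩
    have h2 := (card_le_card h1).trans card_biUnion_le
    rw [Nat.card_Icc] at h2
    have h3 : (R + 1) * T ≤ (R + 1) * ∑ r ∈ range (R + 1), ((Icc (T + 1) (2 * T)).filter
        fun i => c * (2 ^ i : ℕ) ≤ ∑ m ∈ Q23 (2 ^ i), Pr m r).card :=
      Nat.mul_le_mul_left _ (by omega)
    rw [mul_sum] at h3
    have h4 : ∑ r ∈ range (R + 1), (R + 1) * ((Icc (T + 1) (2 * T)).filter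
        fun i => c * (2 ^ i : ℕ) ≤ ∑ m ∈ Q23 (2 ^ i), Pr m r).card <
        ∑ _r ∈ range (R + 1), T :=
      sum_lt_sum_of_nonempty ⟨0, mem_range.mpr (by omega)⟩ fun r hr => hcon r hr
    rw [sum_const, card_range, smul_eq_mul] at h4
    omega
  have hrR : r ≤ R := by have := mem_range.mp hr; omega
  obtain ⟨I, hI⟩ : ∃ I, I = (Icc (T + 1) (2 * T)).filter fun i =>
    c * (2 ^ i : ℕ) ≤ ∑ m ∈ Q23 (2 ^ i), Pr m r := ⟨_, rfl⟩
  rw [← hI] at hcardI
  obtain ⟨E, hE⟩ : ∃ E : Finset (Fin r → ℕ), E = Fintype.piFinset fun l : Fin r =>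
    Ioc (((l : ℕ) + 1) * T) (((l : ℕ) + 2) * T) := ⟨_, rfl⟩
  have hEcard : E.card = T ^ r := by
    rw [hE, Fintype.card_piFinset]
    have : ∀ l : Fin r, (Ioc (((l : ℕ) + 1) * T) (((l : ℕ) + 2) * T)).card = T := by
      intro l
      rw [Nat.card_Ioc, ← Nat.sub_mul]
      have : (l : ℕ) + 2 - ((l : ℕ) + 1) = 1 := by omega
      rw [this, one_mul]
    rw [prod_congr rfl fun l _ => this l, prod_const, card_univ, Fintype.card_fin]
  -- facts on exponents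
  have hEb : ∀ e ∈ E, ∀ l : Fin r, ((l : ℕ) + 1) * T < e l ∧ e l ≤ ((l : ℕ) + 2) * T := by
    intro e he l
    rw [hE, Fintype.mem_piFinset] at he
    exact mem_Ioc.mp (he l)
  have hEr : ∀ e ∈ E, ∀ l : Fin r, e l ≤ (R + 1) * T := by
    intro e he l
    refine (hEb e he l).2.trans (Nat.mul_le_mul_right T ?_)
    have := l.2; omega
  have hEsum : ∀ e ∈ E, ∑ l, e l ≤ R * (R + 1) * T := by
    intro e he
    calc ∑ l, e l ≤ ∑ _l : Fin r, (R + 1) * T := sum_le_sum fun l _ => hEr e he l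
      _ = r * ((R + 1) * T) := by rw [sum_const, card_univ, Fintype.card_fin, smul_eq_mul]
      _ ≤ R * ((R + 1) * T) := Nat.mul_le_mul_right _ hrR
      _ = _ := by ring
  have hIb : ∀ i ∈ I, T + 1 ≤ i ∧ i ≤ 2 * T ∧ c * (2 ^ i : ℕ) ≤ ∑ m ∈ Q23 (2 ^ i), Pr m r := by
    intro i hi
    rw [hI, mem_filter, mem_Icc] at hi
    exact ⟨hi.1.1, hi.1.2, hi.2⟩
  have hQT : Q * T = R * (R + 1) * T + 2 * T + (5 * R + 7) * T := by rw [hQ]; ring
  have hj0 : ∀ i ∈ I, ∀ e ∈ E, (R + 2) * T ≤ jj Q T i e 0 ∧ i + ∑ l, jj Q T i e l = Q * T := by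
    intro i hi e he
    have h1 := hEsum e he
    have h2 := (hIb i hi).2.1
    have h3 : (R + 2) * T ≤ (5 * R + 7) * T := Nat.mul_le_mul_right T (by omega)
    rw [Fin.sum_univ_succ, jj_zero]
    simp only [jj_succ]
    constructor
    · omega
    · omega
  have hjinj : ∀ i ∈ I, ∀ e ∈ E, Function.Injective (jj Q T i e) := by
    intro i hi e he
    have h0 := (hj0 i hi e he).1
    have hne : ∀ l : Fin r, jj Q T i e l.succ ≠ jj Q T i e 0 := by
      intro l h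
      rw [jj_succ] at h
      have h1 := hEr e he l
      have : (R + 1) * T < (R + 2) * T := Nat.mul_lt_mul_of_pos_right (by omega) (by omega)
      omega
    have hlt : ∀ l l' : Fin r, l < l' → e l < e l' := by
      intro l l' hll
      have h1 := (hEb e he l).2
      have h2 := (hEb e he l').1
      have h3 : ((l : ℕ) + 2) * T ≤ ((l' : ℕ) + 1) * T := by
        apply Nat.mul_le_mul_right
        have : (l : ℕ) < l' := hll
        omega
      omega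
    intro a b hab
    induction a using Fin.cases with
    | zero =>
      induction b using Fin.cases with
      | zero => rfl
      | succ b => exact absurd hab.symm (hne b)
    | succ a =>
      induction b using Fin.cases with
      | zero => exact absurd hab (hne a)
      | succ b =>
        rw [jj_succ, jj_succ] at hab
        rcases lt_trichotomy a b with h | h | h
        · exact absurd hab (hlt a b h).ne
        · rw [h]
        · exact absurd hab (hlt b a h).ne'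
  have hjge : ∀ i ∈ I, ∀ e ∈ E, ∀ l, T ≤ jj Q T i e l := by
    intro i hi e he l
    induction l using Fin.cases with
    | zero =>
      refine le_trans ?_ (hj0 i hi e he).1
      exact Nat.le_mul_of_pos_left T (by omega)
    | succ l =>
      rw [jj_succ]
      have h1 := (hEb e he l).1
      have h2 : T ≤ ((l : ℕ) + 1) * T := Nat.le_mul_of_pos_left T (by omega)
      omega
  have hjle : ∀ i ∈ I, ∀ e ∈ E, ∀ l, jj Q T i e l ≤ Q * T := by
    intro i hi e he l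
    have h1 := (hj0 i hi e he).2
    have h2 : jj Q T i e l ≤ ∑ l, jj Q T i e l :=
      single_le_sum (f := fun l => jj Q T i e l) (fun _ _ => Nat.zero_le _) (mem_univ l)
    omega
  -- the set of tuples
  obtain ⟨𝒯, h𝒯⟩ : ∃ 𝒯 : Finset (Σ _ : ℕ × (Fin r → ℕ), Σ _ : ℕ, (Fin (r + 1) → ℕ)),
      𝒯 = (I ×ˢ E).sigma fun ie => (Q23 (2 ^ ie.1)).sigma fun m =>
        GT m r fun l => 2 ^ jj Q T ie.1 ie.2 l := ⟨_, rfl⟩
  have hcard1 : c' * (2 : ℝ) ^ (Q * T) / (R + 1) ≤ (𝒯.card : ℝ) := by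
    rw [h𝒯, card_sigma]
    push_cast
    have h1 : ∀ ie ∈ I ×ˢ E, c' * (2 : ℝ) ^ (Q * T) / (T : ℝ) ^ (r + 1) ≤
        ((((Q23 (2 ^ ie.1)).sigma fun m => GT m r fun l => 2 ^ jj Q T ie.1 ie.2 l).card : ℕ) : ℝ) := by
      rintro ⟨i, e⟩ hie
      rw [mem_product] at hie
      obtain ⟨hi, he⟩ := hie
      dsimp only at hi he ⊢
      rw [card_sigma]
      push_cast
      have h2 := hblk T (by omega) i (by have := (hIb i hi).1; omega) (hIb i hi).2.1 r hrR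
        (hIb i hi).2.2 (jj Q T i e) (hjge i hi e he) (hjle i hi e he)
      rw [(hj0 i hi e he).2] at h2
      exact h2
    refine le_trans ?_ (sum_le_sum h1)
    rw [sum_const, card_product, hEcard, nsmul_eq_mul]
    have h3 : (T : ℝ) ≤ (R + 1) * I.card := by exact_mod_cast hcardI
    push_cast
    rw [div_le_iff₀ (by positivity), pow_succ]
    have e1 : (I.card : ℝ) * (T : ℝ) ^ r * (c' * 2 ^ (Q * T) / ((T : ℝ) ^ r * T)) * (R + 1) =
        (c' * 2 ^ (Q * T)) * (((R : ℝ) + 1) * I.card / T) := by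
      field_simp
    rw [e1]
    apply le_mul_of_one_le_right (by positivity)
    rw [one_le_div hTR]; exact h3
  obtain ⟨F, hF⟩ : ∃ F : (Σ _ : ℕ × (Fin r → ℕ), Σ _ : ℕ, (Fin (r + 1) → ℕ)) → ℕ,
    F = fun t => t.2.1 * (∏ l : Fin r, t.2.2 l.succ) * t.2.2 0 := ⟨_, rfl⟩
  have hmem : ∀ t ∈ 𝒯, t.1.1 ∈ I ∧ t.1.2 ∈ E ∧ t.2.1 ∈ Q23 (2 ^ t.1.1) ∧
      t.2.2 ∈ GT t.2.1 r fun l => 2 ^ jj Q T t.1.1 t.1.2 l := by
    intro t ht
    rw [h𝒯, mem_sigma, mem_product, mem_sigma] at ht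
    exact ⟨ht.1.1, ht.1.2, ht.2.1, ht.2.2⟩
  have hPrange : ∀ t ∈ 𝒯, ∀ l, t.2.2 l ∈ Py (2 ^ jj Q T t.1.1 t.1.2 l) := by
    intro t ht l
    exact ((mem_GT.mp (hmem t ht).2.2.2).1 l).1
  have hPinj : ∀ t ∈ 𝒯, Function.Injective t.2.2 := by
    intro t ht a b hab
    apply hjinj t.1.1 (hmem t ht).1 t.1.2 (hmem t ht).2.1
    have h1 := (mem_Py.mp (hPrange t ht a)).1
    have h2 := (mem_Py.mp (hPrange t ht b)).1
    rw [hab] at h1
    exact dyadic_unique h1 h2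
  have hmQ : ∀ t ∈ 𝒯, t.2.1 ∈ Ioc (2 ^ t.1.1) (2 * 2 ^ t.1.1) ∧ Squarefree t.2.1 ∧
      t.2.1 % 60 = 23 := by
    intro t ht
    have := (hmem t ht).2.2.1
    unfold Q23 at this
    rw [mem_filter] at this
    exact ⟨this.1, this.2⟩
  have hFeq : ∀ t, F t = t.2.1 * ∏ l, t.2.2 l := by
    intro t
    rw [hF, Fin.prod_univ_succ]
    ring
  have hFle : ∀ t ∈ 𝒯, F t ≤ 2 ^ (Q * T + R + 2) := by
    intro t ht
    rw [hFeq]
    have h1 := (mem_Ioc.mp (hmQ t ht).1).2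
    have h2 : ∏ l, t.2.2 l ≤ ∏ l, 2 ^ (jj Q T t.1.1 t.1.2 l + 1) := by
      apply prod_le_prod'
      intro l _
      have := (mem_Ioc.mp (mem_Py.mp (hPrange t ht l)).1).2
      rw [pow_succ]; omega
    have h3 : ∏ l, 2 ^ (jj Q T t.1.1 t.1.2 l + 1) = 2 ^ (∑ l, jj Q T t.1.1 t.1.2 l + (r + 1)) := by
      rw [prod_pow_eq_pow_sum, sum_add_distrib, sum_const, card_univ, Fintype.card_fin, smul_eq_mul,
        mul_one]
    have h4 := (hj0 t.1.1 (hmem t ht).1 t.1.2 (hmem t ht).2.1).2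
    calc t.2.1 * ∏ l, t.2.2 l ≤ (2 * 2 ^ t.1.1) * 2 ^ (∑ l, jj Q T t.1.1 t.1.2 l + (r + 1)) :=
          Nat.mul_le_mul h1 (h2.trans h3.le)
      _ = 2 ^ (t.1.1 + ∑ l, jj Q T t.1.1 t.1.2 l + (r + 2)) := by
          rw [← pow_succ', ← pow_add]; congr 1; ring
      _ ≤ 2 ^ (Q * T + R + 2) := by
          apply Nat.pow_le_pow_right (by norm_num)
          rw [h4]; omega
  have hFgood : ∀ t ∈ 𝒯, GoodD (F t) := by
    intro t ht
    rw [hF]
    exact goodD_of (hmQ t ht).2 (hmem t ht).2.2.2 (hPinj t ht)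
  have hF0 : ∀ t ∈ 𝒯, F t ≠ 0 := fun t ht => (hFgood t ht).1.ne_zero
  have himg : 𝒯.image F ⊆ D := by
    intro d hd
    rw [mem_image] at hd
    obtain ⟨t, ht, rfl⟩ := hd
    exact hD _ (Nat.pos_of_ne_zero (hF0 t ht)) (hFle t ht) (hFgood t ht)
  -- fibres
  have hfib : ∀ b ∈ 𝒯.image F, (𝒯.filter fun t => F t = b).card ≤ (Q + 1) ^ (R + 1) := by
    intro b hb
    rw [mem_image] at hb
    obtain ⟨t₀, ht₀, hb'⟩ := hb
    have hbig : (bigpf T b).card ≤ Q + 1 := by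
      have h1 := bigpf_card (T := T) (b := b) (k := Q * T + R + 2)
        (by rw [← hb']; exact hF0 t₀ ht₀) (by rw [← hb']; exact hFle t₀ ht₀)
      by_contra hcon
      push Not at hcon
      have h2 : T * (Q + 2) ≤ T * (bigpf T b).card := Nat.mul_le_mul_left T hcon
      have h3 : T * (Q + 2) = Q * T + 2 * T := by ring
      omega
    have hinj : Set.InjOn (fun t : (Σ _ : ℕ × (Fin r → ℕ), Σ _ : ℕ, (Fin (r + 1) → ℕ)) => t.2.2)
        (𝒯.filter fun t => F t = b) := by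
      intro t ht t' ht' h
      rw [mem_coe, mem_filter] at ht ht'
      dsimp only at h
      have hm : t.2.1 = t'.2.1 := by
        have h1 : F t = F t' := by rw [ht.2, ht'.2]
        rw [hFeq, hFeq, h] at h1
        refine Nat.eq_of_mul_eq_mul_right (Nat.pos_of_ne_zero ?_) h1
        rw [prod_ne_zero_iff]
        intro l _
        exact (mem_Py.mp (hPrange t' ht'.1 l)).2.1.ne_zero
      have hi : t.1.1 = t'.1.1 := by
        have h1 := (hmQ t ht.1).1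
        have h2 := (hmQ t' ht'.1).1
        rw [hm] at h1
        exact dyadic_unique h1 h2
      have he : t.1.2 = t'.1.2 := by
        funext l
        have h1 := (mem_Py.mp (hPrange t ht.1 l.succ)).1
        have h2 := (mem_Py.mp (hPrange t' ht'.1 l.succ)).1
        rw [h] at h1
        have h3 := dyadic_unique h1 h2
        rwa [jj_succ, jj_succ] at h3
      obtain ⟨⟨i, e⟩, m, P⟩ := t
      obtain ⟨⟨i', e'⟩, m', P'⟩ := t'
      dsimp only at h hm hi he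
      subst h hm hi he
      rfl
    have hmaps : ∀ t ∈ 𝒯.filter fun t => F t = b, t.2.2 ∈
        Fintype.piFinset fun _ : Fin (r + 1) => bigpf T b := by
      intro t ht
      rw [mem_filter] at ht
      rw [Fintype.mem_piFinset]
      intro l
      have h1 := mem_Py.mp (hPrange t ht.1 l)
      unfold bigpf
      rw [mem_filter, Nat.mem_primeFactors]
      refine ⟨⟨h1.2.1, ?_, ?_⟩, ?_⟩
      · rw [← ht.2, hFeq]
        exact dvd_mul_of_dvd_right (dvd_prod_of_mem _ (mem_univ l)) _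
      · rw [← ht.2]; exact hF0 t ht.1
      · have h2 := (mem_Ioc.mp h1.1).1
        have h3 := hjge t.1.1 (hmem t ht.1).1 t.1.2 (hmem t ht.1).2.1 l
        exact lt_of_le_of_lt (Nat.pow_le_pow_right (by norm_num) h3) h2
    refine (card_le_card_of_injOn _ hmaps hinj).trans ?_
    rw [Fintype.card_piFinset, prod_const, card_univ, Fintype.card_fin]
    calc (bigpf T b).card ^ (r + 1) ≤ (Q + 1) ^ (r + 1) := Nat.pow_le_pow_left hbig _
      _ ≤ (Q + 1) ^ (R + 1) := Nat.pow_le_pow_right (by omega) (by omega)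
  have hfin := card_le_mul_card_image 𝒯 _ hfib
  have hfin2 : (𝒯.card : ℝ) ≤ ((Q : ℝ) + 1) ^ (R + 1) * D.card := by
    have h1 : 𝒯.card ≤ (Q + 1) ^ (R + 1) * D.card :=
      hfin.trans (Nat.mul_le_mul_left _ (card_le_card himg))
    exact_mod_cast h1
  have e : c' / (R + 1) / ((Q : ℝ) + 1) ^ (R + 1) * 2 ^ (Q * T) =
      (c' * 2 ^ (Q * T) / (R + 1)) / ((Q : ℝ) + 1) ^ (R + 1) := by
    field_simp
  rw [e, div_le_iff₀ (by positivity)]
  refine hcard1.trans (hfin2.trans (le_of_eq ?_))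
  ring

theorem density (hSW : SWH) : ∃ c : ℝ, 0 < c ∧ ∃ N₀ : ℕ, ∀ N : ℕ, N₀ ≤ N → ∀ D : Finset ℕ,
    (∀ d, 1 ≤ d → d ≤ N → GoodD d → d ∈ D) → c * N ≤ D.card := by
  obtain ⟨c, hc, Q, hQ1, R, T₀, h⟩ := count_T hSW
  refine ⟨c / 2 ^ (Q + R + 2), by positivity, 2 ^ (Q * T₀ + R + 2), fun N hN D hD => ?_⟩
  have hN0 : N ≠ 0 := by
    have : 0 < 2 ^ (Q * T₀ + R + 2) := by positivity
    omega
  obtain ⟨t, ht⟩ : ∃ t, t = Nat.log 2 N := ⟨_, rfl⟩
  have ht1 : Q * T₀ + R + 2 ≤ t := by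
    rw [ht]; exact (Nat.le_log_iff_pow_le (by norm_num) hN0).mpr hN
  obtain ⟨T, hT⟩ : ∃ T, T = (t - (R + 2)) / Q := ⟨_, rfl⟩
  have hT0 : T₀ ≤ T := by
    rw [hT, Nat.le_div_iff_mul_le hQ1, mul_comm]; omega
  have hQT : Q * T ≤ t - (R + 2) := by rw [hT]; exact Nat.mul_div_le _ _
  have hQT2 : t - (R + 2) < Q * T + Q := by
    have := Nat.lt_mul_div_succ (t - (R + 2)) (show 0 < Q by omega)
    rw [← hT] at this
    linarith
  have h1 := h T hT0 D (fun d hd1 hd2 hd3 => hD d hd1 (hd2.trans (by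
    calc 2 ^ (Q * T + R + 2) ≤ 2 ^ t := Nat.pow_le_pow_right (by norm_num) (by omega)
      _ ≤ N := by rw [ht]; exact Nat.pow_log_le_self 2 hN0)) hd3)
  refine le_trans ?_ h1
  have h2 : N < 2 ^ (t + 1) := by rw [ht]; exact Nat.lt_pow_succ_log_self (by norm_num) N
  have h3 : N ≤ 2 ^ (Q * T) * 2 ^ (Q + R + 2) := by
    rw [← pow_add]
    refine h2.le.trans (Nat.pow_le_pow_right (by norm_num) (by omega))
  have h4 : (N : ℝ) ≤ 2 ^ (Q * T) * 2 ^ (Q + R + 2) := by exact_mod_cast h3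
  calc c / 2 ^ (Q + R + 2) * N ≤ c / 2 ^ (Q + R + 2) * (2 ^ (Q * T) * 2 ^ (Q + R + 2)) :=
        mul_le_mul_of_nonneg_left h4 (by positivity)
    _ = c * 2 ^ (Q * T) := by field_simp

end Vale.Agent.P017.PP
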